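import Vale.Agent.P144.H170.Loc

/-!
The limit of a sequence of discrete spinors, encoded by a single-valued holomorphic function.
-/

namespace Vale.Agent.P144.H170

open Filter Topology Complex

section data

variable {ι κ κ' : Type*} [Fintype κ] [Fintype κ']

/-- The centre of the face `r`. -/
noncomputable def cF (a : ℝ) (r : Site) : ℂ := ⟨a * (r.1 + 1 / 2), a * (r.2 + 1 / 2)⟩

/-- The product of the square roots, with cuts up from the faces `r` and down from the sites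
`v`. -/
noncomputable def RR (a : ℝ) (r : κ → Site) (v : κ' → Site) (w : ℂ) : ℂ :=
  (∏ p, rtu (w - cF a (r p))) * ∏ q, rtd (w - pt a (v q))

open Classical in
/-- The product of the square roots, where the cuts of the pattern are turned. -/
noncomputable def RS (S : κ → Prop) (S' : κ' → Prop) (ζ : κ → ℂ) (ω : κ' → ℂ) (w : ℂ) : ℂ :=
  (∏ p, if S p then rtd (w - ζ p) else rtu (w - ζ p)) *
    ∏ q, if S' q then rtu (w - ω q) else rtd (w - ω q)

theorem RS_sq (S : κ → Prop) (S' : κ' → Prop) (ζ : κ → ℂ) (ω : κ' → ℂ) (w : ℂ) :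
    RS S S' ζ ω w * RS S S' ζ ω w = (∏ p, (w - ζ p)) * ∏ q, (w - ω q) := by
  classical
  unfold RS
  rw [mul_mul_mul_comm, ← Finset.prod_mul_distrib, ← Finset.prod_mul_distrib]
  congr 1
  · refine Finset.prod_congr rfl fun p _ => ?_
    split_ifs
    · exact rtd_mul_self _
    · exact rtu_mul_self _
  · refine Finset.prod_congr rfl fun p _ => ?_
    split_ifs
    · exact rtu_mul_self _
    · exact rtd_mul_self _

theorem RR_sq (a : ℝ) (r : κ → Site) (v : κ' → Site) (w : ℂ) :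
    RR a r v w * RR a r v w = (∏ p, (w - cF a (r p))) * ∏ q, (w - pt a (v q)) := by
  unfold RR
  rw [mul_mul_mul_comm, ← Finset.prod_mul_distrib, ← Finset.prod_mul_distrib]
  congr 1
  · exact Finset.prod_congr rfl fun p _ => rtu_mul_self _
  · exact Finset.prod_congr rfl fun p _ => rtd_mul_self _

theorem sg_mul_pos {a : ℝ} (ha : 0 < a) (t : ℝ) : sg (a * t) = sg t := by
  unfold sg
  by_cases h : 0 < t
  · rw [if_pos h, if_pos (by positivity)]
  · rw [if_neg h, if_neg]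
    push Not at h ⊢
    nlinarith

theorem quarter_ne (m n : ℤ) {s : ℝ} (hs : s = 1 / 4 ∨ s = 3 / 4) :
    (m:ℝ) + s - n - 1 / 2 ≠ 0 ∧ (m:ℝ) + s - n ≠ 0 := by
  have key : ∀ k : ℤ, (4 * (m:ℝ) - 4 * n ≠ k ∨ k % 4 = 0) := by
    intro k
    by_cases h : (4 * (m:ℝ) - 4 * n = k)
    · right
      have : 4 * m - 4 * n = k := by exact_mod_cast h
      lia
    · left; exact h
  rcases hs with rfl | rfl
  · constructor
    · intro h
      rcases key 1 with h1 | h1
      · apply h1; push_cast; linarith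
      · norm_num at h1
    · intro h
      rcases key (-1) with h1 | h1
      · apply h1; push_cast; linarith
      · norm_num at h1
  · constructor
    · intro h
      rcases key (-1) with h1 | h1
      · apply h1; push_cast; linarith
      · norm_num at h1
    · intro h
      rcases key (-3) with h1 | h1
      · apply h1; push_cast; linarith
      · norm_num at h1

open Classical in
/-- The gauge function relates the two products of roots. -/
theorem RR_eq (S : κ → Prop) (S' : κ' → Prop) {a : ℝ} (ha : 0 < a) (r : κ → Site)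
    (v : κ' → Site) (x : Pt) {s : ℝ} (hs : s = 1 / 4 ∨ s = 3 / 4) (t : ℝ) :
    RR a r v (pos a x s t) = (gs S S' r v (x.1 + s) : ℂ) *
      RS S S' (fun p => cF a (r p)) (fun q => pt a (v q)) (pos a x s t) := by
  unfold RR RS gs
  push_cast
  rw [mul_mul_mul_comm, ← Finset.prod_mul_distrib, ← Finset.prod_mul_distrib]
  have e1 : ∀ p, (pos a x s t - cF a (r p)).re = a * ((x.1:ℝ) + s - (r p).1 - 1 / 2) := by
    intro p; simp only [pos, cF, sub_re]; ring
  have e2 : ∀ q, (pos a x s t - pt a (v q)).re = a * ((x.1:ℝ) + s - (v q).1) := by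
    intro p; simp only [pos, pt, sub_re]; ring
  congr 1
  · refine Finset.prod_congr rfl fun p _ => ?_
    split_ifs with h
    · rw [rtu_eq_sg, e1, sg_mul_pos ha]
      rw [e1]
      exact mul_ne_zero ha.ne' (quarter_ne _ _ hs).1
    · simp
  · refine Finset.prod_congr rfl fun p _ => ?_
    split_ifs with h
    · rw [rtd_eq_sg, e2, sg_mul_pos ha]
      rw [e2]
      exact mul_ne_zero ha.ne' (quarter_ne _ _ hs).2
    · simp

variable {l : Filter ι} {a : ι → ℝ}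

theorem pos_nf (ha : Tendsto a l (𝓝[>] 0)) (z : ℂ) (s t : ℝ) :
    Tendsto (fun kx : ι × Pt => pos (a kx.1) kx.2 s t) (nf l a z) (𝓝 z) := by
  have h1 : Tendsto (fun kx : ι × Pt => ((a kx.1 : ℝ) : ℂ)) (nf l a z) (𝓝 0) := by
    have := (continuous_ofReal.tendsto 0).comp (a_nf ha z)
    rw [ofReal_zero] at this
    exact this
  have h2 := (tendsto_pt_nf (l := l) (a := a) z).add (h1.mul_const (⟨s, t⟩ : ℂ))
  rw [zero_mul, add_zero] at h2
  exact h2.congr fun kx => (pos_eq _ _ _ _).symm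

theorem cF_lim (ha : Tendsto a l (𝓝[>] 0)) {r : ι → Site} {w : ℂ}
    (hr : Tendsto (fun k => pt (a k) (r k)) l (𝓝 w)) : Tendsto (fun k => cF (a k) (r k)) l (𝓝 w) := by
  have h1 : Tendsto (fun k => ((a k : ℝ) : ℂ)) l (𝓝 0) := by
    have := (continuous_ofReal.tendsto 0).comp (ha.mono_right nhdsWithin_le_nhds)
    rw [ofReal_zero] at this
    exact this
  have h2 := hr.add (h1.mul_const (⟨1 / 2, 1 / 2⟩ : ℂ))
  rw [zero_mul, add_zero] at h2
  refine h2.congr fun k => ?_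
  apply Complex.ext <;> simp [cF, pt] <;> ring

variable {r : κ → ι → Site} {v : κ' → ι → Site} {ζ : κ → ℂ} {ω : κ' → ℂ}
  {S : κ → Prop} {S' : κ' → Prop}

omit [Fintype κ] [Fintype κ'] in
open Classical in
theorem RS_cont {z : ℂ} (hz : z ∈ VS S S' ζ ω) :
    (∀ p, DifferentiableAt ℂ (fun w => if S p then rtd w else rtu w) (z - ζ p)) ∧
    ∀ q, DifferentiableAt ℂ (fun w => if S' q then rtu w else rtd w) (z - ω q) := by
  constructor
  · intro p
    by_cases h : S p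
    · simp only [if_pos h]
      exact rtd_diff (Or.inr ((hz.1 p).1 h))
    · simp only [if_neg h]
      exact rtu_diff ((hz.1 p).2 h)
  · intro p
    by_cases h : S' p
    · simp only [if_pos h]
      exact rtu_diff (Or.inr ((hz.2 p).1 h))
    · simp only [if_neg h]
      exact rtd_diff ((hz.2 p).2 h)

theorem RS_diff {z : ℂ} (hz : z ∈ VS S S' ζ ω) : DifferentiableAt ℂ (RS S S' ζ ω) z := by
  classical
  obtain ⟨h1, h2⟩ := RS_cont hz
  unfold RS
  refine DifferentiableAt.mul ?_ ?_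
  · refine DifferentiableAt.fun_finsetProd fun p _ => ?_
    exact (h1 p).comp z (differentiableAt_id.sub_const (ζ p))
  · refine DifferentiableAt.fun_finsetProd fun p _ => ?_
    exact (h2 p).comp z (differentiableAt_id.sub_const (ω p))

omit [Fintype κ] [Fintype κ'] in
theorem VS_ne {z : ℂ} (hz : z ∈ VS S S' ζ ω) : (∀ p, z ≠ ζ p) ∧ ∀ q, z ≠ ω q := by
  constructor
  · rintro p rfl
    by_cases h : S p
    · have := (hz.1 p).1 h; simp at this
    · have := (hz.1 p).2 h; simp at this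
  · rintro p rfl
    by_cases h : S' p
    · have := (hz.2 p).1 h; simp at this
    · have := (hz.2 p).2 h; simp at this

theorem RS_ne {z : ℂ} (hz : z ∈ VS S S' ζ ω) : RS S S' ζ ω z ≠ 0 := by
  intro h
  have := RS_sq S S' ζ ω z
  rw [h, mul_zero] at this
  rcases mul_eq_zero.1 this.symm with h1 | h1
  · obtain ⟨p, _, hp⟩ := Finset.prod_eq_zero_iff.1 h1
    exact (VS_ne hz).1 p (sub_eq_zero.1 hp)
  · obtain ⟨p, _, hp⟩ := Finset.prod_eq_zero_iff.1 h1
    exact (VS_ne hz).2 p (sub_eq_zero.1 hp)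

theorem RS_lim (ha : Tendsto a l (𝓝[>] 0))
    (hr : ∀ p, Tendsto (fun k => pt (a k) (r p k)) l (𝓝 (ζ p)))
    (hv : ∀ q, Tendsto (fun k => pt (a k) (v q k)) l (𝓝 (ω q))) {z : ℂ}
    (hz : z ∈ VS S S' ζ ω) (s t : ℝ) :
    Tendsto (fun kx : ι × Pt => RS S S' (fun p => cF (a kx.1) (r p kx.1))
      (fun q => pt (a kx.1) (v q kx.1)) (pos (a kx.1) kx.2 s t)) (nf l a z)
      (𝓝 (RS S S' ζ ω z)) := by
  classical
  obtain ⟨h1, h2⟩ := RS_cont hz
  unfold RS
  refine Tendsto.mul ?_ ?_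
  · refine tendsto_finsetProd _ fun p _ => ?_
    exact (h1 p).continuousAt.tendsto.comp ((pos_nf ha z s t).sub
      ((cF_lim ha (hr p)).comp (tendsto_fst_nf z)))
  · refine tendsto_finsetProd _ fun p _ => ?_
    exact (h2 p).continuousAt.tendsto.comp ((pos_nf ha z s t).sub
      ((hv p).comp (tendsto_fst_nf z)))

/-- The four components of a spinor. -/
noncomputable def phA : ℂ →L[ℝ] ℝ := reCLM
noncomputable def phB : ℂ →L[ℝ] ℝ := (1 / √2) • (reCLM - imCLM)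
noncomputable def phC : ℂ →L[ℝ] ℝ := (1 / √2) • (reCLM + imCLM)
noncomputable def phE : ℂ →L[ℝ] ℝ := -imCLM

theorem phA_apply (z : ℂ) : phA z = z.re := rfl
theorem phB_apply (z : ℂ) : phB z = (z.re - z.im) / √2 := by
  simp [phB]; ring
theorem phC_apply (z : ℂ) : phC z = (z.re + z.im) / √2 := by
  simp [phC]; ring
theorem phE_apply (z : ℂ) : phE z = -z.im := rfl

/-- `q` encodes the limit of the field `X` (component `φ`, sitting at `s`, `t` in the faces). -/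
def XLim (l : Filter ι) (a : ι → ℝ) (U : Set ℂ) (r : κ → ι → Site) (v : κ' → ι → Site)
    (φ : ℂ →L[ℝ] ℝ) (s t : ℝ) (X : ι → Pt → ℝ) (q : ℂ → ℂ) : Prop :=
  ∀ z ∈ U, Tendsto (fun kx : ι × Pt => X kx.1 kx.2 -
    φ (q z / RR (a kx.1) (fun p => r p kx.1) (fun q => v q kx.1) (pos (a kx.1) kx.2 s t)))
    (nf l a z) (𝓝 0)

theorem gs_bdd (S : κ → Prop) (S' : κ' → Prop) (r : κ → Site) (v : κ' → Site) (t : ℝ) :
    |gs S S' r v t| = 1 := by
  have h := gs_sq S S' r v t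
  rcases mul_self_eq_one_iff.1 h with h | h <;> rw [h] <;> simp

section

variable (ha : Tendsto a l (𝓝[>] 0))
    (hr : ∀ p, Tendsto (fun k => pt (a k) (r p k)) l (𝓝 (ζ p)))
    (hv : ∀ q, Tendsto (fun k => pt (a k) (v q k)) l (𝓝 (ω q)))

include ha hr hv

theorem div_RR_lim {z : ℂ} (hz : z ∈ VS S S' ζ ω) {s : ℝ} (hs : s = 1 / 4 ∨ s = 3 / 4) (t : ℝ)
    (φ : ℂ →L[ℝ] ℝ) (w : ℂ) :
    Tendsto (fun kx : ι × Pt => gs S S' (fun p => r p kx.1) (fun q => v q kx.1)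
      ((kx.2.1:ℝ) + s) * φ (w / RR (a kx.1) (fun p => r p kx.1) (fun q => v q kx.1)
        (pos (a kx.1) kx.2 s t))) (nf l a z) (𝓝 (φ (w / RS S S' ζ ω z))) := by
  have h1 := (φ.continuous.tendsto _).comp
    ((tendsto_const_nhds (x := w)).div (RS_lim ha hr hv hz s t) (RS_ne hz))
  refine h1.congr' ?_
  filter_upwards [apos_nf ha z] with kx h0
  have h2 := gs_sq S S' (fun p => r p kx.1) (fun q => v q kx.1) ((kx.2.1:ℝ) + s)
  set g := gs S S' (fun p => r p kx.1) (fun q => v q kx.1) ((kx.2.1:ℝ) + s) with hg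
  rw [RR_eq S S' h0 _ _ _ hs t, ← hg]
  have h3 : g * φ (w / ((g:ℂ) * RS S S' (fun p => cF (a kx.1) (r p kx.1))
      (fun q => pt (a kx.1) (v q kx.1)) (pos (a kx.1) kx.2 s t))) =
      φ (g • (w / ((g:ℂ) * RS S S' (fun p => cF (a kx.1) (r p kx.1))
      (fun q => pt (a kx.1) (v q kx.1)) (pos (a kx.1) kx.2 s t)))) := by
    rw [map_smul, smul_eq_mul]
  rw [h3]
  simp only [Function.comp_apply, Pi.div_apply]
  congr 1
  have hg0 : (g:ℂ) ≠ 0 := by
    intro h; rw [ofReal_eq_zero] at h; rw [h] at h2; norm_num at h2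
  rw [real_smul]
  field_simp

/-- From the limit of the gauge-transformed field to `XLim`. -/
theorem xlim_of {z : ℂ} (hz : z ∈ VS S S' ζ ω) {s : ℝ} (hs : s = 1 / 4 ∨ s = 3 / 4) (t : ℝ)
    (φ : ℂ →L[ℝ] ℝ) {X : ι → Pt → ℝ} {w : ℂ}
    (hX : Tendsto (fun kx : ι × Pt => gs S S' (fun p => r p kx.1) (fun q => v q kx.1)
      ((kx.2.1:ℝ) + s) * X kx.1 kx.2) (nf l a z) (𝓝 (φ (w / RS S S' ζ ω z)))) :
    Tendsto (fun kx : ι × Pt => X kx.1 kx.2 -
      φ (w / RR (a kx.1) (fun p => r p kx.1) (fun q => v q kx.1) (pos (a kx.1) kx.2 s t)))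
      (nf l a z) (𝓝 0) := by
  have h1 := hX.sub (div_RR_lim ha hr hv hz hs t φ w)
  rw [sub_self] at h1
  rw [tendsto_zero_iff_norm_tendsto_zero] at h1 ⊢
  refine h1.congr fun kx => ?_
  rw [← mul_sub, norm_mul, Real.norm_eq_abs, gs_bdd, one_mul]

/-- From `XLim` to the limit of the gauge-transformed field. -/
theorem of_xlim {z : ℂ} (hz : z ∈ VS S S' ζ ω) {s : ℝ} (hs : s = 1 / 4 ∨ s = 3 / 4) (t : ℝ)
    (φ : ℂ →L[ℝ] ℝ) {X : ι → Pt → ℝ} {w : ℂ}
    (hX : Tendsto (fun kx : ι × Pt => X kx.1 kx.2 -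
      φ (w / RR (a kx.1) (fun p => r p kx.1) (fun q => v q kx.1) (pos (a kx.1) kx.2 s t)))
      (nf l a z) (𝓝 0)) :
    Tendsto (fun kx : ι × Pt => gs S S' (fun p => r p kx.1) (fun q => v q kx.1)
      ((kx.2.1:ℝ) + s) * X kx.1 kx.2) (nf l a z) (𝓝 (φ (w / RS S S' ζ ω z))) := by
  have h1 : Tendsto (fun kx : ι × Pt => gs S S' (fun p => r p kx.1) (fun q => v q kx.1)
      ((kx.2.1:ℝ) + s) * (X kx.1 kx.2 -
      φ (w / RR (a kx.1) (fun p => r p kx.1) (fun q => v q kx.1) (pos (a kx.1) kx.2 s t))))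
      (nf l a z) (𝓝 0) := by
    rw [tendsto_zero_iff_norm_tendsto_zero] at hX ⊢
    refine hX.congr fun kx => ?_
    rw [norm_mul, Real.norm_eq_abs (gs _ _ _ _ _), gs_bdd, one_mul]
  have h2 := h1.add (div_RR_lim ha hr hv hz hs t φ w)
  rw [zero_add] at h2
  refine h2.congr fun kx => ?_
  ring

theorem XLim.gauge {U : Set ℂ} {s : ℝ}
    (hs : s = 1 / 4 ∨ s = 3 / 4) (t : ℝ) (φ : ℂ →L[ℝ] ℝ) {X : ι → Pt → ℝ} {q : ℂ → ℂ}
    (h : XLim l a U r v φ s t X q) :
    ∀ z ∈ U, ∀ S S', z ∈ VS S S' ζ ω → Tendsto (fun kx : ι × Pt =>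
      gs S S' (fun p => r p kx.1) (fun q => v q kx.1)
      ((kx.2.1:ℝ) + s) * X kx.1 kx.2) (nf l a z) (𝓝 (φ (q z / RS S S' ζ ω z))) :=
  fun z hz _ _ hS => of_xlim ha hr hv hS hs t φ (h z hz)

end

/-- The limit of a sequence of spinors. -/
structure SLim (l : Filter ι) (a : ι → ℝ) (U : Set ℂ) (r : κ → ι → Site) (v : κ' → ι → Site)
    (A B C E : ι → Pt → ℝ) (q : ℂ → ℂ) : Prop where
  A : XLim l a U r v phA (1 / 4) (1 / 4) A q
  B : XLim l a U r v phB (3 / 4) (1 / 4) B q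
  C : XLim l a U r v phC (1 / 4) (3 / 4) C q
  E : XLim l a U r v phE (3 / 4) (3 / 4) E q

/-- The gauge transformation makes the relations clean. -/
theorem clean_of_rel {l : Filter ι} (ha : Tendsto a l (𝓝[>] 0)) {U : Set ℂ}
    (hr : ∀ p, Tendsto (fun k => pt (a k) (r p k)) l (𝓝 (ζ p)))
    (hv : ∀ q, Tendsto (fun k => pt (a k) (v q k)) l (𝓝 (ω q)))
    {A B C E : ι → Pt → ℝ} (hrel : RelOn l a U r v A B C E) (S : κ → Prop) (S' : κ' → Prop) :
    Clean l a (U ∩ VS S S' ζ ω)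
      (fun k x => gs S S' (fun p => r p k) (fun q => v q k) ((x.1:ℝ) + 1 / 4) * A k x)
      (fun k x => gs S S' (fun p => r p k) (fun q => v q k) ((x.1:ℝ) + 3 / 4) * B k x)
      (fun k x => gs S S' (fun p => r p k) (fun q => v q k) ((x.1:ℝ) + 1 / 4) * C k x)
      (fun k x => gs S S' (fun p => r p k) (fun q => v q k) ((x.1:ℝ) + 3 / 4) * E k x) := by
  intro z hz
  have h1 := hrel z hz.1
  have h2 := gauge_signs ha hr hv hz.2
  refine (ev_nf (P := fun k x => CR4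
      (fun x => gs S S' (fun p => r p k) (fun q => v q k) ((x.1:ℝ) + 1 / 4) * A k x)
      (fun x => gs S S' (fun p => r p k) (fun q => v q k) ((x.1:ℝ) + 3 / 4) * B k x)
      (fun x => gs S S' (fun p => r p k) (fun q => v q k) ((x.1:ℝ) + 1 / 4) * C k x)
      (fun x => gs S S' (fun p => r p k) (fun q => v q k) ((x.1:ℝ) + 3 / 4) * E k x) x)).1 ?_
  filter_upwards [h1, h2] with kx h3 h4
  obtain ⟨k, x⟩ := kx
  obtain ⟨k1, k2, k3, k4⟩ := h3
  obtain ⟨t1, t2⟩ := h4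
  simp only at k1 k2 k3 k4 t1 t2
  have g1 := gs_sq S S' (fun p => r p k) (fun q => v q k) ((x.1:ℝ) + 1 / 4)
  have g3 := gs_sq S S' (fun p => r p k) (fun q => v q k) ((x.1:ℝ) + 3 / 4)
  have e5 : (((x + ((1:ℤ), (0:ℤ))).1 : ℤ) : ℝ) + 1 / 4 = (x.1:ℝ) + 5 / 4 := by
    simp only [Prod.fst_add]; push_cast; ring
  have e6 : (((x + ((0:ℤ), (1:ℤ))).1 : ℤ) : ℝ) = (x.1:ℝ) := by simp
  unfold CR4
  simp only [e5, e6]
  rw [t1] at k1 k2
  rw [t2] at k3 k4
  set G1 := gs S S' (fun p => r p k) (fun q => v q k) ((x.1:ℝ) + 1 / 4)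
  set G3 := gs S S' (fun p => r p k) (fun q => v q k) ((x.1:ℝ) + 3 / 4)
  set G5 := gs S S' (fun p => r p k) (fun q => v q k) ((x.1:ℝ) + 5 / 4)
  refine ⟨?_, ?_, ?_, ?_⟩
  · rw [k1]; linear_combination (-G3 * B k (x + (0, 1))) * g1
  · rw [k2]; linear_combination (-G1 * A k (x + (0, 1))) * g3
  · rw [k3]; linear_combination (G5 * (√2 * A k (x + (1, 0)) - C k (x + (1, 0)))) * g3
  · rw [k4]; linear_combination (-G5 * (√2 * C k (x + (1, 0)) - A k (x + (1, 0)))) * g3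

theorem L2on.gauge {l : Filter ι} {U V : Set ℂ} {X : ι → Pt → ℝ} (h : L2on l a U X)
    (S : κ → Prop) (S' : κ' → Prop) (s : ℝ) :
    L2on l a (U ∩ V) (fun k x => gs S S' (fun p => r p k) (fun q => v q k) ((x.1:ℝ) + s) *
      X k x) := by
  intro z hz
  obtain ⟨ρ, hρ, M, hM⟩ := h z hz.1
  refine ⟨ρ, hρ, M, ?_⟩
  filter_upwards [hM] with k h1 T hT
  refine le_trans (le_of_eq ?_) (h1 T hT)
  congr 1
  refine Finset.sum_congr rfl fun x _ => ?_
  rw [mul_pow, pow_two (gs _ _ _ _ _), gs_sq, one_mul]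

/-- **Existence of the limit**: local form. -/
theorem slim_exists {l : Ultrafilter ι} (ha : Tendsto a l (𝓝[>] 0)) {U : Set ℂ} (hU : IsOpen U)
    (hr : ∀ p, Tendsto (fun k => pt (a k) (r p k)) l (𝓝 (ζ p)))
    (hv : ∀ q, Tendsto (fun k => pt (a k) (v q k)) l (𝓝 (ω q)))
    (hU' : ∀ z ∈ U, (∀ p, z ≠ ζ p) ∧ ∀ q, z ≠ ω q)
    {A B C E : ι → Pt → ℝ} (hrel : RelOn l a U r v A B C E)
    (hB : L2on l a U B) (hC : L2on l a U C) :
    ∃ q : ℂ → ℂ, DifferentiableOn ℂ q U ∧ SLim l a U r v A B C E q := by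
  have ne : ∀ z, NeBot (nf l a z) := fun z => nf_neBot ha z
  -- the function
  set Z : ι × Pt → ℂ := fun kx => RR (a kx.1) (fun p => r p kx.1) (fun q => v q kx.1)
      (pos (a kx.1) kx.2 (1 / 4) (1 / 4)) * A kx.1 kx.2 -
      RR (a kx.1) (fun p => r p kx.1) (fun q => v q kx.1)
      (pos (a kx.1) kx.2 (3 / 4) (3 / 4)) * E kx.1 kx.2 * I with hZ
  have key : ∀ S S', ∃ f : ℂ → ℂ, DifferentiableOn ℂ f (U ∩ VS S S' ζ ω) ∧
      ∀ z ∈ U ∩ VS S S' ζ ω,
        Tendsto (fun kx : ι × Pt => gs S S' (fun p => r p kx.1) (fun q => v q kx.1)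
          ((kx.2.1:ℝ) + 1 / 4) * A kx.1 kx.2) (nf l a z) (𝓝 (phA (f z))) ∧
        Tendsto (fun kx : ι × Pt => gs S S' (fun p => r p kx.1) (fun q => v q kx.1)
          ((kx.2.1:ℝ) + 3 / 4) * B kx.1 kx.2) (nf l a z) (𝓝 (phB (f z))) ∧
        Tendsto (fun kx : ι × Pt => gs S S' (fun p => r p kx.1) (fun q => v q kx.1)
          ((kx.2.1:ℝ) + 1 / 4) * C kx.1 kx.2) (nf l a z) (𝓝 (phC (f z))) ∧
        Tendsto (fun kx : ι × Pt => gs S S' (fun p => r p kx.1) (fun q => v q kx.1)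
          ((kx.2.1:ℝ) + 3 / 4) * E kx.1 kx.2) (nf l a z) (𝓝 (phE (f z))) ∧
        Tendsto Z (nf l a z) (𝓝 (RS S S' ζ ω z * f z)) := by
    intro S S'
    obtain ⟨f, hf, cA, cB, cC, cE⟩ := clean_lim ha (hU.inter (VS_open S S' ζ ω))
      (clean_of_rel ha hr hv hrel S S') (hB.gauge S S' (3 / 4)) (hC.gauge S S' (1 / 4))
    rw [cconv_iff] at cA cB cC cE
    refine ⟨f, hf, fun z hz => ⟨cA z hz, ?_, ?_, cE z hz, ?_⟩⟩
    · rw [phB_apply]; exact cB z hz
    · rw [phC_apply]; exact cC z hz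
    · have k1 := (RS_lim ha hr hv hz.2 (1 / 4) (1 / 4)).mul
        ((continuous_ofReal.tendsto _).comp (cA z hz))
      have k2 := ((RS_lim ha hr hv hz.2 (3 / 4) (3 / 4)).mul
        ((continuous_ofReal.tendsto _).comp (cE z hz))).mul_const I
      have k3 := k1.sub k2
      have e : RS S S' ζ ω z * ((f z).re : ℂ) - RS S S' ζ ω z * ((-(f z).im : ℝ) : ℂ) * I =
          RS S S' ζ ω z * f z := by
        conv_rhs => rw [← re_add_im (f z)]
        push_cast; ring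
      rw [e] at k3
      refine k3.congr' ?_
      filter_upwards [apos_nf ha z] with kx h0
      simp only [hZ, Function.comp_apply]
      rw [RR_eq S S' h0 _ _ _ (Or.inl rfl) (1 / 4), RR_eq S S' h0 _ _ _ (Or.inr rfl) (3 / 4)]
      push_cast
      ring
  refine ⟨fun z => (nf l a z).limUnder Z, ?_, ?_⟩
  · intro z hz
    obtain ⟨S, S', hS⟩ := exists_pattern (hU' z hz).1 (hU' z hz).2
    obtain ⟨f, hf, hf'⟩ := key S S'
    have hV : U ∩ VS S S' ζ ω ∈ 𝓝 z := (hU.inter (VS_open S S' ζ ω)).mem_nhds ⟨hz, hS⟩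
    have h1 : DifferentiableAt ℂ (fun w => RS S S' ζ ω w * f w) z :=
      (RS_diff hS).mul (hf.differentiableAt hV)
    refine (h1.congr_of_eventuallyEq ?_).differentiableWithinAt
    filter_upwards [hV] with w hw
    exact (hf' w hw).2.2.2.2.limUnder_eq
  · have hq : ∀ z ∈ U, ∃ S S', z ∈ VS S S' ζ ω ∧ ∃ f : ℂ → ℂ,
        (nf l a z).limUnder Z / RS S S' ζ ω z = f z ∧
        Tendsto (fun kx : ι × Pt => gs S S' (fun p => r p kx.1) (fun q => v q kx.1)
          ((kx.2.1:ℝ) + 1 / 4) * A kx.1 kx.2) (nf l a z) (𝓝 (phA (f z))) ∧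
        Tendsto (fun kx : ι × Pt => gs S S' (fun p => r p kx.1) (fun q => v q kx.1)
          ((kx.2.1:ℝ) + 3 / 4) * B kx.1 kx.2) (nf l a z) (𝓝 (phB (f z))) ∧
        Tendsto (fun kx : ι × Pt => gs S S' (fun p => r p kx.1) (fun q => v q kx.1)
          ((kx.2.1:ℝ) + 1 / 4) * C kx.1 kx.2) (nf l a z) (𝓝 (phC (f z))) ∧
        Tendsto (fun kx : ι × Pt => gs S S' (fun p => r p kx.1) (fun q => v q kx.1)
          ((kx.2.1:ℝ) + 3 / 4) * E kx.1 kx.2) (nf l a z) (𝓝 (phE (f z))) := by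
      intro z hz
      obtain ⟨S, S', hS⟩ := exists_pattern (hU' z hz).1 (hU' z hz).2
      obtain ⟨f, hf, hf'⟩ := key S S'
      obtain ⟨g1, g2, g3, g4, g5⟩ := hf' z ⟨hz, hS⟩
      refine ⟨S, S', hS, f, ?_, g1, g2, g3, g4⟩
      rw [g5.limUnder_eq]
      have := RS_ne hS
      field_simp
    refine ⟨fun z hz => ?_, fun z hz => ?_, fun z hz => ?_, fun z hz => ?_⟩
    · obtain ⟨S, S', hS, f, e, g1, g2, g3, g4⟩ := hq z hz
      exact xlim_of ha hr hv hS (Or.inl rfl) _ _ (by rw [e]; exact g1)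
    · obtain ⟨S, S', hS, f, e, g1, g2, g3, g4⟩ := hq z hz
      exact xlim_of ha hr hv hS (Or.inr rfl) _ _ (by rw [e]; exact g2)
    · obtain ⟨S, S', hS, f, e, g1, g2, g3, g4⟩ := hq z hz
      exact xlim_of ha hr hv hS (Or.inl rfl) _ _ (by rw [e]; exact g3)
    · obtain ⟨S, S', hS, f, e, g1, g2, g3, g4⟩ := hq z hz
      exact xlim_of ha hr hv hS (Or.inr rfl) _ _ (by rw [e]; exact g4)

end data

end Vale.Agent.P144.H170
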