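import Mathlib.Analysis.Complex.HasPrimitives
import Mathlib.Analysis.Complex.RemovableSingularity
import Mathlib.Analysis.Complex.Liouville
import Mathlib.Analysis.Complex.ExponentialBounds
import Mathlib.Tactic

/-!
Real parts of primitives: gradient bound and residues.
-/

namespace Vale.Agent.P144.H170

open Filter Topology Complex Metric

/-- `h` has the differential `Re (G dz)` at `z`. -/
def HD (h : ℂ → ℝ) (G : ℂ → ℂ) (z : ℂ) : Prop :=
  HasFDerivAt h ((G z).re • reCLM + (-(G z).im) • imCLM) z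

theorem HD.comp {h : ℂ → ℝ} {G : ℂ → ℂ} {γ : ℝ → ℂ} {t : ℝ} {γ' : ℂ} (hh : HD h G (γ t))
    (hγ : HasDerivAt γ γ' t) : HasDerivAt (fun s => h (γ s)) (G (γ t) * γ').re t := by
  have h1 := HasFDerivAt.comp_hasDerivAt t hh hγ
  refine h1.congr_deriv ?_
  simp only [add_apply, smul_apply, reCLM_apply, imCLM_apply, smul_eq_mul, mul_re]
  ring

/-- Gradient bound by the supremum. -/
theorem grad_bound {h : ℂ → ℝ} {G : ℂ → ℂ} {z₀ : ℂ} {d m : ℝ} (hd : 0 < d) (hm : 0 < m)
    (hG : DifferentiableOn ℂ G (ball z₀ d)) (hh : ∀ z ∈ ball z₀ d, HD h G z)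
    (hb : ∀ z ∈ ball z₀ d, |h z| ≤ m) : ‖G z₀‖ ≤ 8 * m / d := by
  obtain ⟨F, hF⟩ := hG.isExactOn_ball
  have hz₀ : z₀ ∈ ball z₀ d := mem_ball_self hd
  -- `h - Re F` is constant
  have hF' : ∀ z ∈ ball z₀ d, HasFDerivAt (fun w => (F w).re)
      ((G z).re • reCLM + (-(G z).im) • imCLM) z := by
    intro z hz
    have h1 := (hF z hz).hasFDerivAt.restrictScalars ℝ
    have h2 := reCLM.hasFDerivAt.comp z h1
    refine h2.congr_fderiv ?_
    refine ContinuousLinearMap.ext fun w => ?_
    simp only [add_apply, smul_apply, reCLM_apply,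
      imCLM_apply, smul_eq_mul, ContinuousLinearMap.comp_apply,
      ContinuousLinearMap.coe_restrictScalars', ContinuousLinearMap.toSpanSingleton_apply, mul_re]
    ring
  have hconst : ∀ z ∈ ball z₀ d, h z - (F z).re = h z₀ - (F z₀).re := by
    intro z hz
    have hder : ∀ w ∈ ball z₀ d, HasFDerivAt (fun w => h w - (F w).re) (0 : ℂ →L[ℝ] ℝ) w := by
      intro w hw
      have := (hh w hw).sub (hF' w hw)
      rwa [sub_self] at this
    exact (isOpen_ball).is_const_of_fderiv_eq_zero (𝕜 := ℝ) (convex_ball z₀ d).isPreconnected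
      (fun w hw => (hder w hw).differentiableAt.differentiableWithinAt)
      (fun w hw => (hder w hw).fderiv) hz hz₀
  set t : ℝ := 1 / (2 * m) with ht
  have ht0 : 0 < t := by positivity
  set f : ℂ → ℂ := fun z => exp (t * (F z - F z₀)) with hf
  have hfb : ∀ z ∈ ball z₀ d, ‖f z‖ ≤ Real.exp 1 := by
    intro z hz
    simp only [hf]
    rw [norm_exp]
    refine Real.exp_le_exp.2 ?_
    have e : ((t : ℂ) * (F z - F z₀)).re = t * (h z - h z₀) := by
      rw [re_ofReal_mul, sub_re]
      congr 1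
      linarith [hconst z hz]
    rw [e, ht]
    have h1 := abs_le.1 (hb z hz)
    have h2 := abs_le.1 (hb z₀ hz₀)
    rw [div_mul_eq_mul_div, div_le_one (by positivity)]
    linarith
  have hfd : ∀ z ∈ ball z₀ d, HasDerivAt f (f z * (t * G z)) z := by
    intro z hz
    exact (((hF z hz).sub_const (F z₀)).const_mul (t : ℂ)).cexp
  have hρ : 0 < 3 * d / 4 := by positivity
  have hsub : closedBall z₀ (3 * d / 4) ⊆ ball z₀ d := closedBall_subset_ball (by linarith)
  have hdc : DiffContOnCl ℂ f (ball z₀ (3 * d / 4)) := by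
    refine DifferentiableOn.diffContOnCl ?_
    rw [closure_ball z₀ hρ.ne']
    exact fun z hz => (hfd z (hsub hz)).differentiableAt.differentiableWithinAt
  have hc := norm_deriv_le_of_forall_mem_sphere_norm_le hρ hdc
    (fun z hz => hfb z (hsub (sphere_subset_closedBall hz)))
  rw [(hfd z₀ hz₀).deriv] at hc
  have e1 : f z₀ = 1 := by simp [hf]
  rw [e1, one_mul, norm_mul, norm_real, Real.norm_of_nonneg ht0.le] at hc
  have he := Real.exp_one_lt_d9
  rw [le_div_iff₀ hρ] at hc
  rw [le_div_iff₀ hd]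
  have e2 : t * ‖G z₀‖ * (3 * d / 4) = ‖G z₀‖ * d * (3 / (8 * m)) := by
    rw [ht]; field_simp; ring
  rw [e2] at hc
  have h3 : ‖G z₀‖ * d * (3 / (8 * m)) ≤ 3 := by linarith
  have h4 : ‖G z₀‖ * d * 3 ≤ 3 * (8 * m) := by
    have := mul_le_mul_of_nonneg_right h3 (show 0 ≤ 8 * m by positivity)
    calc ‖G z₀‖ * d * 3 = ‖G z₀‖ * d * (3 / (8 * m)) * (8 * m) := by field_simp
      _ ≤ _ := this
  linarith

/-- The residue of `G` is real. -/
theorem res_real {h : ℂ → ℝ} {G Q : ℂ → ℂ} {c : ℂ} {R : ℝ} (hR : 0 < R)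
    (hQ : DifferentiableOn ℂ Q (ball c R)) (hG : ∀ z ∈ ball c R, z ≠ c → (z - c) * G z = Q z)
    (hh : ∀ z ∈ ball c R, z ≠ c → HD h G z) : (Q c).im = 0 := by
  set ρ := R / 2 with hρ
  have hρ0 : 0 < ρ := by positivity
  have hsub : closedBall c ρ ⊆ ball c R := closedBall_subset_ball (by linarith)
  have hmem : ∀ θ : ℝ, circleMap c ρ θ ∈ ball c R := fun θ =>
    hsub (circleMap_mem_closedBall c hρ0.le θ)
  have hne : ∀ θ : ℝ, circleMap c ρ θ ≠ c := fun θ => circleMap_ne_center hρ0.ne'
  have hdc : DiffContOnCl ℂ Q (ball c ρ) := by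
    refine DifferentiableOn.diffContOnCl ?_
    rw [closure_ball c hρ0.ne']
    exact hQ.mono hsub
  have h1 := hdc.circleIntegral_sub_inv_smul (mem_ball_self hρ0)
  have h2 : (∮ z in C(c, ρ), (z - c)⁻¹ • Q z) = ∫ θ in (0:ℝ)..2 * Real.pi,
      I * Q (circleMap c ρ θ) := by
    unfold circleIntegral
    refine intervalIntegral.integral_congr fun θ _ => ?_
    simp only [deriv_circleMap, smul_eq_mul]
    have e : circleMap c ρ θ - c = circleMap 0 ρ θ := by simp [circleMap]
    have e2 : circleMap 0 ρ θ ≠ 0 := circleMap_ne_center hρ0.ne'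
    rw [e]; field_simp
  rw [h2] at h1
  have hcont : Continuous fun θ : ℝ => I * Q (circleMap c ρ θ) :=
    continuous_const.mul (hQ.continuousOn.comp_continuous (continuous_circleMap c ρ) hmem)
  have h3 := (reCLM).intervalIntegral_comp_comm (μ := MeasureTheory.volume) (a := 0)
    (b := 2 * Real.pi) (hcont.intervalIntegrable 0 (2 * Real.pi))
  have hder : ∀ θ ∈ Set.uIcc 0 (2 * Real.pi), HasDerivAt (fun s => h (circleMap c ρ s))
      (reCLM (I * Q (circleMap c ρ θ))) θ := by
    intro θ _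
    have := HD.comp (γ := circleMap c ρ) (hh _ (hmem θ) (hne θ)) (hasDerivAt_circleMap c ρ θ)
    refine this.congr_deriv ?_
    rw [reCLM_apply, ← hG _ (hmem θ) (hne θ)]
    have e : circleMap c ρ θ - c = circleMap 0 ρ θ := by simp [circleMap]
    rw [e]
    congr 1; ring
  have h4 := intervalIntegral.integral_eq_sub_of_hasDerivAt hder
    ((reCLM.continuous.comp hcont).intervalIntegrable 0 (2 * Real.pi))
  have e5 : circleMap c ρ (2 * Real.pi) = circleMap c ρ 0 := by
    have := periodic_circleMap c ρ 0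
    simpa using this
  rw [e5, sub_self, h3, h1] at h4
  simp only [reCLM_apply, smul_eq_mul] at h4
  have e6 : ((2 * (Real.pi : ℂ) * I) * Q c).re = -(2 * Real.pi) * (Q c).im := by
    simp only [mul_re, mul_im, I_re, I_im, ofReal_re, ofReal_im, re_ofNat, im_ofNat]
    ring
  rw [e6] at h4
  have hpi := Real.pi_pos
  rcases mul_eq_zero.1 h4 with h5 | h5
  · linarith
  · exact h5

/-- If `h` is bounded above near the singularity then the residue is nonnegative. -/
theorem res_nonneg {h : ℂ → ℝ} {G Q : ℂ → ℂ} {c : ℂ} {R M : ℝ} (hR : 0 < R)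
    (hQ : DifferentiableOn ℂ Q (ball c R)) (hG : ∀ z ∈ ball c R, z ≠ c → (z - c) * G z = Q z)
    (hh : ∀ z ∈ ball c R, z ≠ c → HD h G z) (hM : ∀ z ∈ ball c R, z ≠ c → h z ≤ M) :
    0 ≤ (Q c).re := by
  by_contra hneg
  push Not at hneg
  set α := (Q c).re with hα
  have hcont : ContinuousAt Q c := (hQ.differentiableAt (isOpen_ball.mem_nhds
    (mem_ball_self hR))).continuousAt
  have hre : Tendsto (fun z => (Q z).re) (𝓝 c) (𝓝 α) := (continuous_re.tendsto _).comp hcont
  have hev : ∀ᶠ z in 𝓝 c, (Q z).re < α / 2 := hre.eventually (gt_mem_nhds (by linarith))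
  obtain ⟨δ, hδ, hδs⟩ := Metric.eventually_nhds_iff_ball.1 hev
  set s₀ := Real.log (min δ R / 2) with hs₀
  have hmin : 0 < min δ R := by positivity
  have key : ∀ s ≤ s₀, c + (Real.exp s : ℂ) ∈ ball c (min δ R) ∧ c + (Real.exp s : ℂ) ≠ c := by
    intro s hs
    constructor
    · rw [mem_ball, dist_eq_norm, add_sub_cancel_left, norm_real,
        Real.norm_of_nonneg (Real.exp_pos s).le]
      calc Real.exp s ≤ Real.exp s₀ := Real.exp_le_exp.2 hs
        _ = min δ R / 2 := Real.exp_log (by positivity)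
        _ < min δ R := by linarith
    · intro h0
      have : (Real.exp s : ℂ) = 0 := by linear_combination h0
      rw [ofReal_eq_zero] at this
      exact (Real.exp_pos s).ne' this
  have hder : ∀ s ≤ s₀, HasDerivAt (fun s : ℝ => h (c + (Real.exp s : ℂ)))
      (Q (c + (Real.exp s : ℂ))).re s := by
    intro s hs
    obtain ⟨k1, k2⟩ := key s hs
    have k3 := ball_subset_ball (min_le_right δ R) k1
    have d1 : HasDerivAt (fun s : ℝ => c + (Real.exp s : ℂ)) (Real.exp s : ℂ) s := by
      have := (Real.hasDerivAt_exp s).ofReal_comp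
      exact this.const_add c
    have := HD.comp (γ := fun s : ℝ => c + (Real.exp s : ℂ)) (hh _ k3 k2) d1
    refine this.congr_deriv ?_
    rw [← hG _ k3 k2, add_sub_cancel_left]
    congr 1; ring
  have hmono : ∀ s ≤ s₀, h (c + (Real.exp s₀ : ℂ)) - h (c + (Real.exp s : ℂ)) ≤
      α / 2 * (s₀ - s) := by
    intro s hs
    have := Convex.image_sub_le_mul_sub_of_deriv_le (convex_Icc s s₀)
      (f := fun s : ℝ => h (c + (Real.exp s : ℂ))) (C := α / 2)
      (fun x hx => (hder x hx.2).continuousAt.continuousWithinAt)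
      (fun x hx => (hder x (interior_subset hx).2).differentiableAt.differentiableWithinAt)
      (fun x hx => by
        have hx2 := (interior_subset hx).2
        rw [(hder x hx2).deriv]
        exact (hδs _ (ball_subset_ball (min_le_left δ R) (key x hx2).1)).le)
      s ⟨le_rfl, hs⟩ s₀ ⟨hs, le_rfl⟩ hs
    exact this
  set T := (|M| + |h (c + (Real.exp s₀ : ℂ))| + 1) / (-α / 2) with hT
  have hT0 : 0 < T := by
    have : 0 < -α / 2 := by linarith
    positivity
  have h1 := hmono (s₀ - T) (by linarith)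
  have k1 := key (s₀ - T) (by linarith)
  have h2 := hM _ (ball_subset_ball (min_le_right δ R) k1.1) k1.2
  have h3 : α / 2 * (s₀ - (s₀ - T)) = -(|M| + |h (c + (Real.exp s₀ : ℂ))| + 1) := by
    rw [hT]
    have : α ≠ 0 := by
      intro h0; linarith
    field_simp
    ring
  rw [h3] at h1
  have h4 := le_abs_self M
  have h5 := neg_abs_le (h (c + (Real.exp s₀ : ℂ)))
  linarith

/-- If `h` is bounded below near the singularity then the residue is nonpositive. -/
theorem res_nonpos {h : ℂ → ℝ} {G Q : ℂ → ℂ} {c : ℂ} {R M : ℝ} (hR : 0 < R)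
    (hQ : DifferentiableOn ℂ Q (ball c R)) (hG : ∀ z ∈ ball c R, z ≠ c → (z - c) * G z = Q z)
    (hh : ∀ z ∈ ball c R, z ≠ c → HD h G z) (hM : ∀ z ∈ ball c R, z ≠ c → -M ≤ h z) :
    (Q c).re ≤ 0 := by
  have := res_nonneg (h := fun z => -h z) (G := fun z => -G z) (Q := fun z => -Q z) (M := M) hR
    hQ.neg (fun z hz hzc => by rw [← hG z hz hzc]; ring) (fun z hz hzc => by
      have := (hh z hz hzc).neg
      unfold HD
      refine this.congr_fderiv ?_
      refine ContinuousLinearMap.ext fun w => ?_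
      simp only [neg_re, neg_im, add_apply, smul_apply, reCLM_apply, imCLM_apply, smul_eq_mul,
        neg_apply]
      ring) (fun z hz hzc => by linarith [hM z hz hzc])
  simp only [neg_re] at this
  linarith

end Vale.Agent.P144.H170
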