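import Vale.Agent.P144.H170.Bnd
import Vale.Agent.P144.H170.Harm

/-!
The limit theorem for spinors in the diamond with bounded masses.
-/

namespace Vale.Agent.P144.H170

open Filter Topology Complex Metric

section cont

variable {κ κ' : Type*} [Fintype κ] [Fintype κ'] {ζ : κ → ℂ} {ω : κ' → ℂ}

theorem norm_gq (q : ℂ → ℂ) (z : ℂ) : ‖F2 ζ ω q z‖ ≤ 2 * ‖gq ζ ω q z‖ := by
  unfold gq F2
  rw [norm_mul]
  have h : (1 / 2 : ℝ) ≤ ‖(⟨-1 / 2, 1 / 2⟩ : ℂ)‖ := by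
    have := abs_im_le_norm (⟨-1 / 2, 1 / 2⟩ : ℂ)
    norm_num at this ⊢
    exact this
  nlinarith [norm_nonneg (q z ^ 2 / PP ζ ω z)]

theorem PP_diff (z : ℂ) : DifferentiableAt ℂ (PP ζ ω) z := by
  unfold PP
  exact (DifferentiableAt.fun_finsetProd fun _ _ => by fun_prop).mul
    (DifferentiableAt.fun_finsetProd fun _ _ => by fun_prop)

theorem PP_ne {z : ℂ} (h : z ∉ Mk ζ ω) : PP ζ ω z ≠ 0 := by
  rw [notMem_Mk] at h
  unfold PP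
  exact mul_ne_zero (Finset.prod_ne_zero_iff.2 fun p _ => sub_ne_zero.2 (h.1 p))
    (Finset.prod_ne_zero_iff.2 fun p _ => sub_ne_zero.2 (h.2 p))

theorem gq_diff {q : ℂ → ℂ} {z : ℂ} (hq : DifferentiableAt ℂ q z) (h : z ∉ Mk ζ ω) :
    DifferentiableAt ℂ (gq ζ ω q) z := by
  unfold gq
  exact ((hq.pow 2).div (PP_diff z) (PP_ne h)).const_mul _

/-- The `ℓ¹` norm of a complex number. -/
noncomputable def n1 (z : ℂ) : ℝ := |z.re| + |z.im|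

theorem n1_sub (z w : ℂ) : n1 w ≤ n1 z + 2 * ‖w - z‖ := by
  unfold n1
  have h1 := abs_re_le_norm (w - z)
  have h2 := abs_im_le_norm (w - z)
  rw [sub_re] at h1
  rw [sub_im] at h2
  have h3 := abs_sub_abs_le_abs_sub w.re z.re
  have h4 := abs_sub_abs_le_abs_sub w.im z.im
  linarith

/-- (U1), local form. -/
theorem U1_of {q : ℂ → ℂ} {h : ℂ → ℝ} {z : ℂ} {M : ℝ} (hM : 0 < M) (hz : z ∈ Dia)
    (hb : ∀ w ∈ ball z ((1 - n1 z) / 4), w ∉ Mk ζ ω ∧ DifferentiableAt ℂ q w ∧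
      HD h (gq ζ ω q) w ∧ |h w| ≤ M * (1 - n1 w)) : ‖F2 ζ ω q z‖ ≤ 128 * M := by
  have hz' : n1 z < 1 := hz
  have hd : 0 < (1 - n1 z) / 4 := by linarith
  have key := grad_bound (h := h) (G := gq ζ ω q) (z₀ := z) (d := (1 - n1 z) / 4)
    (m := 2 * M * (1 - n1 z)) hd (by nlinarith)
    (fun w hw => (gq_diff (hb w hw).2.1 (hb w hw).1).differentiableWithinAt)
    (fun w hw => (hb w hw).2.2.1) (fun w hw => by
      refine (hb w hw).2.2.2.trans ?_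
      rw [mem_ball, dist_eq_norm] at hw
      have h1 := n1_sub w z
      rw [norm_sub_rev] at h1
      nlinarith)
  have h2 := norm_gq (ζ := ζ) (ω := ω) q z
  have e : 8 * (2 * M * (1 - n1 z)) / ((1 - n1 z) / 4) = 64 * M := by
    have : 1 - n1 z ≠ 0 := by linarith
    field_simp; ring
  rw [e] at key
  linarith

end cont

section res

variable {κ κ' : Type*} [Fintype κ] [Fintype κ'] {ζ : κ → ℂ}
  {ω : κ' → ℂ}

open Classical in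
/-- The product over the other marked points. -/
noncomputable def PZ (ζ : κ → ℂ) (ω : κ' → ℂ) (p : κ) (z : ℂ) : ℂ :=
  (∏ p' ∈ Finset.univ.erase p, (z - ζ p')) * ∏ q, (z - ω q)

open Classical in
/-- The product over the other marked points. -/
noncomputable def PO (ζ : κ → ℂ) (ω : κ' → ℂ) (p : κ') (z : ℂ) : ℂ :=
  (∏ p', (z - ζ p')) * ∏ q ∈ Finset.univ.erase p, (z - ω q)

theorem PP_eqZ (p : κ) (z : ℂ) : PP ζ ω z = (z - ζ p) * PZ ζ ω p z := by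
  classical
  unfold PP PZ
  rw [← Finset.mul_prod_erase _ _ (Finset.mem_univ p)]; ring

theorem PP_eqO (p : κ') (z : ℂ) : PP ζ ω z = (z - ω p) * PO ζ ω p z := by
  classical
  unfold PP PO
  rw [← Finset.mul_prod_erase (s := Finset.univ) (f := fun q => z - ω q) (Finset.mem_univ p)]; ring

theorem PZ_diff (p : κ) (z : ℂ) : DifferentiableAt ℂ (PZ ζ ω p) z := by
  unfold PZ
  exact (DifferentiableAt.fun_finsetProd fun _ _ => by fun_prop).mul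
    (DifferentiableAt.fun_finsetProd fun _ _ => by fun_prop)

theorem PO_diff (p : κ') (z : ℂ) : DifferentiableAt ℂ (PO ζ ω p) z := by
  unfold PO
  exact (DifferentiableAt.fun_finsetProd fun _ _ => by fun_prop).mul
    (DifferentiableAt.fun_finsetProd fun _ _ => by fun_prop)

/-- (U3) at a disorder: general form with a decomposition `PP = (z - c) P`. -/
theorem U3_of {q : ℂ → ℂ} {h : ℂ → ℝ} {P : ℂ → ℂ} {c : ℂ} {R : ℝ} (hR : 0 < R)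
    (hP : ∀ z, PP ζ ω z = (z - c) * P z) (hPd : ∀ z, DifferentiableAt ℂ P z)
    (hPn : ∀ z ∈ ball c R, P z ≠ 0) (hq : DifferentiableOn ℂ q (ball c R))
    (hh : ∀ z ∈ ball c R, z ≠ c → HD h (gq ζ ω q) z) :
    ((⟨-1 / 2, 1 / 2⟩ : ℂ) * (q c ^ 2 / P c)).im = 0 ∧
    ((∃ M, ∀ z ∈ ball c R, z ≠ c → h z ≤ M) →
      0 ≤ ((⟨-1 / 2, 1 / 2⟩ : ℂ) * (q c ^ 2 / P c)).re) ∧
    ((∃ M, ∀ z ∈ ball c R, z ≠ c → -M ≤ h z) →
      ((⟨-1 / 2, 1 / 2⟩ : ℂ) * (q c ^ 2 / P c)).re ≤ 0) := by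
  set Q : ℂ → ℂ := fun z => (⟨-1 / 2, 1 / 2⟩ : ℂ) * (q z ^ 2 / P z) with hQ
  have hQd : DifferentiableOn ℂ Q (ball c R) := fun z hz =>
    (DifferentiableAt.const_mul (((hq.differentiableAt (isOpen_ball.mem_nhds hz)).pow 2).div (hPd z)
      (hPn z hz)) _).differentiableWithinAt
  have hG : ∀ z ∈ ball c R, z ≠ c → (z - c) * gq ζ ω q z = Q z := by
    intro z hz hzc
    have h1 := sub_ne_zero.2 hzc
    have h2 := hPn z hz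
    simp only [hQ]
    unfold gq
    rw [hP]
    field_simp
  exact ⟨res_real (Q := Q) hR hQd hG hh, fun ⟨M, hM⟩ => res_nonneg (Q := Q) hR hQd hG hh hM,
    fun ⟨M, hM⟩ => res_nonpos (Q := Q) hR hQd hG hh hM⟩

end res

section main

theorem theF_step {κ' : Type*} [Fintype κ'] {v : κ' → Site} {i j : ℤ} (h : ∀ q, (i, j) ≠ v q) :
    theF v (i - 1, j) = theF v (i - 1, j - 1) := by
  unfold theF
  refine Finset.prod_congr rfl fun q _ => ?_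
  have hq := h q
  unfold chi AL.sw
  simp only [sub_add_cancel]
  congr 1
  refine propext ⟨fun h1 => ⟨h1.1, by lia⟩, fun h1 => ⟨h1.1, ?_⟩⟩
  by_contra hc
  exact hq (Prod.ext h1.1.symm (by simp only; lia))

theorem tauF_step {κ : Type*} [Fintype κ] {r : κ → Site} {i j : ℤ} (h : ∀ q, (i, j) ≠ r q) :
    tauF r (i, j) = tauF r (i, j - 1) := by
  unfold tauF
  refine Finset.prod_congr rfl fun q _ => ?_
  have hq := h q
  unfold AL.cut1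
  simp only [sub_add_cancel]
  congr 1
  refine propext ⟨fun h1 => ⟨h1.1, ?_⟩, fun h1 => ⟨h1.1, by lia⟩⟩
  by_contra hc
  exact hq (Prod.ext h1.1 (by simp only; lia))

theorem exists_pos_le {κ : Type*} [Finite κ] {ε : κ → ℝ} (h : ∀ p, 0 < ε p) :
    ∃ e > 0, ∀ p, e ≤ ε p := by
  cases isEmpty_or_nonempty κ
  · exact ⟨1, one_pos, fun p => isEmptyElim p⟩
  · obtain ⟨p, hp⟩ := Finite.exists_min ε
    exact ⟨ε p, h p, hp⟩

theorem L2ball.mono {ι : Type*} {l : Filter ι} {a : ι → ℝ} {z : ℂ} {ρ M M' : ℝ} {X : ι → Pt → ℝ}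
    (h : L2ball l a z ρ M X) (hM : M ≤ M') : L2ball l a z ρ M' X := by
  filter_upwards [h] with k hk S hS
  exact (hk S hS).trans hM

variable {ι κ κ' : Type*} [Fintype κ] [Fintype κ']

/-- Everything we know about the limit of a sequence of spinors in the diamond. -/
structure GLim (l : Filter ι) (a : ι → ℝ) (r : κ → ι → Site) (v : κ' → ι → Site) (ζ : κ → ℂ)
    (ω : κ' → ℂ) (A B C E Hs Hf : ι → Pt → ℝ) (q : ℂ → ℂ) (h : ℂ → ℝ) : Prop where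
  diff : DifferentiableOn ℂ q Dia
  slim : SLim l a (Dia \ Mk ζ ω) r v (fun k x => (√(a k))⁻¹ * A k x)
    (fun k x => (√(a k))⁻¹ * B k x) (fun k x => (√(a k))⁻¹ * C k x)
    (fun k x => (√(a k))⁻¹ * E k x) q
  hs : CConv l a (Dia \ Mk ζ ω) Hs h
  hf : CConv l a (Dia \ Mk ζ ω) Hf h
  hd : ∀ z ∈ Dia \ Mk ζ ω, HD h (gq ζ ω q) z
  up : ∃ M, 0 ≤ M ∧ ∀ z ∈ Dia \ Mk ζ ω, h z ≤ M * ∑ p, gb z (ω p)
  lo : ∃ M, 0 ≤ M ∧ ∀ z ∈ Dia \ Mk ζ ω, -h z ≤ M * ∑ p, gb z (ζ p)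
  bd : ∃ ε > 0, ∃ M, ∀ z ∈ Dia, 1 - ε < n1 z → z ∉ Mk ζ ω ∧ |h z| ≤ M * (1 - n1 z)
  U1 : ∃ ε > 0, ∃ M, ∀ z ∈ Dia, 1 - ε < n1 z → ‖F2 ζ ω q z‖ ≤ M
  NE : ∀ p : ℂ, 0 < p.re → 0 < p.im → p.re + p.im = 1 → ∃ r > 0, ∃ L, ∀ z ∈ Dia, ‖z - p‖ < r →
    ‖F2 ζ ω q z‖ - (F2 ζ ω q z).re ≤ L * (1 - z.re - z.im) ^ 2
  NW : ∀ p : ℂ, p.re < 0 → 0 < p.im → -p.re + p.im = 1 → ∃ r > 0, ∃ L, ∀ z ∈ Dia, ‖z - p‖ < r →
    ‖F2 ζ ω q z‖ + (F2 ζ ω q z).im ≤ L * (1 + z.re - z.im) ^ 2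
  SW : ∀ p : ℂ, p.re < 0 → p.im < 0 → -p.re - p.im = 1 → ∃ r > 0, ∃ L, ∀ z ∈ Dia, ‖z - p‖ < r →
    ‖F2 ζ ω q z‖ + (F2 ζ ω q z).re ≤ L * (1 + z.re + z.im) ^ 2
  SE : ∀ p : ℂ, 0 < p.re → p.im < 0 → p.re - p.im = 1 → ∃ r > 0, ∃ L, ∀ z ∈ Dia, ‖z - p‖ < r →
    ‖F2 ζ ω q z‖ - (F2 ζ ω q z).im ≤ L * (1 - z.re + z.im) ^ 2
  resZ : ∀ p, (∀ p' ≠ p, ζ p' ≠ ζ p) → (∀ p', ω p' ≠ ζ p) →
    ((⟨-1 / 2, 1 / 2⟩ : ℂ) * (q (ζ p) ^ 2 / PZ ζ ω p (ζ p))).im = 0 ∧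
    0 ≤ ((⟨-1 / 2, 1 / 2⟩ : ℂ) * (q (ζ p) ^ 2 / PZ ζ ω p (ζ p))).re
  resO : ∀ p, (∀ p', ζ p' ≠ ω p) → (∀ p' ≠ p, ω p' ≠ ω p) →
    ((⟨-1 / 2, 1 / 2⟩ : ℂ) * (q (ω p) ^ 2 / PO ζ ω p (ω p))).im = 0 ∧
    ((⟨-1 / 2, 1 / 2⟩ : ℂ) * (q (ω p) ^ 2 / PO ζ ω p (ω p))).re ≤ 0

theorem gb_le {z c : ℂ} {R : ℝ} (hR : 0 < R) (h : R ≤ ‖z - c‖) :
    gb z c ≤ (Real.log (16 / R ^ 2) + 1) / (4 * Real.log 2) := by
  unfold gb
  have hlog2 : 0 < Real.log 2 := Real.log_pos (by norm_num)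
  refine div_le_div_of_nonneg_right ?_ (by positivity)
  have h1 : 0 < ‖z - c‖ := hR.trans_le h
  have h2 : Real.log (16 / ‖z - c‖ ^ 2) ≤ Real.log (16 / R ^ 2) := by
    refine Real.log_le_log (by positivity) ?_
    exact div_le_div_of_nonneg_left (by norm_num) (by positivity)
      (pow_le_pow_left₀ hR.le h 2)
  linarith

theorem mem_dia_ev {l : Filter ι} {a : ι → ℝ} (ha : Tendsto a l (𝓝[>] 0)) {N : ι → ℕ}
    (hN : Tendsto (fun k => a k * ((N k : ℝ) + 1)) l (𝓝 1)) {w : ι → Site} {c : ℂ} (hc : c ∈ Dia)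
    (hw : Tendsto (fun k => pt (a k) (w k)) l (𝓝 c)) : ∀ᶠ k in l, w k ∈ dia (N k) := by
  have h1 := near_dia ha hN hc 0
  obtain ⟨ρ, hρ, h2⟩ := (ev_nf (P := fun k x => ∀ y : Pt, |y.1 - x.1| ≤ (0:ℕ) →
    |y.2 - x.2| ≤ (0:ℕ) → y ∈ dia (N k))).1 h1
  have h3 := (Metric.tendsto_nhds.1 hw) ρ hρ
  filter_upwards [h2, h3] with k k1 k2
  rw [dist_eq_norm] at k2
  exact k1 (w k) k2.le (w k) (by simp) (by simp)

end main

end Vale.Agent.P144.H170
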