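import Vale.Agent.P144.H170.GMain
import Vale.Agent.P144.U.AL.Xj

/-!
The limit of the spinors with one inserted spin.
-/

namespace Vale.Agent.P144.H170

open Filter Topology Complex Metric

section

variable {ι κ : Type*} [Fintype κ]

/-- The disorders as a multiset. -/
def rM (r : κ → Site) : Multiset Site := Finset.univ.val.map r

theorem tauR_rM (r : κ → Site) : AL.tauR (rM r) = tauF r := by
  funext f
  unfold AL.tauR AL.cutS rM tauF
  rw [Multiset.map_map]
  rfl

theorem theA_single (v : Site) : AL.theA {v} = theF (fun _ : Unit => v) := by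
  funext f
  unfold AL.theA AL.chiM theF
  simp

theorem rM_nodup {r : κ → Site} (h : Function.Injective r) : (rM r).Nodup :=
  Multiset.Nodup.map h Finset.univ.nodup

theorem mem_rM {r : κ → Site} {x : Site} : x ∈ rM r ↔ ∃ p, r p = x := by
  unfold rM
  simp

/-- The spinor with the source at the corner `(v, v)`. -/
noncomputable def jA (N : ℕ) (r : κ → Site) (v : Site) : Site → ℝ :=
  AL.xA (dia N) (rM r) {v} (AL.zj (dia N) (rM r) v)

/-- The spinor with the source at the corner `(v, v)`, lower right corners. -/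
noncomputable def jB (N : ℕ) (r : κ → Site) (v : Site) : Site → ℝ :=
  AL.xB (dia N) (rM r) {v} (AL.zj (dia N) (rM r) v)

/-- The spinor with the source at the corner `(v, v)`, upper left corners. -/
noncomputable def jC (N : ℕ) (r : κ → Site) (v : Site) : Site → ℝ :=
  AL.xC (dia N) (rM r) {v} (AL.zj (dia N) (rM r) v)

/-- The spinor with the source at the corner `(v, v)`, upper right corners. -/
noncomputable def jD (N : ℕ) (r : κ → Site) (v : Site) : Site → ℝ :=
  AL.xD (dia N) (rM r) {v} (AL.zj (dia N) (rM r) v)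

/-- Sites with limits in the open diamond are far from its boundary. -/
theorem deep_ev {l : Filter ι} {a : ι → ℝ} (ha : Tendsto a l (𝓝[>] 0)) {N : ι → ℕ}
    (hN : Tendsto (fun k => a k * ((N k : ℝ) + 1)) l (𝓝 1)) {w : ι → Site} {c : ℂ} (hc : c ∈ Dia)
    (hw : Tendsto (fun k => pt (a k) (w k)) l (𝓝 c)) (m : ℤ) :
    ∀ᶠ k in l, |(w k).1| + |(w k).2| + m ≤ (N k : ℤ) := by
  have h0 : |c.re| + |c.im| < 1 := hc
  have f2 := ((continuous_re.tendsto c).comp hw).abs
  have f3 := ((continuous_im.tendsto c).comp hw).abs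
  have ha0 : Tendsto a l (𝓝 0) := tendsto_nhds_of_tendsto_nhdsWithin ha
  have f4 := (f2.add f3).add (ha0.mul_const ((m : ℝ) + 1))
  rw [zero_mul, add_zero] at f4
  have f5 := f4.eventually_lt hN h0
  have hpos : ∀ᶠ k in l, 0 < a k := ha.eventually self_mem_nhdsWithin
  filter_upwards [f5, hpos] with k h1 h2
  simp only [Function.comp_apply, pt, abs_mul, abs_of_pos h2] at h1
  have h3 : a k * (|((w k).1 : ℝ)| + |((w k).2 : ℝ)| + (m + 1)) < a k * ((N k : ℝ) + 1) := by
    linarith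
  have h4 := lt_of_mul_lt_mul_left h3 h2.le
  have h5 : (((|(w k).1| + |(w k).2| + m : ℤ)) : ℝ) < ((N k : ℤ) : ℝ) := by
    push_cast
    linarith
  exact (Int.cast_lt.1 h5).le

/-- **The limit of the spinor with one inserted spin.** -/
theorem xj_lim {l : Ultrafilter ι} {a : ι → ℝ} {N : ι → ℕ} {r : κ → ι → Site} {v : ι → Site}
    {ζ : κ → ℂ} {ω : ℂ} (ha : Tendsto a l (𝓝[>] 0))
    (hN : Tendsto (fun k => a k * ((N k : ℝ) + 1)) l (𝓝 1))
    (hr : ∀ p, Tendsto (fun k => pt (a k) (r p k)) l (𝓝 (ζ p)))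
    (hv : Tendsto (fun k => pt (a k) (v k)) l (𝓝 ω))
    (hζ : ∀ p, ζ p ∈ Dia) (hω : ω ∈ Dia)
    (hinj : ∀ᶠ k in l, Function.Injective fun p => r p k)
    (hc : ∀ᶠ k in l, ∀ p, v k ∉ AL.cnr (r p k)) :
    ∃ (Hs Hf : ι → Pt → ℝ) (q : ℂ → ℂ) (h : ℂ → ℝ),
      (∀ᶠ k in l, AL.IsH (dia (N k)) (jA (N k) (fun p => r p k) (v k))
        (jB (N k) (fun p => r p k) (v k)) (jC (N k) (fun p => r p k) (v k))
        (jD (N k) (fun p => r p k) (v k)) (Hs k) (Hf k)) ∧
      GLim l a r (fun _ : Unit => v) ζ (fun _ => ω)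
        (fun k => jA (N k) (fun p => r p k) (v k)) (fun k => jB (N k) (fun p => r p k) (v k))
        (fun k => jC (N k) (fun p => r p k) (v k)) (fun k => jD (N k) (fun p => r p k) (v k))
        Hs Hf q h := by
  have d1 := deep_ev ha hN hω hv 1
  have d2 : ∀ᶠ k in l, ∀ p, |(r p k).1| + |(r p k).2| + 4 ≤ (N k : ℤ) :=
    eventually_all.2 fun p => deep_ev ha hN (hζ p) (hr p) 4
  have key : ∀ᶠ k in l, ∃ Hs Hf : Site → ℝ, AL.IsH (dia (N k)) (jA (N k) (fun p => r p k) (v k))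
      (jB (N k) (fun p => r p k) (v k)) (jC (N k) (fun p => r p k) (v k))
      (jD (N k) (fun p => r p k) (v k)) Hs Hf ∧
      (∀ w, w ≠ v k → 0 ≤ AL.lap Hs w) ∧
      ∀ T : Finset Site, ∑ w ∈ T, |AL.lap Hs w| + ∑ w ∈ T, |AL.lap Hf w| ≤ 5586 := by
    filter_upwards [d1, d2, hinj, hc] with k k1 k2 k3 k4
    refine AL.Xj_mass (rM_nodup k3) k1 (fun x hx => ?_) fun x hx => ?_
    · obtain ⟨p, rfl⟩ := mem_rM.1 hx
      exact k2 p
    · obtain ⟨p, rfl⟩ := mem_rM.1 hx
      exact k4 p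
  obtain ⟨Hs, hHs⟩ := key.choice
  obtain ⟨Hf, hHf⟩ := hHs.choice
  have hH := hHf.mono fun k h => h.1
  have hS : ∀ᶠ k in l, AL.Spr (dia (N k)) (tauF fun p => r p k) (theF fun _ : Unit => v k)
      (jA (N k) (fun p => r p k) (v k)) (jB (N k) (fun p => r p k) (v k))
      (jC (N k) (fun p => r p k) (v k)) (jD (N k) (fun p => r p k) (v k)) := by
    filter_upwards [d1] with k k1
    have h1 := AL.spr_QQ (Λ := dia (N k)) (rM fun p => r p k) (A := {v k}) (by
      intro x hx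
      rw [Multiset.mem_singleton] at hx
      subst hx
      rw [AL.mem_dia]
      lia) (AL.zj (dia (N k)) (rM fun p => r p k) (v k))
    rw [tauR_rM, theA_single] at h1
    exact h1
  have hM1 : ∀ᶠ k in l, ∀ T : Finset Site, ∑ w ∈ T, |AL.lap (Hs k) w| ≤ 5586 := by
    filter_upwards [hHf] with k h T
    have h1 := h.2.2 T
    have h2 : 0 ≤ ∑ w ∈ T, |AL.lap (Hf k) w| := Finset.sum_nonneg fun _ _ => abs_nonneg _
    linarith
  have hM2 : ∀ᶠ k in l, ∀ T : Finset Site, ∑ w ∈ T, |AL.lap (Hf k) w| ≤ 5586 := by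
    filter_upwards [hHf] with k h T
    have h1 := h.2.2 T
    have h2 : 0 ≤ ∑ w ∈ T, |AL.lap (Hs k) w| := Finset.sum_nonneg fun _ _ => abs_nonneg _
    linarith
  obtain ⟨q, h, hG⟩ := glim_exists (v := fun _ : Unit => v) (ω := fun _ : Unit => ω) ha hN hr
    (fun _ => hv) hζ (fun _ => hω) hS hH hM1 hM2
  exact ⟨Hs, Hf, q, h, hH, hG⟩

end

end Vale.Agent.P144.H170
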