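import Vale.Agent.P144.H170.Main

/-!
The limit theorem for spinors in the diamond with bounded masses.
-/

namespace Vale.Agent.P144.H170

open Filter Topology Complex Metric

section

variable {ι κ κ' : Type*} [Fintype κ] [Fintype κ'] {r : κ → ι → Site} {v : κ' → ι → Site}
  {ζ : κ → ℂ} {ω : κ' → ℂ} {a : ι → ℝ} {N : ι → ℕ} {A B C E Hs Hf : ι → Pt → ℝ}

theorem Dia_open' : IsOpen Dia := by
  have : Dia = {z : ℂ | |z.re| + |z.im| < 1} := rfl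
  rw [this]
  exact isOpen_lt (by fun_prop) continuous_const

/-- Bounds of both `H`-functions by Green functions. -/
theorem H_bounds {N : ℕ} {r : κ → Site} {v : κ' → Site} {A B C E Hs Hf : Site → ℝ} {M : ℝ}
    (h : AL.Spr (dia N) (tauF r) (theF v) A B C E) (hH : AL.IsH (dia N) A B C E Hs Hf)
    (h1 : ∀ T : Finset Site, ∑ w ∈ T, |AL.lap Hs w| ≤ M)
    (h2 : ∀ T : Finset Site, ∑ w ∈ T, |AL.lap Hf w| ≤ M) (x : Site) :
    Hs x ≤ M * ∑ q, H436.green (dia N) (v q) x ∧ -Hf x ≤ M * ∑ p, H436.green (dia N) (r p) x ∧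
    Hf x ≤ Hs x := by
  have hM : 0 ≤ M := by simpa using h1 ∅
  have b1 : ∀ x, |AL.lap Hs x| ≤ M := fun x => by simpa using h1 {x}
  have b2 : ∀ x, |AL.lap Hf x| ≤ M := fun x => by simpa using h2 {x}
  refine ⟨Hs_upper hM (fun y hy hyv => ?_) (fun y => (abs_le.1 (b1 y)).1)
    (fun y hy => (hH.out y hy).le) x, Hf_lower h hH hM (fun i j hij => tauF_step hij)
    (fun y => (abs_le.1 (b2 y)).2) x, ?_⟩
  · obtain ⟨i, j⟩ := y
    exact h.lap_nonneg hH hy (theF_step hyv)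
  · have := hH.a x.1 x.2
    simp only [Prod.mk.eta] at this
    nlinarith [sq_nonneg (A x)]

theorem resZ_of (hζ : ∀ p, ζ p ∈ Dia) {q : ℂ → ℂ} {h : ℂ → ℝ} {M : ℝ} (hM : 0 ≤ M)
    (hqd : DifferentiableOn ℂ q Dia) (hHD : ∀ z ∈ Dia \ Mk ζ ω, HD h (gq ζ ω q) z)
    (hup' : ∀ z ∈ Dia \ Mk ζ ω, h z ≤ M * ∑ p, gb z (ω p)) (p : κ)
    (hp1 : ∀ p' ≠ p, ζ p' ≠ ζ p) (hp2 : ∀ p', ω p' ≠ ζ p) :
    ((⟨-1 / 2, 1 / 2⟩ : ℂ) * (q (ζ p) ^ 2 / PZ ζ ω p (ζ p))).im = 0 ∧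
    0 ≤ ((⟨-1 / 2, 1 / 2⟩ : ℂ) * (q (ζ p) ^ 2 / PZ ζ ω p (ζ p))).re := by
  classical
  obtain ⟨R, hR, hRD, hRM⟩ := exists_isolated (ζ := ζ) (ω := ω) Dia_open' (hζ p)
  have hin : ∀ z ∈ ball (ζ p) R, z ∈ Dia := fun z hz => hRD (by
    rw [mem_ball] at hz; rw [mem_closedBall]; linarith)
  have hout : ∀ z ∈ ball (ζ p) R, z ≠ ζ p → z ∉ Mk ζ ω := by
    intro z hz hzp hzM
    have := hRM z hzM hzp
    rw [mem_ball, dist_eq_norm, norm_sub_rev] at hz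
    linarith
  have key := U3_of (ζ := ζ) (ω := ω) (q := q) (h := h) (P := PZ ζ ω p) (c := ζ p) hR
    (PP_eqZ p) (PZ_diff p) (fun z hz => ?_) (hqd.mono hin)
    (fun z hz hzp => hHD z ⟨hin z hz, hout z hz hzp⟩)
  · refine ⟨key.1, key.2.1 ⟨M * ∑ q : κ', (Real.log (16 / R ^ 2) + 1) / (4 * Real.log 2),
      fun z hz hzp => (hup' z ⟨hin z hz, hout z hz hzp⟩).trans ?_⟩⟩
    refine mul_le_mul_of_nonneg_left (Finset.sum_le_sum fun q _ => gb_le hR ?_) hM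
    have h1 := hRM (ω q) (Or.inr ⟨q, rfl⟩) (hp2 q)
    rw [mem_ball, dist_eq_norm, norm_sub_rev] at hz
    have h2 := norm_sub_le_norm_sub_add_norm_sub (ζ p) z (ω q)
    linarith
  · unfold PZ
    refine mul_ne_zero (Finset.prod_ne_zero_iff.2 fun p' hp' => sub_ne_zero.2 ?_)
      (Finset.prod_ne_zero_iff.2 fun p' _ => sub_ne_zero.2 ?_)
    · rintro rfl
      have h1 := hRM (ζ p') (Or.inl ⟨p', rfl⟩) (hp1 p' (Finset.mem_erase.1 hp').1)
      rw [mem_ball, dist_eq_norm, norm_sub_rev] at hz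
      linarith
    · rintro rfl
      have h1 := hRM (ω p') (Or.inr ⟨p', rfl⟩) (hp2 p')
      rw [mem_ball, dist_eq_norm, norm_sub_rev] at hz
      linarith

theorem resO_of (hω : ∀ p, ω p ∈ Dia) {q : ℂ → ℂ} {h : ℂ → ℝ} {M : ℝ} (hM : 0 ≤ M)
    (hqd : DifferentiableOn ℂ q Dia) (hHD : ∀ z ∈ Dia \ Mk ζ ω, HD h (gq ζ ω q) z)
    (hlo' : ∀ z ∈ Dia \ Mk ζ ω, -h z ≤ M * ∑ p, gb z (ζ p)) (p : κ')
    (hp1 : ∀ p', ζ p' ≠ ω p) (hp2 : ∀ p' ≠ p, ω p' ≠ ω p) :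
    ((⟨-1 / 2, 1 / 2⟩ : ℂ) * (q (ω p) ^ 2 / PO ζ ω p (ω p))).im = 0 ∧
    ((⟨-1 / 2, 1 / 2⟩ : ℂ) * (q (ω p) ^ 2 / PO ζ ω p (ω p))).re ≤ 0 := by
  classical
  obtain ⟨R, hR, hRD, hRM⟩ := exists_isolated (ζ := ζ) (ω := ω) Dia_open' (hω p)
  have hin : ∀ z ∈ ball (ω p) R, z ∈ Dia := fun z hz => hRD (by
    rw [mem_ball] at hz; rw [mem_closedBall]; linarith)
  have hout : ∀ z ∈ ball (ω p) R, z ≠ ω p → z ∉ Mk ζ ω := by
    intro z hz hzp hzM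
    have := hRM z hzM hzp
    rw [mem_ball, dist_eq_norm, norm_sub_rev] at hz
    linarith
  have key := U3_of (ζ := ζ) (ω := ω) (q := q) (h := h) (P := PO ζ ω p) (c := ω p) hR
    (PP_eqO p) (PO_diff p) (fun z hz => ?_) (hqd.mono hin)
    (fun z hz hzp => hHD z ⟨hin z hz, hout z hz hzp⟩)
  · refine ⟨key.1, key.2.2 ⟨M * ∑ q : κ, (Real.log (16 / R ^ 2) + 1) / (4 * Real.log 2),
      fun z hz hzp => ?_⟩⟩
    have h0 := hlo' z ⟨hin z hz, hout z hz hzp⟩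
    have h5 : M * ∑ p, gb z (ζ p) ≤ M * ∑ q : κ, (Real.log (16 / R ^ 2) + 1) /
        (4 * Real.log 2) := by
      refine mul_le_mul_of_nonneg_left (Finset.sum_le_sum fun q _ => gb_le hR ?_) hM
      have h1 := hRM (ζ q) (Or.inl ⟨q, rfl⟩) (hp1 q)
      rw [mem_ball, dist_eq_norm, norm_sub_rev] at hz
      have h2 := norm_sub_le_norm_sub_add_norm_sub (ω p) z (ζ q)
      linarith
    linarith
  · unfold PO
    refine mul_ne_zero (Finset.prod_ne_zero_iff.2 fun p' _ => sub_ne_zero.2 ?_)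
      (Finset.prod_ne_zero_iff.2 fun p' hp' => sub_ne_zero.2 ?_)
    · rintro rfl
      have h1 := hRM (ζ p') (Or.inl ⟨p', rfl⟩) (hp1 p')
      rw [mem_ball, dist_eq_norm, norm_sub_rev] at hz
      linarith
    · rintro rfl
      have h1 := hRM (ω p') (Or.inr ⟨p', rfl⟩) (hp2 p' (Finset.mem_erase.1 hp').1)
      rw [mem_ball, dist_eq_norm, norm_sub_rev] at hz
      linarith

/-- Linear decay of `h` at the boundary. -/
theorem bdry_decay {l : Ultrafilter ι} (ha : Tendsto a l (𝓝[>] 0))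
    (hN : Tendsto (fun k => a k * ((N k : ℝ) + 1)) l (𝓝 1))
    (hr : ∀ p, Tendsto (fun k => pt (a k) (r p k)) l (𝓝 (ζ p)))
    (hv : ∀ q, Tendsto (fun k => pt (a k) (v q k)) l (𝓝 (ω q)))
    (hζ : ∀ p, ζ p ∈ Dia) (hω : ∀ q, ω q ∈ Dia) {M : ℝ} (hM : 0 ≤ M) {h : ℂ → ℝ}
    (hbd : ∀ᶠ k in l, ∀ x, Hs k x ≤ M * ∑ q, H436.green (dia (N k)) (v q k) x ∧
      -Hf k x ≤ M * ∑ p, H436.green (dia (N k)) (r p k) x ∧ Hf k x ≤ Hs k x)
    (chs' : ∀ z ∈ Dia \ Mk ζ ω, Tendsto (fun kx : ι × Pt => Hs kx.1 kx.2) (nf l a z) (𝓝 (h z)))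
    (chf' : ∀ z ∈ Dia \ Mk ζ ω, Tendsto (fun kx : ι × Pt => Hf kx.1 kx.2) (nf l a z) (𝓝 (h z))) :
    ∃ ε > 0, ∃ K, 0 < K ∧ ∀ z ∈ Dia, 1 - ε < n1 z → z ∉ Mk ζ ω ∧
      |h z| ≤ K * (1 - n1 z) := by
  choose εv hεv Kv hKv bv using fun q => green_bd (l := (l : Filter ι)) ha hN (hω q)
  choose εr hεr Kr hKr br using fun p => green_bd (l := (l : Filter ι)) ha hN (hζ p)
  obtain ⟨e1, he1, he1'⟩ := exists_pos_le hεv
  obtain ⟨e2, he2, he2'⟩ := exists_pos_le hεr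
  obtain ⟨e3, he3, he3'⟩ := exists_pos_le (ε := fun p : κ => 1 - n1 (ζ p)) fun p => by
    have : n1 (ζ p) < 1 := hζ p
    linarith
  obtain ⟨e4, he4, he4'⟩ := exists_pos_le (ε := fun p : κ' => 1 - n1 (ω p)) fun p => by
    have : n1 (ω p) < 1 := hω p
    linarith
  refine ⟨min (min e1 e2) (min e3 e4), by positivity, M * ∑ q, Kv q + M * ∑ p, Kr p + 1, ?_, ?_⟩
  · have s1 : 0 ≤ ∑ q, Kv q := Finset.sum_nonneg fun q _ => hKv q
    have s2 : 0 ≤ ∑ q, Kr q := Finset.sum_nonneg fun q _ => hKr q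
    positivity
  intro z hz hz1
  have m1 := min_le_left (min e1 e2) (min e3 e4)
  have m2 := min_le_right (min e1 e2) (min e3 e4)
  have m3 := min_le_left e1 e2
  have m4 := min_le_right e1 e2
  have m5 := min_le_left e3 e4
  have m6 := min_le_right e3 e4
  have hzM : z ∉ Mk ζ ω := by
    rintro (⟨p, rfl⟩ | ⟨p, rfl⟩)
    · have := he3' p; linarith
    · have := he4' p; linarith
  refine ⟨hzM, ?_⟩
  have := nf_neBot (l := (l : Filter ι)) ha z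
  have t0 : Tendsto (fun kx : ι × Pt => ((N kx.1 : ℝ) + 1 - (|(kx.2.1 : ℝ)| + |(kx.2.2 : ℝ)|)) /
      (N kx.1 + 1)) (nf l a z) (𝓝 (1 - n1 z)) := by
    have f1 := hN.comp (tendsto_fst_nf (l := (l : Filter ι)) (a := a) z)
    have f2 := ((continuous_re.tendsto z).comp
      (tendsto_pt_nf (l := (l : Filter ι)) (a := a) z)).abs
    have f3 := ((continuous_im.tendsto z).comp
      (tendsto_pt_nf (l := (l : Filter ι)) (a := a) z)).abs
    have f4 := (f1.sub (f2.add f3)).div f1 one_ne_zero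
    rw [div_one] at f4
    refine (f4.congr' ?_)
    filter_upwards [apos_nf ha z] with kx h0
    simp only [Function.comp_apply, pt, Pi.div_apply]
    rw [abs_mul, abs_mul, abs_of_pos h0]
    have : (N kx.1 : ℝ) + 1 ≠ 0 := by positivity
    field_simp
  have g1 : ∀ᶠ kx in nf l a z, ∀ q, H436.green (dia (N kx.1)) (v q kx.1) kx.2 ≤
      Kv q * (((N kx.1 : ℝ) + 1 - (|(kx.2.1 : ℝ)| + |(kx.2.2 : ℝ)|)) / (N kx.1 + 1)) := by
    rw [eventually_all]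
    intro q
    refine bv q (v q) (hv q) z hz ?_
    have := he1' q
    have hz2 : 1 - min (min e1 e2) (min e3 e4) < |z.re| + |z.im| := hz1
    linarith
  have g2 : ∀ᶠ kx in nf l a z, ∀ q, H436.green (dia (N kx.1)) (r q kx.1) kx.2 ≤
      Kr q * (((N kx.1 : ℝ) + 1 - (|(kx.2.1 : ℝ)| + |(kx.2.2 : ℝ)|)) / (N kx.1 + 1)) := by
    rw [eventually_all]
    intro q
    refine br q (r q) (hr q) z hz ?_
    have := he2' q
    have hz2 : 1 - min (min e1 e2) (min e3 e4) < |z.re| + |z.im| := hz1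
    linarith
  have u1 : h z ≤ M * ((∑ q, Kv q) * (1 - n1 z)) := by
    refine le_of_tendsto_of_tendsto (chs' z ⟨hz, hzM⟩) ((t0.const_mul (∑ q, Kv q)).const_mul M) ?_
    filter_upwards [g1, ev_nf_of (l := (l : Filter ι)) (a := a) (z := z) hbd] with kx k1 k2
    refine (k2 kx.2).1.trans (mul_le_mul_of_nonneg_left ?_ hM)
    rw [Finset.sum_mul]
    exact Finset.sum_le_sum fun q _ => k1 q
  have u2 : -h z ≤ M * ((∑ q, Kr q) * (1 - n1 z)) := by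
    refine le_of_tendsto_of_tendsto (chf' z ⟨hz, hzM⟩).neg
      ((t0.const_mul (∑ q, Kr q)).const_mul M) ?_
    filter_upwards [g2, ev_nf_of (l := (l : Filter ι)) (a := a) (z := z) hbd] with kx k1 k2
    refine (k2 kx.2).2.1.trans (mul_le_mul_of_nonneg_left ?_ hM)
    rw [Finset.sum_mul]
    exact Finset.sum_le_sum fun q _ => k1 q
  have s1 : 0 ≤ M * ∑ q, Kv q := mul_nonneg hM (Finset.sum_nonneg fun q _ => hKv q)
  have s2 : 0 ≤ M * ∑ q, Kr q := mul_nonneg hM (Finset.sum_nonneg fun q _ => hKr q)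
  have s3 : 0 < 1 - n1 z := by
    have : n1 z < 1 := hz
    linarith
  rw [abs_le]
  constructor
  · nlinarith
  · nlinarith

/-- **The limit theorem.** -/
theorem glim_exists {l : Ultrafilter ι} (ha : Tendsto a l (𝓝[>] 0))
    (hN : Tendsto (fun k => a k * ((N k : ℝ) + 1)) l (𝓝 1))
    (hr : ∀ p, Tendsto (fun k => pt (a k) (r p k)) l (𝓝 (ζ p)))
    (hv : ∀ q, Tendsto (fun k => pt (a k) (v q k)) l (𝓝 (ω q)))
    (hζ : ∀ p, ζ p ∈ Dia) (hω : ∀ q, ω q ∈ Dia)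
    (hS : ∀ᶠ k in l, AL.Spr (dia (N k)) (tauF fun p => r p k) (theF fun q => v q k)
      (A k) (B k) (C k) (E k))
    (hH : ∀ᶠ k in l, AL.IsH (dia (N k)) (A k) (B k) (C k) (E k) (Hs k) (Hf k)) {M : ℝ}
    (hM1 : ∀ᶠ k in l, ∀ T : Finset Site, ∑ w ∈ T, |AL.lap (Hs k) w| ≤ M)
    (hM2 : ∀ᶠ k in l, ∀ T : Finset Site, ∑ w ∈ T, |AL.lap (Hf k) w| ≤ M) :
    ∃ q h, GLim l a r v ζ ω A B C E Hs Hf q h := by
  have hM : 0 ≤ M := by
    obtain ⟨k, hk⟩ := hM1.exists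
    simpa using hk ∅
  have ha0 : ∀ᶠ k in l, 0 < a k := ha.eventually self_mem_nhdsWithin
  have hMkD : ∀ z ∈ Mk ζ ω, z ∈ Dia := by
    rintro z (⟨p, rfl⟩ | ⟨p, rfl⟩)
    · exact hζ p
    · exact hω p
  -- relations
  have hrel : RelB l a N Set.univ r v (fun k x => (√(a k))⁻¹ * A k x)
      (fun k x => (√(a k))⁻¹ * B k x) (fun k x => (√(a k))⁻¹ * C k x)
      (fun k x => (√(a k))⁻¹ * E k x) := by
    intro z _
    filter_upwards [ev_nf_of (l := l) (a := a) (z := z) hS] with kx h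
    exact (SRel.of_spr h kx.2.1 kx.2.2).smul _
  -- ℓ² bounds
  have hbox : ∀ᶠ k in l, ∀ c n, ∑ x ∈ bx c n, (A k x ^ 2 + B k x ^ 2 + C k x ^ 2 + E k x ^ 2) ≤
      1152 * M * (n + 2) := by
    filter_upwards [hS, hH, hM1, hM2] with k k1 k2 k3 k4 c n
    exact sum_sq_box k1 k2 k3 k4 c n
  have l2 : ∀ X : ι → Pt → ℝ, (∀ k x, X k x ^ 2 ≤ A k x ^ 2 + B k x ^ 2 + C k x ^ 2 + E k x ^ 2) →
      ∀ z : ℂ, ∀ ρ > 0, L2ball l a z ρ (8 * (1152 * M) * ρ) (fun k x => (√(a k))⁻¹ * X k x) := by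
    intro X hX z ρ hρ
    refine l2_of_box ha (by positivity) ?_ z hρ
    filter_upwards [hbox] with k hk c n
    exact (Finset.sum_le_sum fun x _ => hX k x).trans (hk c n)
  have l2A := l2 A fun k x => by nlinarith [sq_nonneg (B k x), sq_nonneg (C k x), sq_nonneg (E k x)]
  have l2B := l2 B fun k x => by nlinarith [sq_nonneg (A k x), sq_nonneg (C k x), sq_nonneg (E k x)]
  have l2C := l2 C fun k x => by nlinarith [sq_nonneg (A k x), sq_nonneg (B k x), sq_nonneg (E k x)]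
  have l2E := l2 E fun k x => by nlinarith [sq_nonneg (A k x), sq_nonneg (B k x), sq_nonneg (C k x)]
  have lsq : ∀ X : ι → Pt → ℝ, (∀ z : ℂ, ∀ ρ > 0, L2ball l a z ρ (8 * (1152 * M) * ρ) X) →
      ∀ z ∈ Dia, ∀ ρ > 0, ρ ≤ 1 → closedBall z ρ ⊆ Dia →
        L2ball l a z ρ (8 * (1152 * M) * √ρ) X := by
    intro X hX z _ ρ hρ hρ1 _
    refine (hX z ρ hρ).mono (mul_le_mul_of_nonneg_left ?_ (by positivity))
    exact Real.le_sqrt_of_sq_le (by nlinarith)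
  have hrelOn : RelOn l a (Dia \ Mk ζ ω) r v (fun k x => (√(a k))⁻¹ * A k x)
      (fun k x => (√(a k))⁻¹ * B k x) (fun k x => (√(a k))⁻¹ * C k x)
      (fun k x => (√(a k))⁻¹ * E k x) := fun z hz =>
    hrel.relOn ha hN z ⟨Set.mem_univ z, hz.1⟩
  obtain ⟨q, hqd, hslim⟩ := slim_ext ha Dia_open' hr hv hrelOn (lsq _ l2B) (lsq _ l2C)
  -- bounds of H
  have hbd : ∀ᶠ k in l, ∀ x, Hs k x ≤ M * ∑ q, H436.green (dia (N k)) (v q k) x ∧
      -Hf k x ≤ M * ∑ p, H436.green (dia (N k)) (r p k) x ∧ Hf k x ≤ Hs k x := by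
    filter_upwards [hS, hH, hM1, hM2] with k k1 k2 k3 k4 x
    exact H_bounds k1 k2 k3 k4 x
  have hgv : ∀ z ∈ Dia \ Mk ζ ω, ∀ᶠ kx in nf l a z, M * ∑ q, H436.green (dia (N kx.1)) (v q kx.1)
      kx.2 ≤ M * ∑ q, gb z (ω q) := by
    intro z hz
    have h1 : ∀ᶠ kx in nf l a z, ∀ q, H436.green (dia (N kx.1)) (v q kx.1) kx.2 ≤ gb z (ω q) := by
      rw [eventually_all]
      intro q
      exact green_near ha hN (hv q) (mem_dia_ev ha hN (hω q) (hv q)) hz.1 ((notMem_Mk.1 hz.2).2 q)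
    filter_upwards [h1] with kx h2
    exact mul_le_mul_of_nonneg_left (Finset.sum_le_sum fun q _ => h2 q) hM
  have hgr : ∀ z ∈ Dia \ Mk ζ ω, ∀ᶠ kx in nf l a z, M * ∑ p, H436.green (dia (N kx.1)) (r p kx.1)
      kx.2 ≤ M * ∑ p, gb z (ζ p) := by
    intro z hz
    have h1 : ∀ᶠ kx in nf l a z, ∀ q, H436.green (dia (N kx.1)) (r q kx.1) kx.2 ≤ gb z (ζ q) := by
      rw [eventually_all]
      intro q
      exact green_near ha hN (hr q) (mem_dia_ev ha hN (hζ q) (hr q)) hz.1 ((notMem_Mk.1 hz.2).1 q)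
    filter_upwards [h1] with kx h2
    exact mul_le_mul_of_nonneg_left (Finset.sum_le_sum fun q _ => h2 q) hM
  have hup : ∀ z ∈ Dia \ Mk ζ ω, ∀ᶠ kx in nf l a z, Hs kx.1 kx.2 ≤ M * ∑ q, gb z (ω q) := by
    intro z hz
    filter_upwards [hgv z hz, ev_nf_of (l := l) (a := a) (z := z) hbd] with kx k1 k2
    exact (k2 kx.2).1.trans k1
  have hlo : ∀ z ∈ Dia \ Mk ζ ω, ∀ᶠ kx in nf l a z, -Hf kx.1 kx.2 ≤ M * ∑ q, gb z (ζ q) := by
    intro z hz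
    filter_upwards [hgr z hz, ev_nf_of (l := l) (a := a) (z := z) hbd] with kx k1 k2
    exact (k2 kx.2).2.1.trans k1
  -- the limit h
  have hHon : HOn l a (Dia \ Mk ζ ω) (fun k x => (√(a k))⁻¹ * A k x)
      (fun k x => (√(a k))⁻¹ * B k x) (fun k x => (√(a k))⁻¹ * C k x)
      (fun k x => (√(a k))⁻¹ * E k x) Hs Hf := by
    intro z _
    filter_upwards [ev_nf_of (l := l) (a := a) (z := z) hH, apos_nf ha z] with kx h h0
    have e : ∀ y : ℝ, a kx.1 * ((√(a kx.1))⁻¹ * y) ^ 2 = y ^ 2 := by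
      intro y
      rw [mul_pow, inv_pow, Real.sq_sqrt h0.le]
      field_simp
    obtain ⟨k, i, j⟩ := kx
    simp only [e, Prod.mk_add_mk, add_zero]
    exact ⟨h.a i j, h.b i j, h.c i j, h.d i j⟩
  have hbb : ∀ z ∈ Dia \ Mk ζ ω, ∃ K, ∀ᶠ k in l, |Hs k (fl (a k) z)| ≤ K := by
    intro z hz
    have h1 := (hup z hz).and ((hlo z hz).and (ev_nf_of (l := l) (a := a) (z := z) hbd))
    obtain ⟨ρ, hρ, h2⟩ := (ev_nf (P := fun k x => Hs k x ≤ M * ∑ q, gb z (ω q) ∧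
      -Hf k x ≤ M * ∑ q, gb z (ζ q) ∧ ∀ x, Hs k x ≤ M * ∑ q, H436.green (dia (N k)) (v q k) x ∧
      -Hf k x ≤ M * ∑ p, H436.green (dia (N k)) (r p k) x ∧ Hf k x ≤ Hs k x)).1 h1
    have ha1 : ∀ᶠ k in l, a k < ρ / 2 :=
      (ha.mono_right nhdsWithin_le_nhds).eventually (gt_mem_nhds (by positivity))
    refine ⟨|M * ∑ q, gb z (ω q)| + |M * ∑ q, gb z (ζ q)|, ?_⟩
    filter_upwards [h2, ha0, ha1] with k k1 k2 k3
    obtain ⟨k4, k5, k6⟩ := k1 (fl (a k) z) ((pt_fl_norm k2 z).trans (by linarith))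
    have k7 := (k6 (fl (a k) z)).2.2
    rw [abs_le]
    constructor
    · linarith [le_abs_self (M * ∑ q, gb z (ζ q)), abs_nonneg (M * ∑ q, gb z (ω q))]
    · linarith [le_abs_self (M * ∑ q, gb z (ω q)), abs_nonneg (M * ∑ q, gb z (ζ q))]
  obtain ⟨h, chs, chf, hder⟩ := hlim_exists ha (Dia_open'.sdiff (Mk_closed ζ ω)) hr hv
    (fun z hz => hz.2) hslim hHon hbb
  have hHD : ∀ z ∈ Dia \ Mk ζ ω, HD h (gq ζ ω q) z := fun z hz => (hder z hz).hasFDerivAt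
  have chs' := cconv_iff.1 chs
  have chf' := cconv_iff.1 chf
  have hup' : ∀ z ∈ Dia \ Mk ζ ω, h z ≤ M * ∑ p, gb z (ω p) := by
    intro z hz
    have := nf_neBot (l := (l : Filter ι)) ha z
    exact le_of_tendsto (chs' z hz) (hup z hz)
  have hlo' : ∀ z ∈ Dia \ Mk ζ ω, -h z ≤ M * ∑ p, gb z (ζ p) := by
    intro z hz
    have := nf_neBot (l := (l : Filter ι)) ha z
    exact le_of_tendsto (chf' z hz).neg (hlo z hz)
  -- boundary decay
  have hbdy := bdry_decay ha hN hr hv hζ hω hM hbd chs' chf'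
  obtain ⟨ε, hε, K, hK, hbdy'⟩ := hbdy
  have hsub : (Set.univ ∩ Dia) \ Mk ζ ω = Dia \ Mk ζ ω := by rw [Set.univ_inter]
  have hslim' : SLim l a ((Set.univ ∩ Dia) \ Mk ζ ω) r v (fun k x => (√(a k))⁻¹ * A k x)
    (fun k x => (√(a k))⁻¹ * B k x) (fun k x => (√(a k))⁻¹ * C k x)
    (fun k x => (√(a k))⁻¹ * E k x) q := by rw [hsub]; exact hslim
  have hpM : ∀ p : ℂ, 1 ≤ |p.re| + |p.im| → p ∉ Mk ζ ω := fun p hp hpM =>
    absurd (hMkD p hpM) (not_lt.2 hp)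
  refine ⟨q, h, ⟨hqd, hslim, chs, chf, hHD, ⟨M, hM, hup'⟩, ⟨M, hM, hlo'⟩,
    ⟨ε, hε, K, fun z hz hz1 => hbdy' z hz hz1⟩, ?_, ?_, ?_, ?_, ?_, ?_, ?_⟩⟩
  · refine ⟨ε / 2, by positivity, 128 * K, fun z hz hz1 => U1_of (h := h) hK hz fun w hw => ?_⟩
    have hz' : n1 z < 1 := hz
    rw [mem_ball, dist_eq_norm] at hw
    have h1 := n1_sub w z
    have h2 := n1_sub z w
    rw [norm_sub_rev] at h1
    have hwD : w ∈ Dia := by
      show n1 w < 1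
      linarith
    have h3 := hbdy' w hwD (by linarith)
    exact ⟨h3.1, hqd.differentiableAt (Dia_open'.mem_nhds hwD), hHD w ⟨hwD, h3.1⟩, h3.2⟩
  · intro p h1 h2 h3
    exact bdNE ha hN hr hv isOpen_univ hrel hslim' (Set.mem_univ p) (hpM p (by
      rw [abs_of_pos h1, abs_of_pos h2]; linarith)) h1 h2 h3 ⟨1, one_pos, _, l2E p 1 one_pos⟩
  · intro p h1 h2 h3
    exact bdNW ha hN hr hv isOpen_univ hrel hslim' (Set.mem_univ p) (hpM p (by
      rw [abs_of_neg h1, abs_of_pos h2]; linarith)) h1 h2 h3 ⟨1, one_pos, _, l2C p 1 one_pos⟩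
  · intro p h1 h2 h3
    exact bdSW ha hN hr hv isOpen_univ hrel hslim' (Set.mem_univ p) (hpM p (by
      rw [abs_of_neg h1, abs_of_neg h2]; linarith)) h1 h2 h3 ⟨1, one_pos, _, l2A p 1 one_pos⟩
  · intro p h1 h2 h3
    exact bdSE ha hN hr hv isOpen_univ hrel hslim' (Set.mem_univ p) (hpM p (by
      rw [abs_of_pos h1, abs_of_neg h2]; linarith)) h1 h2 h3 ⟨1, one_pos, _, l2B p 1 one_pos⟩
  · exact resZ_of hζ hM hqd hHD hup'
  · exact resO_of hω hM hqd hHD hlo'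

end

end Vale.Agent.P144.H170
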