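import Mathlib.Analysis.Complex.Basic
import Mathlib.Algebra.Order.Chebyshev
import Mathlib.Tactic

/-!
Interior regularity of discrete harmonic functions on `ℤ²`: Caccioppoli inequality, pointwise
bounds by `ℓ²` sums, bounds for differences of any order.
-/

namespace Vale.Agent.P144.H170

open Finset

/-- Lattice points. -/
abbrev Pt := ℤ × ℤ

/-- The difference in direction `e`. -/
def D (e : Pt) (h : Pt → ℝ) (x : Pt) : ℝ := h (x + e) - h x

/-- The Laplacian (sum over the four neighbours minus four times the value). -/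
def lap (h : Pt → ℝ) (x : Pt) : ℝ :=
  h (x + (1, 0)) + h (x - (1, 0)) + h (x + (0, 1)) + h (x - (0, 1)) - 4 * h x

/-- The box of radius `n` around `c`. -/
noncomputable def bx (c : Pt) (n : ℕ) : Finset Pt :=
  Finset.Icc (c.1 - n) (c.1 + n) ×ˢ Finset.Icc (c.2 - n) (c.2 + n)

theorem mem_bx {c x : Pt} {n : ℕ} :
    x ∈ bx c n ↔ (c.1 - n ≤ x.1 ∧ x.1 ≤ c.1 + n) ∧ (c.2 - n ≤ x.2 ∧ x.2 ≤ c.2 + n) := by
  unfold bx; rw [mem_product, mem_Icc, mem_Icc]

theorem bx_mono {c : Pt} {m n : ℕ} (h : m ≤ n) : bx c m ⊆ bx c n := by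
  intro x hx
  rw [mem_bx] at hx ⊢
  have : (m:ℤ) ≤ n := by exact_mod_cast h
  lia

theorem self_mem_bx (c : Pt) (n : ℕ) : c ∈ bx c n := by
  rw [mem_bx]; lia

/-- `h` is harmonic on the box. -/
def Harm (h : Pt → ℝ) (c : Pt) (n : ℕ) : Prop := ∀ x ∈ bx c n, lap h x = 0

theorem Harm.mono {h : Pt → ℝ} {c : Pt} {m n : ℕ} (hh : Harm h c n) (hmn : m ≤ n) :
    Harm h c m := fun x hx => hh x (bx_mono hmn hx)

theorem lap_D (e : Pt) (h : Pt → ℝ) (x : Pt) : lap (D e h) x = lap h (x + e) - lap h x := by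
  unfold lap D
  have e1 : x + (1, 0) + e = x + e + (1, 0) := by abel
  have e2 : x - (1, 0) + e = x + e - (1, 0) := by abel
  have e3 : x + (0, 1) + e = x + e + (0, 1) := by abel
  have e4 : x - (0, 1) + e = x + e - (0, 1) := by abel
  rw [e1, e2, e3, e4]; ring

theorem Harm.D {h : Pt → ℝ} {c : Pt} {n : ℕ} (hh : Harm h c (n + 1)) {e : Pt}
    (he : e = (1, 0) ∨ e = (0, 1)) : Harm (D e h) c n := by
  intro x hx
  rw [lap_D]
  have h1 : x + e ∈ bx c (n + 1) := by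
    rw [mem_bx] at hx ⊢
    rcases he with rfl | rfl <;> simp <;> lia
  rw [hh _ h1, hh _ (bx_mono (Nat.le_succ n) hx), sub_zero]

/-- Shift of a sum of a function vanishing outside. -/
theorem sum_shift (S : Finset Pt) (F : Pt → ℝ) (e : Pt) (h1 : ∀ x, x ∉ S → F x = 0)
    (h2 : ∀ x, x ∉ S → F (x + e) = 0) : ∑ x ∈ S, F (x + e) = ∑ x ∈ S, F x := by
  refine sum_bij_ne_zero (fun x _ _ => x + e) ?_ ?_ ?_ ?_
  · intro x _ hx
    by_contra h
    exact hx (h1 _ h)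
  · intro a _ _ b _ _ hab
    exact add_right_cancel hab
  · intro y _ hy
    refine ⟨y - e, ?_, ?_, by simp⟩
    · by_contra h
      have := h2 _ h
      rw [sub_add_cancel] at this
      exact hy this
    · rw [sub_add_cancel]; exact hy
  · intro x _ _; rfl

/-- The cut-off function. -/
noncomputable def cut (c : Pt) (n : ℕ) (x : Pt) : ℝ :=
  max 0 (min 1 (2 - (max |(x.1 - c.1 : ℝ)| |(x.2 - c.2 : ℝ)|) / n))

theorem cut_nonneg (c : Pt) (n : ℕ) (x : Pt) : 0 ≤ cut c n x := le_max_left _ _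

theorem cut_le_one (c : Pt) (n : ℕ) (x : Pt) : cut c n x ≤ 1 :=
  max_le zero_le_one (min_le_left _ _)

theorem cut_one {c x : Pt} {n : ℕ} (hn : 0 < n) (hx : x ∈ bx c n) : cut c n x = 1 := by
  unfold cut
  rw [mem_bx] at hx
  have hn' : (0:ℝ) < n := by exact_mod_cast hn
  have h1 : |(x.1 - c.1 : ℝ)| ≤ n := by
    rw [abs_le]
    have a1 : ((c.1 - n : ℤ) : ℝ) ≤ (x.1 : ℝ) := by exact_mod_cast hx.1.1
    have a2 : ((x.1 : ℤ) : ℝ) ≤ ((c.1 + n : ℤ) : ℝ) := by exact_mod_cast hx.1.2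
    push_cast at a1 a2
    constructor <;> linarith
  have h2 : |(x.2 - c.2 : ℝ)| ≤ n := by
    rw [abs_le]
    have a1 : ((c.2 - n : ℤ) : ℝ) ≤ (x.2 : ℝ) := by exact_mod_cast hx.2.1
    have a2 : ((x.2 : ℤ) : ℝ) ≤ ((c.2 + n : ℤ) : ℝ) := by exact_mod_cast hx.2.2
    push_cast at a1 a2
    constructor <;> linarith
  have h3 : max |(x.1 - c.1 : ℝ)| |(x.2 - c.2 : ℝ)| / n ≤ 1 := by
    rw [div_le_one hn']
    exact max_le h1 h2
  rw [min_eq_left (by linarith), max_eq_right zero_le_one]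

theorem cut_zero {c x : Pt} {n : ℕ} (hn : 0 < n) (hx : x ∉ bx c (2 * n - 1)) :
    cut c n x = 0 := by
  unfold cut
  rw [mem_bx] at hx
  have hn' : (0:ℝ) < n := by exact_mod_cast hn
  have h0 : (2 * (n:ℤ)) ≤ max |x.1 - c.1| |x.2 - c.2| := by
    by_contra h
    push Not at h
    have h1 := lt_of_le_of_lt (le_max_left |x.1 - c.1| |x.2 - c.2|) h
    have h2 := lt_of_le_of_lt (le_max_right |x.1 - c.1| |x.2 - c.2|) h
    rw [abs_lt] at h1 h2
    apply hx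
    have : ((2 * n - 1 : ℕ) : ℤ) = 2 * (n:ℤ) - 1 := by
      push_cast [Nat.cast_sub (show 1 ≤ 2 * n by lia)]; ring
    rw [this]
    lia
  have h1 : (2 * (n:ℝ)) ≤ max |(x.1 - c.1 : ℝ)| |(x.2 - c.2 : ℝ)| := by
    have : ((2 * (n:ℤ) : ℤ) : ℝ) ≤ ((max |x.1 - c.1| |x.2 - c.2| : ℤ) : ℝ) := by exact_mod_cast h0
    push_cast at this
    exact this
  have h3 : 2 ≤ max |(x.1 - c.1 : ℝ)| |(x.2 - c.2 : ℝ)| / n := by
    rw [le_div_iff₀ hn']; linarith
  rw [max_eq_left]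
  exact (min_le_right _ _).trans (by linarith)

theorem abs_max_sub {a b c d : ℝ} : |max a b - max c d| ≤ max |a - c| |b - d| :=
  abs_max_sub_max_le_max a b c d

theorem cut_lip {c : Pt} {n : ℕ} (hn : 0 < n) {e : Pt} (he : e = (1, 0) ∨ e = (0, 1)) (x : Pt) :
    |cut c n (x + e) - cut c n x| ≤ 1 / n := by
  have hn' : (0:ℝ) < n := by exact_mod_cast hn
  unfold cut
  refine (abs_max_sub_max_le_max _ _ _ _).trans ?_
  rw [sub_self, abs_zero]
  refine max_le (by positivity) ?_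
  refine (abs_min_sub_min_le_max _ _ _ _).trans ?_
  rw [sub_self, abs_zero]
  refine max_le (by positivity) ?_
  have : (2 - max |(((x + e).1 : ℤ) - c.1 : ℝ)| |(((x + e).2 : ℤ) - c.2 : ℝ)| / n) -
      (2 - max |(x.1 - c.1 : ℝ)| |(x.2 - c.2 : ℝ)| / n) =
      -((max |(((x + e).1 : ℤ) - c.1 : ℝ)| |(((x + e).2 : ℤ) - c.2 : ℝ)| -
      max |(x.1 - c.1 : ℝ)| |(x.2 - c.2 : ℝ)|) / n) := by ring
  rw [this, abs_neg, abs_div, abs_of_pos hn', div_le_div_iff_of_pos_right hn']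
  refine (abs_max_sub_max_le_max _ _ _ _).trans ?_
  refine max_le ?_ ?_
  · refine (abs_abs_sub_abs_le _ _).trans ?_
    rcases he with rfl | rfl <;> simp
  · refine (abs_abs_sub_abs_le _ _).trans ?_
    rcases he with rfl | rfl <;> simp

/-- The energy identity. -/
theorem energy {h φ : Pt → ℝ} {c : Pt} {n : ℕ} (hφ : ∀ x, x ∉ bx c n → φ x = 0) :
    ∑ x ∈ bx c (n + 1), (D (1, 0) h x * D (1, 0) φ x + D (0, 1) h x * D (0, 1) φ x) =
      - ∑ x ∈ bx c n, lap h x * φ x := by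
  have key : ∀ e : Pt, (e = (1, 0) ∨ e = (0, 1)) → ∑ x ∈ bx c (n + 1), D e h x * D e φ x =
      ∑ x ∈ bx c (n + 1), ((h x - h (x - e)) - (h (x + e) - h x)) * φ x := by
    intro e he
    have s1 : ∑ x ∈ bx c (n + 1), (h (x + e) - h x) * φ (x + e) =
        ∑ x ∈ bx c (n + 1), (h x - h (x - e)) * φ x := by
      have := sum_shift (bx c (n + 1)) (fun x => (h x - h (x - e)) * φ x) e ?_ ?_
      · simp only [add_sub_cancel_right] at this
        exact this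
      · intro x hx
        have : φ x = 0 := hφ x fun h => hx (bx_mono (Nat.le_succ n) h)
        simp [this]
      · intro x hx
        have : φ (x + e) = 0 := by
          refine hφ _ fun h => hx ?_
          rw [mem_bx] at h ⊢
          rcases he with rfl | rfl <;> simp at h <;> push_cast <;> lia
        simp [this]
    unfold D
    rw [← sub_eq_zero, ← sum_sub_distrib]
    rw [← sub_eq_zero, ← sum_sub_distrib] at s1
    rw [← s1]
    refine sum_congr rfl fun x _ => by ring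
  rw [sum_add_distrib, key _ (Or.inl rfl), key _ (Or.inr rfl), ← sum_add_distrib,
    ← sum_neg_distrib]
  symm
  refine sum_subset_zero_on_sdiff (bx_mono (Nat.le_succ n)) ?_ ?_
  · intro x hx
    rw [hφ x (mem_sdiff.1 hx).2]; ring
  · intro x _
    unfold lap; ring

theorem edge_ineq (p q a b : ℝ) :
    (p ^ 2 + q ^ 2) / 2 * (a - b) ^ 2 ≤
      2 * ((a - b) * (p ^ 2 * a - q ^ 2 * b)) + 2 * ((p - q) ^ 2 * (a ^ 2 + b ^ 2)) := by
  have h : 2 * ((a - b) * (p ^ 2 * a - q ^ 2 * b)) + 2 * ((p - q) ^ 2 * (a ^ 2 + b ^ 2)) -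
      (p ^ 2 + q ^ 2) / 2 * (a - b) ^ 2 =
      ((p + q) * (a - b) / 2 + (p - q) * (a + b)) ^ 2 + 5 / 4 * ((p - q) * (a - b)) ^ 2 := by ring
  have h1 := sq_nonneg ((p + q) * (a - b) / 2 + (p - q) * (a + b))
  have h2 := sq_nonneg ((p - q) * (a - b))
  linarith

/-- Caccioppoli inequality, for functions with `h * Δ h ≥ 0` (harmonic functions, nonnegative
subharmonic functions). -/
theorem cacc_sub {h : Pt → ℝ} {c : Pt} {n : ℕ} (hn : 0 < n)
    (hh : ∀ x ∈ bx c (2 * n - 1), 0 ≤ lap h x * h x) :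
    ∑ x ∈ bx c n, (D (1, 0) h x ^ 2 + D (0, 1) h x ^ 2) ≤
      32 / (n:ℝ) ^ 2 * ∑ x ∈ bx c (2 * n), h x ^ 2 := by
  have hn' : (0:ℝ) < n := by exact_mod_cast hn
  set η := cut c n with hη
  set φ : Pt → ℝ := fun x => η x ^ 2 * h x with hφ
  have h0 : ∀ x, x ∉ bx c (2 * n - 1) → φ x = 0 := by
    intro x hx
    simp only [hφ, hη]
    rw [cut_zero hn hx]; ring
  have hE := energy (h := h) (n := 2 * n - 1) h0
  have hE2 : 0 ≤ ∑ x ∈ bx c (2 * n - 1), lap h x * φ x := by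
    refine sum_nonneg fun x hx => ?_
    have : lap h x * φ x = (lap h x * h x) * η x ^ 2 := by simp only [hφ]; ring
    rw [this]
    exact mul_nonneg (hh x hx) (sq_nonneg _)
  have e1 : 2 * n - 1 + 1 = 2 * n := by lia
  rw [e1] at hE
  set S := bx c (2 * n) with hS
  -- edgewise inequality
  have hedge : ∀ (e : Pt) (x : Pt), (η x ^ 2 + η (x + e) ^ 2) / 2 * D e h x ^ 2 ≤
      2 * (D e h x * D e φ x) + 2 * ((η (x + e) - η x) ^ 2 * (h (x + e) ^ 2 + h x ^ 2)) := by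
    intro e x
    have := edge_ineq (η (x + e)) (η x) (h (x + e)) (h x)
    simp only [D, hφ]
    linarith
  have hsum : ∀ (e : Pt), (e = (1, 0) ∨ e = (0, 1)) →
      ∑ x ∈ S, (η (x + e) - η x) ^ 2 * (h (x + e) ^ 2 + h x ^ 2) ≤
      2 / (n:ℝ) ^ 2 * ∑ x ∈ S, h x ^ 2 := by
    intro e he
    have hl : ∀ x, (η (x + e) - η x) ^ 2 ≤ 1 / (n:ℝ) ^ 2 := by
      intro x
      have := cut_lip hn he x (c := c)
      rw [← sq_abs, ← one_div_pow]
      exact pow_le_pow_left₀ (abs_nonneg _) this 2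
    have a1 : ∑ x ∈ S, (η (x + e) - η x) ^ 2 * h x ^ 2 ≤ 1 / (n:ℝ) ^ 2 * ∑ x ∈ S, h x ^ 2 := by
      rw [mul_sum]
      exact sum_le_sum fun x _ => mul_le_mul_of_nonneg_right (hl x) (sq_nonneg _)
    have a2 : ∑ x ∈ S, (η (x + e) - η x) ^ 2 * h (x + e) ^ 2 ≤
        1 / (n:ℝ) ^ 2 * ∑ x ∈ S, h x ^ 2 := by
      calc ∑ x ∈ S, (η (x + e) - η x) ^ 2 * h (x + e) ^ 2
          ≤ ∑ x ∈ S, 1 / (n:ℝ) ^ 2 * (if x + e ∈ S then h (x + e) ^ 2 else 0) := by
            refine sum_le_sum fun x hx => ?_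
            split_ifs with hxe
            · exact mul_le_mul_of_nonneg_right (hl x) (sq_nonneg _)
            · have b1 : η (x + e) = 0 := by
                refine cut_zero hn fun h => hxe (bx_mono (by lia) h)
              have b2 : η x = 0 := by
                refine cut_zero hn fun h => hxe ?_
                rw [hS, mem_bx]
                rw [mem_bx] at h
                have : ((2 * n - 1 : ℕ) : ℤ) = 2 * (n:ℤ) - 1 := by
                  push_cast [Nat.cast_sub (show 1 ≤ 2 * n by lia)]; ring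
                rw [this] at h
                push_cast
                rcases he with rfl | rfl <;> simp <;> lia
              rw [b1, b2]; simp
        _ = 1 / (n:ℝ) ^ 2 * ∑ x ∈ S, (if x + e ∈ S then h (x + e) ^ 2 else 0) := by rw [mul_sum]
        _ ≤ 1 / (n:ℝ) ^ 2 * ∑ x ∈ S, h x ^ 2 := by
            refine mul_le_mul_of_nonneg_left ?_ (by positivity)
            rw [← sum_filter]
            have : ∑ x ∈ S.filter (fun x => x + e ∈ S), h (x + e) ^ 2 =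
                ∑ y ∈ (S.filter (fun x => x + e ∈ S)).image (fun x => x + e), h y ^ 2 := by
              rw [sum_image]
              intro a _ b _ hab
              exact add_right_cancel hab
            rw [this]
            refine sum_le_sum_of_subset_of_nonneg ?_ fun _ _ _ => sq_nonneg _
            intro y hy
            rw [mem_image] at hy
            obtain ⟨x, hx, rfl⟩ := hy
            exact (mem_filter.1 hx).2
    have : ∑ x ∈ S, (η (x + e) - η x) ^ 2 * (h (x + e) ^ 2 + h x ^ 2) =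
        ∑ x ∈ S, (η (x + e) - η x) ^ 2 * h (x + e) ^ 2 +
        ∑ x ∈ S, (η (x + e) - η x) ^ 2 * h x ^ 2 := by
      rw [← sum_add_distrib]
      exact sum_congr rfl fun x _ => by ring
    rw [this]
    have : 2 / (n:ℝ) ^ 2 * ∑ x ∈ S, h x ^ 2 = 1 / (n:ℝ) ^ 2 * ∑ x ∈ S, h x ^ 2 +
      1 / (n:ℝ) ^ 2 * ∑ x ∈ S, h x ^ 2 := by ring
    linarith
  have hlow : ∀ (e : Pt), ∑ x ∈ bx c n, D e h x ^ 2 ≤
      2 * ∑ x ∈ S, (η x ^ 2 + η (x + e) ^ 2) / 2 * D e h x ^ 2 := by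
    intro e
    rw [mul_sum]
    calc ∑ x ∈ bx c n, D e h x ^ 2
        ≤ ∑ x ∈ bx c n, 2 * ((η x ^ 2 + η (x + e) ^ 2) / 2 * D e h x ^ 2) := by
          refine sum_le_sum fun x hx => ?_
          have : η x = 1 := cut_one hn hx
          rw [this]
          nlinarith [sq_nonneg (η (x + e)), sq_nonneg (D e h x),
            mul_nonneg (sq_nonneg (η (x + e))) (sq_nonneg (D e h x))]
      _ ≤ _ := by
          refine sum_le_sum_of_subset_of_nonneg (bx_mono (by lia)) fun x _ _ => ?_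
          positivity
  have hu : ∀ (e : Pt), (e = (1, 0) ∨ e = (0, 1)) →
      ∑ x ∈ bx c n, D e h x ^ 2 ≤ 4 * ∑ x ∈ S, D e h x * D e φ x +
        8 / (n:ℝ) ^ 2 * ∑ x ∈ S, h x ^ 2 := by
    intro e he
    have b1 := hlow e
    have b2 : ∑ x ∈ S, (η x ^ 2 + η (x + e) ^ 2) / 2 * D e h x ^ 2 ≤
        2 * ∑ x ∈ S, D e h x * D e φ x +
        2 * ∑ x ∈ S, (η (x + e) - η x) ^ 2 * (h (x + e) ^ 2 + h x ^ 2) := by
      rw [mul_sum, mul_sum, ← sum_add_distrib]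
      exact sum_le_sum fun x _ => hedge e x
    have b3 := hsum e he
    have : 8 / (n:ℝ) ^ 2 * ∑ x ∈ S, h x ^ 2 = 4 * (2 / (n:ℝ) ^ 2 * ∑ x ∈ S, h x ^ 2) := by ring
    linarith
  have h1 := hu _ (Or.inl rfl)
  have h2 := hu _ (Or.inr rfl)
  rw [sum_add_distrib] at hE ⊢
  have h3 : 0 ≤ 1 / (n:ℝ) ^ 2 * ∑ x ∈ S, h x ^ 2 :=
    mul_nonneg (by positivity) (sum_nonneg fun _ _ => sq_nonneg _)
  have h4 : 32 / (n:ℝ) ^ 2 * ∑ x ∈ S, h x ^ 2 = 8 / (n:ℝ) ^ 2 * ∑ x ∈ S, h x ^ 2 +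
    8 / (n:ℝ) ^ 2 * ∑ x ∈ S, h x ^ 2 + 16 * (1 / (n:ℝ) ^ 2 * ∑ x ∈ S, h x ^ 2) := by ring
  linarith

/-- Caccioppoli inequality. -/
theorem cacc {h : Pt → ℝ} {c : Pt} {n : ℕ} (hn : 0 < n) (hh : Harm h c (2 * n)) :
    ∑ x ∈ bx c n, (D (1, 0) h x ^ 2 + D (0, 1) h x ^ 2) ≤
      32 / (n:ℝ) ^ 2 * ∑ x ∈ bx c (2 * n), h x ^ 2 :=
  cacc_sub hn fun x hx => by rw [hh x (bx_mono (by lia) hx), zero_mul]

/-- One-dimensional Sobolev inequality. -/
theorem sob1 (g : ℕ → ℝ) {L : ℕ} (hL : 0 < L) :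
    g 0 ^ 2 ≤ 2 / L * ∑ k ∈ range L, g k ^ 2 + 2 * L * ∑ k ∈ range L, (g (k + 1) - g k) ^ 2 := by
  have hL' : (0:ℝ) < L := by exact_mod_cast hL
  set E := ∑ k ∈ range L, (g (k + 1) - g k) ^ 2 with hE
  have h1 : ∀ k ∈ range L, g 0 ^ 2 ≤ 2 * g k ^ 2 + 2 * L * E := by
    intro k hk
    have hk := mem_range.1 hk
    have e : g k - g 0 = ∑ j ∈ range k, (g (j + 1) - g j) := (sum_range_sub g k).symm
    have e2 : (g k - g 0) ^ 2 ≤ L * E := by
      rw [e]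
      calc (∑ j ∈ range k, (g (j + 1) - g j)) ^ 2
          ≤ (range k).card * ∑ j ∈ range k, (g (j + 1) - g j) ^ 2 := sq_sum_le_card_mul_sum_sq
        _ ≤ L * E := by
            rw [card_range]
            refine mul_le_mul (by exact_mod_cast hk.le) ?_ (sum_nonneg fun _ _ => sq_nonneg _)
              hL'.le
            exact sum_le_sum_of_subset_of_nonneg (range_mono hk.le) fun _ _ _ => sq_nonneg _
    nlinarith [sq_nonneg (g k + (g k - g 0))]
  have h2 : (L:ℝ) * g 0 ^ 2 ≤ 2 * ∑ k ∈ range L, g k ^ 2 + L * (2 * L * E) := by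
    calc (L:ℝ) * g 0 ^ 2 = ∑ k ∈ range L, g 0 ^ 2 := by rw [sum_const, card_range, nsmul_eq_mul]
      _ ≤ ∑ k ∈ range L, (2 * g k ^ 2 + 2 * L * E) := sum_le_sum h1
      _ = _ := by rw [sum_add_distrib, ← mul_sum, sum_const, card_range, nsmul_eq_mul]
  have h3 : g 0 ^ 2 = (L:ℝ) * g 0 ^ 2 / L := by field_simp
  rw [h3, div_le_iff₀ hL']
  have h4 : (2 / L * ∑ k ∈ range L, g k ^ 2 + 2 * L * E) * L =
      2 * ∑ k ∈ range L, g k ^ 2 + L * (2 * L * E) := by field_simp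
  rw [h4]; exact h2

/-- Two-dimensional Sobolev inequality. -/
theorem sob2 (g : ℕ → ℕ → ℝ) {L : ℕ} (hL : 0 < L) :
    g 0 0 ^ 2 ≤ 4 / (L:ℝ) ^ 2 * ∑ i ∈ range L, ∑ j ∈ range L, g i j ^ 2 +
      4 * ∑ i ∈ range L, ∑ j ∈ range L, (g i (j + 1) - g i j) ^ 2 +
      4 * ∑ i ∈ range L, ∑ j ∈ range L, (g (i + 1) j - g i j) ^ 2 +
      4 * (L:ℝ) ^ 2 * ∑ i ∈ range L, ∑ j ∈ range L,
        ((g (i + 1) (j + 1) - g i (j + 1)) - (g (i + 1) j - g i j)) ^ 2 := by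
  have hL' : (0:ℝ) < L := by exact_mod_cast hL
  have h1 := sob1 (fun i => g i 0) hL
  have h2 : ∀ i ∈ range L, g i 0 ^ 2 ≤ 2 / L * ∑ j ∈ range L, g i j ^ 2 +
      2 * L * ∑ j ∈ range L, (g i (j + 1) - g i j) ^ 2 := fun i _ => sob1 (g i) hL
  have h3 : ∀ i ∈ range L, (g (i + 1) 0 - g i 0) ^ 2 ≤
      2 / L * ∑ j ∈ range L, (g (i + 1) j - g i j) ^ 2 +
      2 * L * ∑ j ∈ range L, ((g (i + 1) (j + 1) - g i (j + 1)) - (g (i + 1) j - g i j)) ^ 2 :=
    fun i _ => sob1 (fun j => g (i + 1) j - g i j) hL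
  have h4 := sum_le_sum h2
  have h5 := sum_le_sum h3
  rw [sum_add_distrib, ← mul_sum, ← mul_sum] at h4 h5
  have e1 : (2 / (L:ℝ)) * (2 / L) = 4 / (L:ℝ) ^ 2 := by field_simp; norm_num
  have e2 : (2 / (L:ℝ)) * (2 * L) = 4 := by field_simp; norm_num
  have e3 : (2 * (L:ℝ)) * (2 / L) = 4 := by field_simp; norm_num
  have e4 : (2 * (L:ℝ)) * (2 * L) = 4 * (L:ℝ) ^ 2 := by ring
  have h6 := mul_le_mul_of_nonneg_left h4 (show (0:ℝ) ≤ 2 / L by positivity)
  have h7 := mul_le_mul_of_nonneg_left h5 (show (0:ℝ) ≤ 2 * L by positivity)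
  rw [mul_add, ← mul_assoc, ← mul_assoc, e1, e2] at h6
  rw [mul_add, ← mul_assoc, ← mul_assoc, e3, e4] at h7
  linarith

theorem sum_quad_le (c : Pt) (L : ℕ) (F : Pt → ℝ) (hF : ∀ x, 0 ≤ F x) :
    ∑ i ∈ range L, ∑ j ∈ range L, F (c.1 + i, c.2 + j) ≤ ∑ x ∈ bx c L, F x := by
  rw [← sum_product']
  have : ∑ x ∈ range L ×ˢ range L, F (c.1 + (x.1 : ℤ), c.2 + (x.2 : ℤ)) =
      ∑ y ∈ (range L ×ˢ range L).image (fun x : ℕ × ℕ => ((c.1 + (x.1 : ℤ), c.2 + (x.2 : ℤ)) : Pt)),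
        F y := by
    rw [sum_image]
    intro a _ b _ hab
    simp only [Prod.mk.injEq, add_right_inj, Nat.cast_inj] at hab
    exact Prod.ext hab.1 hab.2
  rw [this]
  refine sum_le_sum_of_subset_of_nonneg ?_ fun _ _ _ => hF _
  intro y hy
  rw [mem_image] at hy
  obtain ⟨x, hx, rfl⟩ := hy
  rw [mem_product, mem_range, mem_range] at hx
  rw [mem_bx]
  simp only
  lia

/-- A value of a harmonic function is bounded by its `ℓ²` sum. -/
theorem sq_le_sum {h : Pt → ℝ} {c : Pt} {n : ℕ} (hn : 0 < n) (hh : Harm h c (4 * n)) :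
    h c ^ 2 ≤ 5000 / (n:ℝ) ^ 2 * ∑ x ∈ bx c (4 * n), h x ^ 2 := by
  have hn' : (0:ℝ) < n := by exact_mod_cast hn
  have s := sob2 (fun i j => h (c.1 + i, c.2 + j)) hn
  simp only [Nat.cast_zero, add_zero, Prod.mk.eta] at s
  have hD1 : ∀ i j : ℕ, h (c.1 + ((i + 1 : ℕ) : ℤ), c.2 + j) - h (c.1 + i, c.2 + j) =
      D (1, 0) h (c.1 + i, c.2 + j) := by
    intro i j; unfold D; simp [add_assoc]
  have hD2 : ∀ i j : ℕ, h (c.1 + i, c.2 + ((j + 1 : ℕ) : ℤ)) - h (c.1 + i, c.2 + j) =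
      D (0, 1) h (c.1 + i, c.2 + j) := by
    intro i j; unfold D; simp [add_assoc]
  have hD12 : ∀ i j : ℕ, D (1, 0) h (c.1 + i, c.2 + ((j + 1 : ℕ) : ℤ)) -
      D (1, 0) h (c.1 + i, c.2 + j) = D (0, 1) (D (1, 0) h) (c.1 + i, c.2 + j) := by
    intro i j
    conv_rhs => unfold D
    simp only [D]
    simp [add_assoc]
  simp only [hD1, hD2, hD12] at s
  have q0 := sum_quad_le c n (fun x => h x ^ 2) fun _ => sq_nonneg _
  have q1 := sum_quad_le c n (fun x => D (1, 0) h x ^ 2) fun _ => sq_nonneg _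
  have q2 := sum_quad_le c n (fun x => D (0, 1) h x ^ 2) fun _ => sq_nonneg _
  have q3 := sum_quad_le c n (fun x => D (0, 1) (D (1, 0) h) x ^ 2) fun _ => sq_nonneg _
  have c1 := cacc hn (hh.mono (show 2 * n ≤ 4 * n by lia))
  have hh2 : Harm (D (1, 0) h) c (2 * n) := (hh.mono (show 2 * n + 1 ≤ 4 * n by lia)).D (Or.inl rfl)
  have c2 := cacc hn hh2
  have c3 := cacc (n := 2 * n) (c := c) (h := h) (by lia) (hh.mono (by lia))
  have e1 : 2 * (2 * n) = 4 * n := by ring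
  rw [e1] at c3
  push_cast at c3
  rw [sum_add_distrib] at c1 c2 c3
  set S4 := ∑ x ∈ bx c (4 * n), h x ^ 2 with hS4
  have hS2 : ∑ x ∈ bx c (2 * n), h x ^ 2 ≤ S4 :=
    sum_le_sum_of_subset_of_nonneg (bx_mono (by lia)) fun _ _ _ => sq_nonneg _
  have hS1 : ∑ x ∈ bx c n, h x ^ 2 ≤ S4 :=
    sum_le_sum_of_subset_of_nonneg (bx_mono (by lia)) fun _ _ _ => sq_nonneg _
  have p1 : 0 ≤ ∑ x ∈ bx c n, D (1, 0) (D (1, 0) h) x ^ 2 := sum_nonneg fun _ _ => sq_nonneg _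
  have p2 : 0 ≤ ∑ x ∈ bx c (2 * n), D (0, 1) h x ^ 2 := sum_nonneg fun _ _ => sq_nonneg _
  have p4 : 0 ≤ S4 := sum_nonneg fun _ _ => sq_nonneg _
  -- bounds
  have b1 : ∑ x ∈ bx c n, D (1, 0) h x ^ 2 + ∑ x ∈ bx c n, D (0, 1) h x ^ 2 ≤
      32 / (n:ℝ) ^ 2 * S4 := c1.trans (mul_le_mul_of_nonneg_left hS2 (by positivity))
  have b3 : ∑ x ∈ bx c (2 * n), D (1, 0) h x ^ 2 ≤ 32 / (2 * (n:ℝ)) ^ 2 * S4 := by linarith
  have b2 : ∑ x ∈ bx c n, D (0, 1) (D (1, 0) h) x ^ 2 ≤ 32 / (n:ℝ) ^ 2 *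
      (32 / (2 * (n:ℝ)) ^ 2 * S4) := by
    have := mul_le_mul_of_nonneg_left b3 (show 0 ≤ 32 / (n:ℝ) ^ 2 by positivity)
    linarith
  have t1 := mul_le_mul_of_nonneg_left (q3.trans b2) (show 0 ≤ 4 * (n:ℝ) ^ 2 by positivity)
  have t2 : 4 * (n:ℝ) ^ 2 * (32 / (n:ℝ) ^ 2 * (32 / (2 * (n:ℝ)) ^ 2 * S4)) =
      1024 / (n:ℝ) ^ 2 * S4 := by field_simp; ring
  have t3 := mul_le_mul_of_nonneg_left (q0.trans hS1) (show 0 ≤ 4 / (n:ℝ) ^ 2 by positivity)
  have t5 : 5000 / (n:ℝ) ^ 2 * S4 = 4 / (n:ℝ) ^ 2 * S4 + 4 * (32 / (n:ℝ) ^ 2 * S4) +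
      1024 / (n:ℝ) ^ 2 * S4 + 3844 * (1 / (n:ℝ) ^ 2 * S4) := by ring
  have t6 : 0 ≤ 1 / (n:ℝ) ^ 2 * S4 := by positivity
  rw [t5]
  rw [t2] at t1
  linarith

/-- Iterated differences. -/
def DD : List Pt → (Pt → ℝ) → Pt → ℝ
  | [], h => h
  | e :: w, h => D e (DD w h)

/-- The list consists of coordinate directions. -/
def Dirs (w : List Pt) : Prop := ∀ e ∈ w, e = (1, 0) ∨ e = (0, 1)

theorem Dirs.tail {e : Pt} {w : List Pt} (h : Dirs (e :: w)) : Dirs w :=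
  fun x hx => h x (List.mem_cons_of_mem _ hx)

theorem Dirs.head {e : Pt} {w : List Pt} (h : Dirs (e :: w)) : e = (1, 0) ∨ e = (0, 1) :=
  h e List.mem_cons_self

theorem Harm.DD {w : List Pt} (hw : Dirs w) {h : Pt → ℝ} {c : Pt} {n : ℕ}
    (hh : Harm h c (n + w.length)) : Harm (DD w h) c n := by
  induction w generalizing n with
  | nil => exact hh
  | cons e w ih =>
    have : Harm (H170.DD w h) c (n + 1) := by
      refine ih hw.tail (hh.mono ?_)
      simp only [List.length_cons]; lia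
    exact this.D hw.head

theorem DD_sum {w : List Pt} (hw : Dirs w) {h : Pt → ℝ} {c : Pt} {n : ℕ} (hn : 0 < n)
    (hh : Harm h c (2 ^ w.length * n + w.length)) :
    ∑ x ∈ bx c n, DD w h x ^ 2 ≤ (32 / (n:ℝ) ^ 2) ^ w.length *
      ∑ x ∈ bx c (2 ^ w.length * n), h x ^ 2 := by
  have hn' : (0:ℝ) < n := by exact_mod_cast hn
  induction w generalizing n with
  | nil => simp [DD]
  | cons e w ih =>
    have hl : (e :: w).length = w.length + 1 := rfl
    rw [hl] at hh ⊢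
    have hpow : 2 ^ (w.length + 1) * n = 2 ^ w.length * (2 * n) := by rw [pow_succ]; ring
    have h1 : Harm (H170.DD w h) c (2 * n) := by
      refine Harm.DD hw.tail (hh.mono ?_)
      rw [hpow]
      have := Nat.one_le_two_pow (n := w.length)
      nlinarith
    have h2 := cacc hn h1
    have h3 := ih hw.tail (n := 2 * n) (by lia) (hh.mono (by rw [hpow]; lia)) (by push_cast; positivity)
    have h4 : ∑ x ∈ bx c n, H170.D e (H170.DD w h) x ^ 2 ≤
        ∑ x ∈ bx c n, (H170.D (1, 0) (H170.DD w h) x ^ 2 + H170.D (0, 1) (H170.DD w h) x ^ 2) := by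
      refine sum_le_sum fun x _ => ?_
      rcases hw.head with rfl | rfl
      · linarith [sq_nonneg (H170.D (0, 1) (H170.DD w h) x)]
      · linarith [sq_nonneg (H170.D (1, 0) (H170.DD w h) x)]
    have h5 : (32 / ((2 * n : ℕ) : ℝ) ^ 2) ^ w.length ≤ (32 / (n:ℝ) ^ 2) ^ w.length := by
      refine pow_le_pow_left₀ (by positivity) ?_ _
      refine div_le_div_of_nonneg_left (by norm_num) (by positivity) ?_
      push_cast
      nlinarith
    have hS : 0 ≤ ∑ x ∈ bx c (2 ^ w.length * (2 * n)), h x ^ 2 := sum_nonneg fun _ _ => sq_nonneg _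
    rw [hpow]
    calc ∑ x ∈ bx c n, H170.D e (H170.DD w h) x ^ 2
        ≤ 32 / (n:ℝ) ^ 2 * ∑ x ∈ bx c (2 * n), H170.DD w h x ^ 2 := h4.trans h2
      _ ≤ 32 / (n:ℝ) ^ 2 * ((32 / (n:ℝ) ^ 2) ^ w.length *
          ∑ x ∈ bx c (2 ^ w.length * (2 * n)), h x ^ 2) := by
          refine mul_le_mul_of_nonneg_left (h3.trans ?_) (by positivity)
          exact mul_le_mul_of_nonneg_right h5 hS
      _ = _ := by rw [pow_succ]; ring

/-- Interior bounds for differences of any order. -/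
theorem DD_sq_le {w : List Pt} (hw : Dirs w) {h : Pt → ℝ} {c : Pt} {n : ℕ} (hn : 0 < n)
    (hh : Harm h c (5 * 2 ^ w.length * n)) :
    DD w h c ^ 2 ≤ 5000 / (n:ℝ) ^ 2 * (32 / (n:ℝ) ^ 2) ^ w.length *
      ∑ x ∈ bx c (4 * 2 ^ w.length * n), h x ^ 2 := by
  have hn' : (0:ℝ) < n := by exact_mod_cast hn
  have h2 : w.length < 2 ^ w.length := Nat.lt_two_pow_self
  have h1 : Harm (H170.DD w h) c (4 * n) := by
    refine Harm.DD hw (hh.mono ?_)
    nlinarith [Nat.one_le_two_pow (n := w.length)]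
  have h3 := sq_le_sum hn h1
  have e1 : 4 * 2 ^ w.length * n = 2 ^ w.length * (4 * n) := by ring
  have h4 := DD_sum hw (n := 4 * n) (h := h) (c := c) (by lia) (hh.mono (by
    rw [show 5 * 2 ^ w.length * n = 2 ^ w.length * (4 * n) + 2 ^ w.length * n by ring]
    nlinarith))
  have h5 : (32 / ((4 * n : ℕ) : ℝ) ^ 2) ^ w.length ≤ (32 / (n:ℝ) ^ 2) ^ w.length := by
    refine pow_le_pow_left₀ (by positivity) ?_ _
    refine div_le_div_of_nonneg_left (by norm_num) (by positivity) ?_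
    push_cast
    nlinarith
  rw [e1]
  have hS : 0 ≤ ∑ x ∈ bx c (2 ^ w.length * (4 * n)), h x ^ 2 := sum_nonneg fun _ _ => sq_nonneg _
  calc H170.DD w h c ^ 2 ≤ 5000 / (n:ℝ) ^ 2 * ∑ x ∈ bx c (4 * n), H170.DD w h x ^ 2 := h3
    _ ≤ 5000 / (n:ℝ) ^ 2 * ((32 / (n:ℝ) ^ 2) ^ w.length *
        ∑ x ∈ bx c (2 ^ w.length * (4 * n)), h x ^ 2) := by
        refine mul_le_mul_of_nonneg_left (h4.trans ?_) (by positivity)
        exact mul_le_mul_of_nonneg_right h5 hS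
    _ = _ := by ring

theorem DD_triv (w : List Pt) (hw : Dirs w) (h : Pt → ℝ) (c : Pt) {B : ℝ}
    (hB : ∀ x ∈ bx c w.length, |h x| ≤ B) : |DD w h c| ≤ 2 ^ w.length * B := by
  induction w generalizing c with
  | nil => simpa [DD] using hB c (self_mem_bx _ _)
  | cons e w ih =>
    have h1 := ih hw.tail c fun x hx => hB x (bx_mono (by simp) hx)
    have h2 := ih hw.tail (c + e) fun x hx => hB x (by
      rw [mem_bx] at hx ⊢
      simp only [List.length_cons]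
      push_cast
      rcases hw.head with rfl | rfl <;> simp at hx <;> lia)
    have h3 : H170.DD (e :: w) h c = H170.DD w h (c + e) - H170.DD w h c := rfl
    rw [h3, List.length_cons, pow_succ]
    have := abs_sub (H170.DD w h (c + e)) (H170.DD w h c)
    linarith

theorem card_bx (c : Pt) (n : ℕ) : (bx c n).card = (2 * n + 1) ^ 2 := by
  unfold bx
  rw [card_product, Int.card_Icc, Int.card_Icc, sq]
  congr 1 <;> lia

/-- Interior bounds for differences of any order, `ℓ²` version for all radii. -/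
theorem DD_bound (k : ℕ) : ∃ C : ℝ, 0 < C ∧ ∀ (w : List Pt), Dirs w → w.length = k →
    ∀ (h : Pt → ℝ) (c : Pt) (R : ℕ), 0 < R → Harm h c R →
    DD w h c ^ 2 ≤ C / (R:ℝ) ^ (2 + 2 * k) * ∑ x ∈ bx c (R + k), h x ^ 2 := by
  set K : ℕ := 5 * 2 ^ k with hK
  have hK1 : 1 ≤ K := by have := Nat.one_le_two_pow (n := k); lia
  refine ⟨5000 * 32 ^ k * (2 * K) ^ (2 + 2 * k) + 4 ^ k * K ^ (2 + 2 * k), by positivity, ?_⟩
  intro w hw hwk h c R hR hh
  have hR' : (0:ℝ) < R := by exact_mod_cast hR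
  have hS : 0 ≤ ∑ x ∈ bx c (R + k), h x ^ 2 := sum_nonneg fun _ _ => sq_nonneg _
  by_cases hRK : R < K
  · have h1 : DD w h c ^ 2 ≤ 4 ^ k * ∑ x ∈ bx c (R + k), h x ^ 2 := by
      have : ∀ x ∈ bx c w.length, |h x| ≤ √(∑ x ∈ bx c (R + k), h x ^ 2) := by
        intro x hx
        refine Real.abs_le_sqrt ?_
        exact single_le_sum (f := fun x => h x ^ 2) (fun _ _ => sq_nonneg _)
          (bx_mono (by rw [hwk]; lia) hx)
      have := DD_triv w hw h c this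
      rw [hwk] at this
      have h2 := pow_le_pow_left₀ (abs_nonneg _) this 2
      rw [sq_abs, mul_pow, Real.sq_sqrt hS, ← pow_mul, mul_comm k 2, pow_mul] at h2
      norm_num at h2
      exact h2
    refine h1.trans (mul_le_mul_of_nonneg_right ?_ hS)
    rw [le_div_iff₀ (by positivity)]
    have h3 : (R:ℝ) ^ (2 + 2 * k) ≤ (K:ℝ) ^ (2 + 2 * k) :=
      pow_le_pow_left₀ hR'.le (by exact_mod_cast hRK.le) _
    have h4 : (0:ℝ) ≤ 5000 * 32 ^ k * (2 * K) ^ (2 + 2 * k) := by positivity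
    have h5 : (4:ℝ) ^ k * (R:ℝ) ^ (2 + 2 * k) ≤ 4 ^ k * (K:ℝ) ^ (2 + 2 * k) :=
      mul_le_mul_of_nonneg_left h3 (by positivity)
    linarith
  · push Not at hRK
    set n := R / K with hn
    have hn0 : 0 < n := Nat.div_pos hRK (by lia)
    have hn1 : K * n ≤ R := Nat.mul_div_le R K
    have hn2 : R < K * n + K := by
      have h1 := Nat.lt_mul_div_succ R (show 0 < K by lia)
      have h2 : K * (R / K + 1) = K * n + K := by rw [hn]; ring
      lia
    have hn0' : (0:ℝ) < n := by exact_mod_cast hn0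
    have hn3 : (R:ℝ) ≤ 2 * K * n := by
      have : R ≤ 2 * K * n := by nlinarith
      exact_mod_cast this
    have h1 := DD_sq_le hw (h := h) (c := c) (n := n) hn0 (by rw [hwk]; exact hh.mono hn1)
    rw [hwk] at h1
    have hsub : ∑ x ∈ bx c (4 * 2 ^ k * n), h x ^ 2 ≤ ∑ x ∈ bx c (R + k), h x ^ 2 := by
      refine sum_le_sum_of_subset_of_nonneg (bx_mono ?_) fun _ _ _ => sq_nonneg _
      have : 4 * 2 ^ k * n ≤ K * n := by rw [hK]; exact Nat.mul_le_mul_right _ (by lia)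
      lia
    refine h1.trans ?_
    refine mul_le_mul ?_ hsub (sum_nonneg fun _ _ => sq_nonneg _) (by positivity)
    have e1 : 5000 / (n:ℝ) ^ 2 * (32 / (n:ℝ) ^ 2) ^ k = 5000 * 32 ^ k / (n:ℝ) ^ (2 + 2 * k) := by
      rw [div_pow, ← pow_mul, div_mul_div_comm, ← pow_add]
    rw [e1, div_le_div_iff₀ (by positivity) (by positivity)]
    have h3 : (R:ℝ) ^ (2 + 2 * k) ≤ (2 * K * n) ^ (2 + 2 * k) :=
      pow_le_pow_left₀ hR'.le hn3 _
    have h4 : (0:ℝ) ≤ 4 ^ k * K ^ (2 + 2 * k) * (n:ℝ) ^ (2 + 2 * k) := by positivity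
    have h5 : 5000 * 32 ^ k * (R:ℝ) ^ (2 + 2 * k) ≤ 5000 * 32 ^ k * (2 * K * n) ^ (2 + 2 * k) :=
      mul_le_mul_of_nonneg_left h3 (by positivity)
    rw [mul_pow] at h5
    linarith

/-- Interior bounds for differences of any order in terms of the supremum. -/
theorem DD_sup (k : ℕ) : ∃ C : ℝ, 0 < C ∧ ∀ (w : List Pt), Dirs w → w.length = k →
    ∀ (h : Pt → ℝ) (c : Pt) (R : ℕ) (B : ℝ), 0 < R → Harm h c R → (∀ x ∈ bx c (R + k), |h x| ≤ B) →
    |DD w h c| ≤ C * B / (R:ℝ) ^ k := by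
  obtain ⟨C, hC, hb⟩ := DD_bound k
  refine ⟨√C * (2 * k + 3), by positivity, fun w hw hwk h c R B hR hh hB => ?_⟩
  have hR' : (1:ℝ) ≤ R := by exact_mod_cast hR
  have hB0 : 0 ≤ B := (abs_nonneg _).trans (hB c (self_mem_bx _ _))
  have h1 := hb w hw hwk h c R hR hh
  have h2 : ∑ x ∈ bx c (R + k), h x ^ 2 ≤ (2 * ((R + k : ℕ) : ℝ) + 1) ^ 2 * B ^ 2 := by
    calc ∑ x ∈ bx c (R + k), h x ^ 2 ≤ ∑ x ∈ bx c (R + k), B ^ 2 := by
          refine sum_le_sum fun x hx => ?_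
          rw [← sq_abs]
          exact pow_le_pow_left₀ (abs_nonneg _) (hB x hx) 2
      _ = _ := by rw [sum_const, card_bx, nsmul_eq_mul]; push_cast; ring
  have h3 : 2 * ((R + k : ℕ) : ℝ) + 1 ≤ (2 * k + 3) * R := by
    push_cast
    have : (0:ℝ) ≤ k := Nat.cast_nonneg k
    nlinarith
  have h4 : (2 * ((R + k : ℕ) : ℝ) + 1) ^ 2 * B ^ 2 ≤ ((2 * k + 3) * R) ^ 2 * B ^ 2 :=
    mul_le_mul_of_nonneg_right (pow_le_pow_left₀ (by positivity) h3 2) (sq_nonneg _)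
  have h5 : DD w h c ^ 2 ≤ (√C * (2 * k + 3) * B / (R:ℝ) ^ k) ^ 2 := by
    calc DD w h c ^ 2 ≤ C / (R:ℝ) ^ (2 + 2 * k) * (((2 * k + 3) * R) ^ 2 * B ^ 2) :=
          h1.trans (mul_le_mul_of_nonneg_left (h2.trans h4) (by positivity))
      _ = _ := by
          rw [div_pow, mul_pow, mul_pow, mul_pow, Real.sq_sqrt hC.le, pow_add, ← pow_mul,
            mul_comm k 2]
          field_simp
  exact abs_le_of_sq_le_sq h5 (by positivity)

end Vale.Agent.P144.H170
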