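import Vale.Agent.P144.H170.Reg
import Vale.Agent.P144.Defs
import Mathlib.Analysis.Complex.Conformal
import Mathlib.Order.Filter.Ultrafilter.Basic
import Mathlib.Analysis.InnerProductSpace.Harmonic.Basic

/-!
Compactness of families of discrete harmonic functions on `a ℤ²` as `a → 0`, along an ultrafilter.
-/

namespace Vale.Agent.P144.H170

open Filter Topology Finset

/-- The point of `ℂ` represented by a lattice point. -/
noncomputable def pt (a : ℝ) (x : Pt) : ℂ := ⟨a * x.1, a * x.2⟩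

theorem pt_fl_norm {a : ℝ} (ha : 0 < a) (z : ℂ) : ‖pt a (fl a z) - z‖ ≤ 2 * a := by
  refine (Complex.norm_le_abs_re_add_abs_im _).trans ?_
  have key : ∀ t : ℝ, |a * ⌊t / a⌋ - t| ≤ a := by
    intro t
    have h1 := Int.floor_le (t / a)
    have h2 := Int.lt_floor_add_one (t / a)
    have h3 : a * (t / a) = t := by field_simp
    have h4 := mul_le_mul_of_nonneg_left h1 ha.le
    have h5 := mul_le_mul_of_nonneg_left h2.le ha.le
    rw [abs_le]
    constructor <;> nlinarith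
  have h1 := key z.re
  have h2 := key z.im
  simp only [pt, fl, Complex.sub_re, Complex.sub_im]
  linarith

theorem pt_sub_norm {a : ℝ} (ha : 0 < a) (x y : Pt) :
    ‖pt a x - pt a y‖ ≤ a * (|(x.1 - y.1 : ℝ)| + |(x.2 - y.2 : ℝ)|) := by
  refine (Complex.norm_le_abs_re_add_abs_im _).trans ?_
  simp only [pt, Complex.sub_re, Complex.sub_im]
  rw [← mul_sub, ← mul_sub, abs_mul, abs_mul, abs_of_pos ha, mul_add]

theorem pt_sub_norm' {a : ℝ} (ha : 0 < a) (x y : Pt) :
    a * (|(x.1 - y.1 : ℝ)| + |(x.2 - y.2 : ℝ)|) ≤ 2 * ‖pt a x - pt a y‖ := by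
  have h1 := Complex.abs_re_le_norm (pt a x - pt a y)
  have h2 := Complex.abs_im_le_norm (pt a x - pt a y)
  simp only [pt, Complex.sub_re, Complex.sub_im] at h1 h2
  rw [← mul_sub, abs_mul, abs_of_pos ha] at h1 h2
  simp only [pt]
  linarith

theorem lap_const_mul (c : ℝ) (h : Pt → ℝ) (x : Pt) :
    lap (fun x => c * h x) x = c * lap h x := by
  unfold lap; ring

theorem line_le {g : ℤ → ℝ} {α B : ℝ} {m n : ℤ} (hmn : m ≤ n)
    (h : ∀ t, m ≤ t → t < n → |g (t + 1) - g t - α| ≤ B) :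
    |g n - g m - α * (n - m)| ≤ B * (n - m) := by
  induction n, hmn using Int.leInduction with
  | base => simp
  | succ n hn ih =>
    have h1 := ih fun t h1 h2 => h t h1 (by lia)
    have h2 := h n hn (by lia)
    push_cast
    have e : g (n + 1) - g m - α * ((n:ℝ) + 1 - m) =
      (g n - g m - α * (n - m)) + (g (n + 1) - g n - α) := by ring
    rw [e]
    refine (abs_add_le _ _).trans ?_
    linarith

theorem line {g : ℤ → ℝ} {α B : ℝ} {m n : ℤ}
    (h : ∀ t, min m n ≤ t → t ≤ max m n → |g (t + 1) - g t - α| ≤ B) :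
    |g n - g m - α * (n - m)| ≤ B * |(n - m : ℝ)| := by
  rcases le_total m n with hmn | hmn
  · have := line_le hmn fun t h1 h2 => h t (by lia) (by lia)
    have h3 : (m:ℝ) ≤ n := by exact_mod_cast hmn
    rw [abs_of_nonneg (sub_nonneg.2 h3)]
    exact this
  · have := line_le hmn fun t h1 h2 => h t (by lia) (by lia)
    have h3 : (n:ℝ) ≤ m := by exact_mod_cast hmn
    rw [abs_of_nonpos (sub_nonpos.2 h3), neg_sub, ← abs_neg]
    have e : -(g n - g m - α * ((n:ℝ) - m)) = g m - g n - α * (m - n) := by ring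
    rw [e]
    exact this

theorem between {a : ℝ} (ha : 0 < a) {m n t : ℤ} (h1 : min m n ≤ t) (h2 : t ≤ max m n)
    {c r : ℝ} (hm : |a * m - c| ≤ r) (hn : |a * n - c| ≤ r) : |a * t - c| ≤ r := by
  rw [abs_le] at *
  rcases le_total m n with hmn | hmn
  · rw [min_eq_left hmn] at h1
    rw [max_eq_right hmn] at h2
    have e1 : (m:ℝ) ≤ t := by exact_mod_cast h1
    have e2 : (t:ℝ) ≤ n := by exact_mod_cast h2
    have := mul_le_mul_of_nonneg_left e1 ha.le
    have := mul_le_mul_of_nonneg_left e2 ha.le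
    constructor <;> linarith
  · rw [min_eq_right hmn] at h1
    rw [max_eq_left hmn] at h2
    have e1 : (n:ℝ) ≤ t := by exact_mod_cast h1
    have e2 : (t:ℝ) ≤ m := by exact_mod_cast h2
    have := mul_le_mul_of_nonneg_left e1 ha.le
    have := mul_le_mul_of_nonneg_left e2 ha.le
    constructor <;> linarith

/-- Increments of a function whose differences are nearly constant. -/
theorem incr {h : Pt → ℝ} {a α β B r : ℝ} {z : ℂ} (ha : 0 < a)
    (h1 : ∀ w, ‖pt a w - z‖ ≤ r → |D (1, 0) h w - α| ≤ B)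
    (h2 : ∀ w, ‖pt a w - z‖ ≤ r → |D (0, 1) h w - β| ≤ B) {x y : Pt}
    (hx : ‖pt a x - z‖ ≤ r / 2) (hy : ‖pt a y - z‖ ≤ r / 2) :
    |h y - h x - α * (y.1 - x.1) - β * (y.2 - x.2)| ≤
      B * (|(y.1 - x.1 : ℝ)| + |(y.2 - x.2 : ℝ)|) := by
  have bx1 := (Complex.abs_re_le_norm _).trans hx
  have bx2 := (Complex.abs_im_le_norm _).trans hx
  have by1 := (Complex.abs_re_le_norm _).trans hy
  have by2 := (Complex.abs_im_le_norm _).trans hy
  simp only [pt, Complex.sub_re, Complex.sub_im] at bx1 bx2 by1 by2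
  have hor := line (g := fun t => h (t, x.2)) (α := α) (B := B) (m := x.1) (n := y.1) fun t t1 t2 => by
    have := h1 (t, x.2) (by
      refine (Complex.norm_le_abs_re_add_abs_im _).trans ?_
      simp only [pt, Complex.sub_re, Complex.sub_im]
      have := between ha t1 t2 bx1 by1
      linarith)
    unfold D at this
    simpa using this
  have ver := line (g := fun t => h (y.1, t)) (α := β) (B := B) (m := x.2) (n := y.2) fun t t1 t2 => by
    have := h2 (y.1, t) (by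
      refine (Complex.norm_le_abs_re_add_abs_im _).trans ?_
      simp only [pt, Complex.sub_re, Complex.sub_im]
      have := between ha t1 t2 bx2 by2
      linarith)
    unfold D at this
    simpa using this
  have e : h y - h x - α * (y.1 - x.1) - β * (y.2 - x.2) =
      (h (y.1, y.2) - h (y.1, x.2) - β * (y.2 - x.2)) +
      (h (y.1, x.2) - h (x.1, x.2) - α * (y.1 - x.1)) := by
    simp only [Prod.mk.eta]; ring
  rw [e]
  refine (abs_add_le _ _).trans ?_
  linarith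

section

variable {ι : Type*}

/-- Local bounds and harmonicity in `U`. -/
def LocB (l : Filter ι) (a : ι → ℝ) (U : Set ℂ) (h : ι → Pt → ℝ) : Prop :=
  ∀ z ∈ U, ∃ r > 0, ∃ M, ∀ᶠ k in l, ∀ x, ‖pt (a k) x - z‖ ≤ r → lap (h k) x = 0 ∧ |h k x| ≤ M

/-- Continuous convergence in `U`. -/
def CConv (l : Filter ι) (a : ι → ℝ) (U : Set ℂ) (h : ι → Pt → ℝ) (H : ℂ → ℝ) : Prop :=
  ∀ z ∈ U, ∀ ε > 0, ∃ r > 0, ∀ᶠ k in l, ∀ x, ‖pt (a k) x - z‖ ≤ r → |h k x - H z| ≤ ε

variable {l : Filter ι} {a : ι → ℝ} {U : Set ℂ} {h : ι → Pt → ℝ}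

theorem LocB.diff (ha : Tendsto a l (𝓝[>] 0)) (hh : LocB l a U h) {e : Pt}
    (he : e = (1, 0) ∨ e = (0, 1)) : LocB l a U (fun k x => (a k)⁻¹ * D e (h k) x) := by
  obtain ⟨C, hC, hb⟩ := DD_sup 1
  intro z hz
  obtain ⟨r, hr, M, hM⟩ := hh z hz
  refine ⟨r / 2, by positivity, 16 * C * M / r, ?_⟩
  have ha0 : ∀ᶠ k in l, 0 < a k := ha.eventually self_mem_nhdsWithin
  have ha1 : ∀ᶠ k in l, a k < r / 16 :=
    (ha.mono_right nhdsWithin_le_nhds).eventually (gt_mem_nhds (by positivity))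
  filter_upwards [hM, ha0, ha1] with k hk h0 h1 x hx
  set R : ℕ := ⌊r / (8 * a k)⌋₊ with hR
  have hRle : (R:ℝ) ≤ r / (8 * a k) := Nat.floor_le (by positivity)
  have hRlt : r / (8 * a k) < R + 1 := Nat.lt_floor_add_one _
  have hRa : (R:ℝ) * a k ≤ r / 8 := by
    have := mul_le_mul_of_nonneg_right hRle h0.le
    have e : r / (8 * a k) * a k = r / 8 := by field_simp
    linarith
  have hR2 : (2:ℝ) ≤ r / (8 * a k) := by
    rw [le_div_iff₀ (by positivity)]; linarith
  have hR1 : 1 ≤ R := Nat.le_floor (by push_cast; linarith)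
  have hR1' : (1:ℝ) ≤ R := by exact_mod_cast hR1
  have hR3 : r / (16 * a k) ≤ R := by
    have : r / (16 * a k) = r / (8 * a k) / 2 := by field_simp; norm_num
    linarith
  have hball : ∀ y ∈ bx x (R + 1), ‖pt (a k) y - z‖ ≤ r := by
    intro y hy
    rw [mem_bx] at hy
    have h2 := pt_sub_norm h0 y x
    have h3 : |(y.1 - x.1 : ℝ)| ≤ R + 1 := by
      have b1 : ((x.1 - ((R + 1 : ℕ) : ℤ) : ℤ) : ℝ) ≤ (y.1 : ℝ) := by exact_mod_cast hy.1.1
      have b2 : ((y.1 : ℤ) : ℝ) ≤ ((x.1 + ((R + 1 : ℕ) : ℤ) : ℤ) : ℝ) := by exact_mod_cast hy.1.2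
      push_cast at b1 b2
      rw [abs_le]; constructor <;> linarith
    have h4 : |(y.2 - x.2 : ℝ)| ≤ R + 1 := by
      have b1 : ((x.2 - ((R + 1 : ℕ) : ℤ) : ℤ) : ℝ) ≤ (y.2 : ℝ) := by exact_mod_cast hy.2.1
      have b2 : ((y.2 : ℤ) : ℝ) ≤ ((x.2 + ((R + 1 : ℕ) : ℤ) : ℤ) : ℝ) := by exact_mod_cast hy.2.2
      push_cast at b1 b2
      rw [abs_le]; constructor <;> linarith
    have h5 : ‖pt (a k) y - z‖ ≤ ‖pt (a k) y - pt (a k) x‖ + ‖pt (a k) x - z‖ := by
      have := norm_add_le (pt (a k) y - pt (a k) x) (pt (a k) x - z)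
      rwa [sub_add_sub_cancel] at this
    have h6 : a k * (|(y.1 - x.1 : ℝ)| + |(y.2 - x.2 : ℝ)|) ≤ a k * (2 * (R + 1)) :=
      mul_le_mul_of_nonneg_left (by linarith) h0.le
    nlinarith
  have hharm : Harm (h k) x R := fun y hy => (hk y (hball y (bx_mono (Nat.le_succ R) hy))).1
  have hM0 : 0 ≤ M := (abs_nonneg _).trans (hk x (hball x (self_mem_bx _ _))).2
  refine ⟨?_, ?_⟩
  · rw [lap_const_mul, lap_D]
    have h1 : x + e ∈ bx x (R + 1) := by
      rw [mem_bx]
      rcases he with rfl | rfl <;> simp <;> lia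
    rw [(hk _ (hball _ h1)).1, (hk _ (hball _ (self_mem_bx _ _))).1, sub_zero, mul_zero]
  · have h2 := hb [e] (by intro e' he'; rw [List.mem_singleton] at he'; rw [he']; exact he) rfl
      (h k) x R M (by lia) hharm fun y hy => (hk y (hball y hy)).2
    have h3 : DD [e] (h k) x = D e (h k) x := rfl
    rw [h3, pow_one] at h2
    rw [abs_mul, abs_of_pos (inv_pos.2 h0)]
    calc (a k)⁻¹ * |D e (h k) x| ≤ (a k)⁻¹ * (C * M / R) :=
          mul_le_mul_of_nonneg_left h2 (inv_pos.2 h0).le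
      _ ≤ (a k)⁻¹ * (C * M / (r / (16 * a k))) := by
          refine mul_le_mul_of_nonneg_left ?_ (inv_pos.2 h0).le
          exact div_le_div_of_nonneg_left (by positivity) (by positivity) hR3
      _ = 16 * C * M / r := by field_simp

theorem LocB.lip (ha : Tendsto a l (𝓝[>] 0)) (hh : LocB l a U h) {z : ℂ} (hz : z ∈ U) :
    ∃ r > 0, ∃ L, 0 ≤ L ∧ ∀ᶠ k in l, ∀ x y, ‖pt (a k) x - z‖ ≤ r → ‖pt (a k) y - z‖ ≤ r →
      |h k y - h k x| ≤ L * ‖pt (a k) y - pt (a k) x‖ := by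
  obtain ⟨r1, hr1, M1, h1⟩ := hh.diff ha (Or.inl rfl) z hz
  obtain ⟨r2, hr2, M2, h2⟩ := hh.diff ha (Or.inr rfl) z hz
  have ha0 : ∀ᶠ k in l, 0 < a k := ha.eventually self_mem_nhdsWithin
  refine ⟨min r1 r2 / 2, by positivity, 2 * max (max M1 M2) 0, by positivity, ?_⟩
  filter_upwards [h1, h2, ha0] with k k1 k2 h0 x y hx hy
  have B1 : ∀ w, ‖pt (a k) w - z‖ ≤ min r1 r2 →
      |D (1, 0) (h k) w - 0| ≤ a k * max (max M1 M2) 0 := by
    intro w hw
    have := (k1 w (hw.trans (min_le_left _ _))).2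
    rw [abs_mul, abs_of_pos (inv_pos.2 h0), inv_mul_le_iff₀ h0] at this
    rw [sub_zero]
    refine this.trans (mul_le_mul_of_nonneg_left ?_ h0.le)
    exact (le_max_left _ _).trans (le_max_left _ _)
  have B2 : ∀ w, ‖pt (a k) w - z‖ ≤ min r1 r2 →
      |D (0, 1) (h k) w - 0| ≤ a k * max (max M1 M2) 0 := by
    intro w hw
    have := (k2 w (hw.trans (min_le_right _ _))).2
    rw [abs_mul, abs_of_pos (inv_pos.2 h0), inv_mul_le_iff₀ h0] at this
    rw [sub_zero]
    refine this.trans (mul_le_mul_of_nonneg_left ?_ h0.le)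
    exact (le_max_right _ _).trans (le_max_left _ _)
  have := incr h0 B1 B2 hx hy
  rw [zero_mul, zero_mul, sub_zero, sub_zero] at this
  refine this.trans ?_
  have h5 := pt_sub_norm' h0 y x
  have h6 : 0 ≤ max (max M1 M2) 0 := le_max_right _ _
  calc a k * max (max M1 M2) 0 * (|(y.1 - x.1 : ℝ)| + |(y.2 - x.2 : ℝ)|)
      = max (max M1 M2) 0 * (a k * (|(y.1 - x.1 : ℝ)| + |(y.2 - x.2 : ℝ)|)) := by ring
    _ ≤ max (max M1 M2) 0 * (2 * ‖pt (a k) y - pt (a k) x‖) := mul_le_mul_of_nonneg_left h5 h6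
    _ = _ := by ring

theorem ultra_lim {l : Ultrafilter ι} {F : ι → ℝ} {M : ℝ} (hF : ∀ᶠ k in l, |F k| ≤ M) :
    ∃ c, |c| ≤ M ∧ Tendsto F l (𝓝 c) := by
  have hc : IsCompact (Set.Icc (-M) M) := isCompact_Icc
  have hmem : Set.Icc (-M) M ∈ (l.map F) := by
    rw [Ultrafilter.mem_map]
    filter_upwards [hF] with k hk
    exact abs_le.1 hk
  obtain ⟨c, hc1, hc2⟩ := hc.ultrafilter_le_nhds' (l.map F) hmem
  exact ⟨c, abs_le.2 hc1, hc2⟩

theorem CConv.at (ha : Tendsto a l (𝓝[>] 0)) {H : ℂ → ℝ} (hc : CConv l a U h H) {z : ℂ}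
    (hz : z ∈ U) : Tendsto (fun k => h k (fl (a k) z)) l (𝓝 (H z)) := by
  rw [Metric.tendsto_nhds]
  intro ε hε
  obtain ⟨r, hr, hk⟩ := hc z hz (ε / 2) (by positivity)
  have ha0 : ∀ᶠ k in l, 0 < a k := ha.eventually self_mem_nhdsWithin
  have ha1 : ∀ᶠ k in l, a k < r / 2 :=
    (ha.mono_right nhdsWithin_le_nhds).eventually (gt_mem_nhds (by positivity))
  filter_upwards [hk, ha0, ha1] with k k1 k2 k3
  rw [Real.dist_eq]
  have := k1 (fl (a k) z) ((pt_fl_norm k2 z).trans (by linarith))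
  linarith

theorem CConv.cont (ha : Tendsto a l (𝓝[>] 0)) [NeBot l] {H : ℂ → ℝ} (hc : CConv l a U h H)
    (hU : IsOpen U) : ContinuousOn H U := by
  intro z hz
  refine ContinuousAt.continuousWithinAt ?_
  rw [Metric.continuousAt_iff]
  intro ε hε
  obtain ⟨r, hr, hk⟩ := hc z hz (ε / 2) (by positivity)
  obtain ⟨s, hs, hsU⟩ := Metric.isOpen_iff.1 hU z hz
  refine ⟨min (r / 2) s, by positivity, fun w hw => ?_⟩
  have hwU : w ∈ U := hsU (hw.trans_le (min_le_right _ _))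
  have h1 := hc.at ha hwU
  rw [Real.dist_eq]
  have h2 : |H w - H z| ≤ ε / 2 := by
    have h3 : Tendsto (fun k => |h k (fl (a k) w) - H z|) l (𝓝 |H w - H z|) :=
      (h1.sub_const _).abs
    refine le_of_tendsto h3 ?_
    have ha0 : ∀ᶠ k in l, 0 < a k := ha.eventually self_mem_nhdsWithin
    have ha1 : ∀ᶠ k in l, a k < r / 4 :=
      (ha.mono_right nhdsWithin_le_nhds).eventually (gt_mem_nhds (by positivity))
    filter_upwards [hk, ha0, ha1] with k k1 k2 k3
    refine k1 _ ?_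
    have h4 : ‖pt (a k) (fl (a k) w) - z‖ ≤ ‖pt (a k) (fl (a k) w) - w‖ + ‖w - z‖ := by
      have := norm_add_le (pt (a k) (fl (a k) w) - w) (w - z)
      rwa [sub_add_sub_cancel] at this
    have h5 := pt_fl_norm k2 w
    have h6 : ‖w - z‖ < r / 2 := by
      rw [← dist_eq_norm]; exact hw.trans_le (min_le_left _ _)
    linarith
  linarith

/-- Existence of limits. -/
theorem exists_cconv {l : Ultrafilter ι} (ha : Tendsto a l (𝓝[>] 0)) (hh : LocB l a U h) :
    ∃ H : ℂ → ℝ, CConv l a U h H := by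
  have ha0 : ∀ᶠ k in l, 0 < a k := ha.eventually self_mem_nhdsWithin
  have hex : ∀ z ∈ U, ∃ c, Tendsto (fun k => h k (fl (a k) z)) l (𝓝 c) := by
    intro z hz
    obtain ⟨r, hr, M, hM⟩ := hh z hz
    have ha1 : ∀ᶠ k in l, a k < r / 2 :=
      (ha.mono_right nhdsWithin_le_nhds).eventually (gt_mem_nhds (by positivity))
    have : ∀ᶠ k in l, |h k (fl (a k) z)| ≤ M := by
      filter_upwards [hM, ha0, ha1] with k k1 k2 k3
      exact (k1 _ ((pt_fl_norm k2 z).trans (by linarith))).2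
    obtain ⟨c, -, hc⟩ := ultra_lim this
    exact ⟨c, hc⟩
  classical
  refine ⟨fun z => if hz : z ∈ U then (hex z hz).choose else 0, fun z hz ε hε => ?_⟩
  have hc := (hex z hz).choose_spec
  beta_reduce
  rw [dif_pos hz]
  set c := (hex z hz).choose
  obtain ⟨r, hr, L, hL, hl⟩ := hh.lip ha hz
  refine ⟨min r (ε / (4 * (L + 1))), by positivity, ?_⟩
  have ha1 : ∀ᶠ k in l, a k < min (r / 2) (ε / (8 * (L + 1))) :=
    (ha.mono_right nhdsWithin_le_nhds).eventually (gt_mem_nhds (by positivity))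
  have hc' : ∀ᶠ k in l, |h k (fl (a k) z) - c| < ε / 2 := by
    have := Metric.tendsto_nhds.1 hc (ε / 2) (by positivity)
    simpa [Real.dist_eq] using this
  filter_upwards [hl, ha0, ha1, hc'] with k k1 k2 k3 k4 x hx
  have h1 := pt_fl_norm k2 z
  have h2 := k1 (fl (a k) z) x (h1.trans (by linarith [k3.trans_le (min_le_left _ _)]))
    (hx.trans (min_le_left _ _))
  have h3 : ‖pt (a k) x - pt (a k) (fl (a k) z)‖ ≤ ε / (4 * (L + 1)) + ε / (4 * (L + 1)) := by
    have h4 : ‖pt (a k) x - pt (a k) (fl (a k) z)‖ ≤ ‖pt (a k) x - z‖ +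
        ‖z - pt (a k) (fl (a k) z)‖ := by
      have := norm_add_le (pt (a k) x - z) (z - pt (a k) (fl (a k) z))
      rwa [sub_add_sub_cancel] at this
    rw [norm_sub_rev z] at h4
    have h5 := hx.trans (min_le_right _ _)
    have h6 := k3.trans_le (min_le_right _ _)
    have h7 : 2 * (ε / (8 * (L + 1))) = ε / (4 * (L + 1)) := by field_simp; norm_num
    linarith
  have h4 : L * ‖pt (a k) x - pt (a k) (fl (a k) z)‖ ≤ ε / 2 := by
    calc L * ‖pt (a k) x - pt (a k) (fl (a k) z)‖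
        ≤ (L + 1) * (ε / (4 * (L + 1)) + ε / (4 * (L + 1))) :=
          mul_le_mul (by linarith) h3 (norm_nonneg _) (by positivity)
      _ = ε / 2 := by field_simp; norm_num
  have h5 := abs_le.1 (h2.trans h4)
  have h6 := abs_lt.1 k4
  rw [abs_le]
  constructor <;> linarith

theorem pt_fl_tendsto (ha : Tendsto a l (𝓝[>] 0)) (z : ℂ) :
    Tendsto (fun k => pt (a k) (fl (a k) z)) l (𝓝 z) := by
  rw [tendsto_iff_norm_sub_tendsto_zero]
  have h1 : Tendsto (fun k => 2 * a k) l (𝓝 (2 * 0)) :=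
    (ha.mono_right nhdsWithin_le_nhds).const_mul 2
  rw [mul_zero] at h1
  refine squeeze_zero' (Eventually.of_forall fun k => norm_nonneg _) ?_ h1
  filter_upwards [ha.eventually self_mem_nhdsWithin] with k hk
  exact pt_fl_norm hk z

theorem CConv.unique (ha : Tendsto a l (𝓝[>] 0)) [NeBot l] {H H' : ℂ → ℝ}
    (hc : CConv l a U h H) (hc' : CConv l a U h H') {z : ℂ} (hz : z ∈ U) : H z = H' z :=
  tendsto_nhds_unique (hc.at ha hz) (hc'.at ha hz)

theorem CConv.shift (ha : Tendsto a l (𝓝[>] 0)) {H : ℂ → ℝ} (hc : CConv l a U h H) (e : Pt) :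
    CConv l a U (fun k x => h k (x + e)) H := by
  intro z hz ε hε
  obtain ⟨r, hr, hk⟩ := hc z hz ε hε
  have ha0 : ∀ᶠ k in l, 0 < a k := ha.eventually self_mem_nhdsWithin
  have ha1 : ∀ᶠ k in l, a k < r / 2 / (|(e.1:ℝ)| + |(e.2:ℝ)| + 1) :=
    (ha.mono_right nhdsWithin_le_nhds).eventually (gt_mem_nhds (by positivity))
  refine ⟨r / 2, by positivity, ?_⟩
  filter_upwards [hk, ha0, ha1] with k k1 k2 k3 x hx
  refine k1 _ ?_
  have h1 := pt_sub_norm k2 (x + e) x
  have h2 : ‖pt (a k) (x + e) - z‖ ≤ ‖pt (a k) (x + e) - pt (a k) x‖ + ‖pt (a k) x - z‖ := by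
    have := norm_add_le (pt (a k) (x + e) - pt (a k) x) (pt (a k) x - z)
    rwa [sub_add_sub_cancel] at this
  have h3 : |(((x + e).1 : ℤ) - x.1 : ℝ)| + |(((x + e).2 : ℤ) - x.2 : ℝ)| =
      |(e.1:ℝ)| + |(e.2:ℝ)| := by simp
  rw [h3] at h1
  rw [lt_div_iff₀ (by positivity)] at k3
  have h4 : a k * (|(e.1:ℝ)| + |(e.2:ℝ)|) ≤ a k * (|(e.1:ℝ)| + |(e.2:ℝ)| + 1) :=
    mul_le_mul_of_nonneg_left (by linarith) k2.le
  linarith

theorem CConv.congr {H : ℂ → ℝ} (hc : CConv l a U h H) {h' : ι → Pt → ℝ}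
    (he : ∀ z ∈ U, ∃ r > 0, ∀ᶠ k in l, ∀ x, ‖pt (a k) x - z‖ ≤ r → h' k x = h k x) :
    CConv l a U h' H := by
  intro z hz ε hε
  obtain ⟨r, hr, hk⟩ := hc z hz ε hε
  obtain ⟨s, hs, hk'⟩ := he z hz
  refine ⟨min r s, by positivity, ?_⟩
  filter_upwards [hk, hk'] with k k1 k2 x hx
  rw [k2 x (hx.trans (min_le_right _ _))]
  exact k1 x (hx.trans (min_le_left _ _))

theorem CConv.add {H H' : ℂ → ℝ} {h' : ι → Pt → ℝ} (hc : CConv l a U h H)
    (hc' : CConv l a U h' H') :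
    CConv l a U (fun k x => h k x + h' k x) (fun z => H z + H' z) := by
  intro z hz ε hε
  obtain ⟨r, hr, hk⟩ := hc z hz (ε / 2) (by positivity)
  obtain ⟨s, hs, hk'⟩ := hc' z hz (ε / 2) (by positivity)
  refine ⟨min r s, by positivity, ?_⟩
  filter_upwards [hk, hk'] with k k1 k2 x hx
  have h1 := k1 x (hx.trans (min_le_left _ _))
  have h2 := k2 x (hx.trans (min_le_right _ _))
  have e : h k x + h' k x - (H z + H' z) = (h k x - H z) + (h' k x - H' z) := by ring
  rw [e]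
  exact (abs_add_le _ _).trans (by linarith)

theorem CConv.const_mul {H : ℂ → ℝ} (hc : CConv l a U h H) (c : ℝ) :
    CConv l a U (fun k x => c * h k x) (fun z => c * H z) := by
  intro z hz ε hε
  obtain ⟨r, hr, hk⟩ := hc z hz (ε / (|c| + 1)) (by positivity)
  refine ⟨r, hr, ?_⟩
  filter_upwards [hk] with k k1 x hx
  have h1 := k1 x hx
  rw [← mul_sub, abs_mul]
  calc |c| * |h k x - H z| ≤ (|c| + 1) * (ε / (|c| + 1)) :=
        mul_le_mul (by linarith) h1 (abs_nonneg _) (by positivity)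
    _ = ε := by field_simp

theorem CConv.neg {H : ℂ → ℝ} (hc : CConv l a U h H) :
    CConv l a U (fun k x => - h k x) (fun z => - H z) := by
  have := hc.const_mul (-1)
  simpa using this

theorem CConv.sub {H H' : ℂ → ℝ} {h' : ι → Pt → ℝ} (hc : CConv l a U h H)
    (hc' : CConv l a U h' H') :
    CConv l a U (fun k x => h k x - h' k x) (fun z => H z - H' z) := by
  have := hc.add hc'.neg
  simpa [sub_eq_add_neg] using this

theorem CConv.mul {H H' : ℂ → ℝ} {h' : ι → Pt → ℝ} (hc : CConv l a U h H)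
    (hc' : CConv l a U h' H') :
    CConv l a U (fun k x => h k x * h' k x) (fun z => H z * H' z) := by
  intro z hz ε hε
  obtain ⟨r, hr, hk⟩ := hc z hz (min 1 (ε / (2 * (|H' z| + 1)))) (by positivity)
  obtain ⟨s, hs, hk'⟩ := hc' z hz (ε / (2 * (|H z| + 1))) (by positivity)
  refine ⟨min r s, by positivity, ?_⟩
  filter_upwards [hk, hk'] with k k1 k2 x hx
  have h1 := k1 x (hx.trans (min_le_left _ _))
  have h2 := k2 x (hx.trans (min_le_right _ _))
  have h3 : |h k x| ≤ |H z| + 1 := by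
    have := abs_sub_abs_le_abs_sub (h k x) (H z)
    linarith [h1.trans (min_le_left _ _)]
  have e : h k x * h' k x - H z * H' z = h k x * (h' k x - H' z) + (h k x - H z) * H' z := by ring
  rw [e]
  refine (abs_add_le _ _).trans ?_
  rw [abs_mul, abs_mul]
  have h4 : |h k x| * |h' k x - H' z| ≤ (|H z| + 1) * (ε / (2 * (|H z| + 1))) :=
    mul_le_mul h3 h2 (abs_nonneg _) (by positivity)
  have h5 : |h k x - H z| * |H' z| ≤ (ε / (2 * (|H' z| + 1))) * (|H' z| + 1) :=
    mul_le_mul (h1.trans (min_le_right _ _)) (by linarith) (abs_nonneg _) (by positivity)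
  have e1 : (|H z| + 1) * (ε / (2 * (|H z| + 1))) = ε / 2 := by field_simp
  have e2 : (ε / (2 * (|H' z| + 1))) * (|H' z| + 1) = ε / 2 := by field_simp
  linarith

/-- The limit is strictly differentiable, its partial derivatives are the limits of the
differences. -/
theorem CConv.strict (ha : Tendsto a l (𝓝[>] 0)) [NeBot l] {H H1 H2 : ℂ → ℝ} (hU : IsOpen U)
    (hc : CConv l a U h H) (h1 : CConv l a U (fun k x => (a k)⁻¹ * D (1, 0) (h k) x) H1)
    (h2 : CConv l a U (fun k x => (a k)⁻¹ * D (0, 1) (h k) x) H2) {z : ℂ} (hz : z ∈ U) :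
    HasStrictFDerivAt H (H1 z • Complex.reCLM + H2 z • Complex.imCLM) z := by
  rw [hasStrictFDerivAt_iff_isLittleO, Asymptotics.isLittleO_iff]
  intro c hc0
  obtain ⟨r1, hr1, k1⟩ := h1 z hz (c / 4) (by positivity)
  obtain ⟨r2, hr2, k2⟩ := h2 z hz (c / 4) (by positivity)
  obtain ⟨s, hs, hsU⟩ := Metric.isOpen_iff.1 hU z hz
  set r := min r1 r2 with hr
  have hr0 : 0 < r := lt_min hr1 hr2
  have ha0 : ∀ᶠ k in l, 0 < a k := ha.eventually self_mem_nhdsWithin
  have ha1 : ∀ᶠ k in l, a k < r / 8 :=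
    (ha.mono_right nhdsWithin_le_nhds).eventually (gt_mem_nhds (by positivity))
  have hnh : ∀ᶠ p : ℂ × ℂ in 𝓝 (z, z), ‖p.1 - z‖ < min (r / 4) s ∧ ‖p.2 - z‖ < min (r / 4) s := by
    have e1 : Tendsto (fun p : ℂ × ℂ => ‖p.1 - z‖) (𝓝 (z, z)) (𝓝 ‖z - z‖) :=
      ((continuous_fst.sub continuous_const).norm).tendsto _
    have e2 : Tendsto (fun p : ℂ × ℂ => ‖p.2 - z‖) (𝓝 (z, z)) (𝓝 ‖z - z‖) :=
      ((continuous_snd.sub continuous_const).norm).tendsto _
    rw [sub_self, norm_zero] at e1 e2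
    exact (e1.eventually (gt_mem_nhds (by positivity))).and
      (e2.eventually (gt_mem_nhds (by positivity)))
  filter_upwards [hnh] with p hp
  obtain ⟨w, w'⟩ := p
  simp only at hp ⊢
  have hw : w ∈ U := hsU (by
    rw [Metric.mem_ball, dist_eq_norm]; exact hp.1.trans_le (min_le_right _ _))
  have hw' : w' ∈ U := hsU (by
    rw [Metric.mem_ball, dist_eq_norm]; exact hp.2.trans_le (min_le_right _ _))
  have t1 := hc.at ha hw
  have t2 := hc.at ha hw'
  have t3 := pt_fl_tendsto ha w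
  have t4 := pt_fl_tendsto ha w'
  have t5 := (Complex.continuous_re.tendsto _).comp (t3.sub t4)
  have t6 := (Complex.continuous_im.tendsto _).comp (t3.sub t4)
  have t7 := (((t1.sub t2).sub (t5.const_mul (H1 z))).sub (t6.const_mul (H2 z))).abs
  have t8 := (t3.sub t4).norm.const_mul (c / 2)
  have key := le_of_tendsto_of_tendsto t7 t8 ?_
  · simp only [add_apply, smul_apply, Complex.reCLM_apply,
      Complex.imCLM_apply, smul_eq_mul]
    rw [Real.norm_eq_abs]
    have e : H w - H w' - (H1 z * (w - w').re + H2 z * (w - w').im) =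
        H w - H w' - H1 z * (w - w').re - H2 z * (w - w').im := by ring
    rw [e]
    refine key.trans ?_
    exact mul_le_mul_of_nonneg_right (by linarith) (norm_nonneg _)
  · filter_upwards [k1, k2, ha0, ha1] with k m1 m2 m3 m4
    have n1 : ‖pt (a k) (fl (a k) w) - z‖ ≤ r / 2 := by
      have h4 : ‖pt (a k) (fl (a k) w) - z‖ ≤ ‖pt (a k) (fl (a k) w) - w‖ + ‖w - z‖ := by
        have := norm_add_le (pt (a k) (fl (a k) w) - w) (w - z)
        rwa [sub_add_sub_cancel] at this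
      have h5 := pt_fl_norm m3 w
      have h6 := hp.1.trans_le (min_le_left _ _)
      linarith
    have n2 : ‖pt (a k) (fl (a k) w') - z‖ ≤ r / 2 := by
      have h4 : ‖pt (a k) (fl (a k) w') - z‖ ≤ ‖pt (a k) (fl (a k) w') - w'‖ + ‖w' - z‖ := by
        have := norm_add_le (pt (a k) (fl (a k) w') - w') (w' - z)
        rwa [sub_add_sub_cancel] at this
      have h5 := pt_fl_norm m3 w'
      have h6 := hp.2.trans_le (min_le_left _ _)
      linarith
    have B1 : ∀ v, ‖pt (a k) v - z‖ ≤ r → |D (1, 0) (h k) v - a k * H1 z| ≤ a k * (c / 4) := by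
      intro v hv
      have := m1 v (hv.trans (min_le_left _ _))
      have e : D (1, 0) (h k) v - a k * H1 z = a k * ((a k)⁻¹ * D (1, 0) (h k) v - H1 z) := by
        rw [mul_sub, ← mul_assoc, mul_inv_cancel₀ m3.ne', one_mul]
      rw [e, abs_mul, abs_of_pos m3]
      exact mul_le_mul_of_nonneg_left this m3.le
    have B2 : ∀ v, ‖pt (a k) v - z‖ ≤ r → |D (0, 1) (h k) v - a k * H2 z| ≤ a k * (c / 4) := by
      intro v hv
      have := m2 v (hv.trans (min_le_right _ _))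
      have e : D (0, 1) (h k) v - a k * H2 z = a k * ((a k)⁻¹ * D (0, 1) (h k) v - H2 z) := by
        rw [mul_sub, ← mul_assoc, mul_inv_cancel₀ m3.ne', one_mul]
      rw [e, abs_mul, abs_of_pos m3]
      exact mul_le_mul_of_nonneg_left this m3.le
    have := incr m3 B1 B2 n2 n1
    have h5 := pt_sub_norm' m3 (fl (a k) w) (fl (a k) w')
    have e1 : H1 z * (pt (a k) (fl (a k) w) - pt (a k) (fl (a k) w')).re =
        a k * H1 z * ((fl (a k) w).1 - (fl (a k) w').1) := by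
      simp only [pt, Complex.sub_re]; ring
    have e2 : H2 z * (pt (a k) (fl (a k) w) - pt (a k) (fl (a k) w')).im =
        a k * H2 z * ((fl (a k) w).2 - (fl (a k) w').2) := by
      simp only [pt, Complex.sub_im]; ring
    simp only [Function.comp]
    rw [e1, e2]
    refine this.trans ?_
    have h6 := mul_le_mul_of_nonneg_left h5 (show 0 ≤ c / 4 by positivity)
    linarith

/-- Discrete Cauchy-Riemann equations in the form of `U/Rel.lean`. -/
def LocCR (l : Filter ι) (a : ι → ℝ) (U : Set ℂ) (A B : ι → Pt → ℝ) : Prop :=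
  ∀ z ∈ U, ∃ r > 0, ∀ᶠ k in l, ∀ x, ‖pt (a k) x - z‖ ≤ r →
    B k x - B k (x + (0, 1)) = A k (x + (1, 1)) - A k (x + (0, 1)) ∧
    B k (x + (1, 0)) - B k x = A k (x + (1, 1)) - A k (x + (1, 0))

/-- The limit of a pair of discrete conjugate functions is holomorphic. -/
theorem holo {l : Ultrafilter ι} (ha : Tendsto a l (𝓝[>] 0)) (hU : IsOpen U)
    {A B : ι → Pt → ℝ} (hA : LocB l a U A) (hB : LocB l a U B) (hCR : LocCR l a U A B)
    {HA HB : ℂ → ℝ} (cA : CConv l a U A HA) (cB : CConv l a U B HB) :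
    DifferentiableOn ℂ (fun z => (HA z : ℂ) - HB z * Complex.I) U := by
  obtain ⟨A1, hA1⟩ := exists_cconv ha (hA.diff ha (Or.inl rfl))
  obtain ⟨A2, hA2⟩ := exists_cconv ha (hA.diff ha (Or.inr rfl))
  obtain ⟨B1, hB1⟩ := exists_cconv ha (hB.diff ha (Or.inl rfl))
  obtain ⟨B2, hB2⟩ := exists_cconv ha (hB.diff ha (Or.inr rfl))
  intro z hz
  refine DifferentiableAt.differentiableWithinAt ?_
  have e1 : A1 z = - B2 z := by
    refine CConv.unique ha (H' := fun z => - B2 z) (hA1.shift ha (0, 1)) ?_ hz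
    refine (hB2.neg).congr fun w hw => ?_
    obtain ⟨r, hr, hk⟩ := hCR w hw
    refine ⟨r, hr, ?_⟩
    filter_upwards [hk] with k k1 x hx
    have := (k1 x hx).1
    unfold D
    have e : x + (0, 1) + (1, 0) = x + (1, 1) := by rw [add_assoc]; rfl
    rw [e, ← this]; ring
  have e2 : A2 z = B1 z := by
    refine CConv.unique ha (H' := B1) (hA2.shift ha (1, 0)) ?_ hz
    refine hB1.congr fun w hw => ?_
    obtain ⟨r, hr, hk⟩ := hCR w hw
    refine ⟨r, hr, ?_⟩
    filter_upwards [hk] with k k1 x hx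
    have := (k1 x hx).2
    unfold D
    have e : x + (1, 0) + (0, 1) = x + (1, 1) := by rw [add_assoc]; rfl
    rw [e, ← this]
  have dA := (cA.strict ha hU hA1 hA2 hz).hasFDerivAt
  have dB := (cB.strict ha hU hB1 hB2 hz).hasFDerivAt
  have dA' := Complex.ofRealCLM.hasFDerivAt.comp z dA
  have dB' := (Complex.ofRealCLM.hasFDerivAt.comp z dB).mul_const Complex.I
  have d := dA'.sub dB'
  refine (d.complexOfReal_hasFDerivAt ?_).differentiableAt
  simp only [sub_apply, ContinuousLinearMap.comp_apply,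
    add_apply, smul_apply, Complex.reCLM_apply,
    Complex.imCLM_apply, Complex.ofRealCLM_apply, Complex.I_re, Complex.I_im, Complex.one_re,
    Complex.one_im, smul_eq_mul, mul_zero, mul_one, zero_add, add_zero, e1, e2]
  push_cast
  linear_combination (B1 z : ℂ) * Complex.I_mul_I

/-- Harmonicity with local `ℓ²` bounds. -/
def LocL2 (l : Filter ι) (a : ι → ℝ) (U : Set ℂ) (h : ι → Pt → ℝ) : Prop :=
  ∀ z ∈ U, ∃ r > 0, ∃ M, ∀ᶠ k in l, (∀ x, ‖pt (a k) x - z‖ ≤ r → lap (h k) x = 0) ∧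
    ∀ S : Finset Pt, (∀ x ∈ S, ‖pt (a k) x - z‖ ≤ r) → a k ^ 2 * ∑ x ∈ S, h k x ^ 2 ≤ M

theorem LocL2.locB (ha : Tendsto a l (𝓝[>] 0)) (hh : LocL2 l a U h) : LocB l a U h := by
  obtain ⟨C, hC, hb⟩ := DD_bound 0
  intro z hz
  obtain ⟨r, hr, M, hM⟩ := hh z hz
  refine ⟨r / 2, by positivity, √(C * (16 / r) ^ 2 * M), ?_⟩
  have ha0 : ∀ᶠ k in l, 0 < a k := ha.eventually self_mem_nhdsWithin
  have ha1 : ∀ᶠ k in l, a k < r / 16 :=
    (ha.mono_right nhdsWithin_le_nhds).eventually (gt_mem_nhds (by positivity))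
  filter_upwards [hM, ha0, ha1] with k hk h0 h1 x hx
  refine ⟨hk.1 x (hx.trans (by linarith)), ?_⟩
  set R : ℕ := ⌊r / (8 * a k)⌋₊ with hR
  have hRle : (R:ℝ) ≤ r / (8 * a k) := Nat.floor_le (by positivity)
  have hRlt : r / (8 * a k) < R + 1 := Nat.lt_floor_add_one _
  have hRa : (R:ℝ) * a k ≤ r / 8 := by
    have := mul_le_mul_of_nonneg_right hRle h0.le
    have e : r / (8 * a k) * a k = r / 8 := by field_simp
    linarith
  have hR2 : (2:ℝ) ≤ r / (8 * a k) := by
    rw [le_div_iff₀ (by positivity)]; linarith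
  have hR1 : 1 ≤ R := Nat.le_floor (by push_cast; linarith)
  have hR1' : (1:ℝ) ≤ R := by exact_mod_cast hR1
  have hR3 : r / (16 * a k) ≤ R := by
    have : r / (16 * a k) = r / (8 * a k) / 2 := by field_simp; norm_num
    linarith
  have hball : ∀ y ∈ bx x R, ‖pt (a k) y - z‖ ≤ r := by
    intro y hy
    rw [mem_bx] at hy
    have h2 := pt_sub_norm h0 y x
    have h3 : |(y.1 - x.1 : ℝ)| ≤ R := by
      have b1 : ((x.1 - (R : ℤ) : ℤ) : ℝ) ≤ (y.1 : ℝ) := by exact_mod_cast hy.1.1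
      have b2 : ((y.1 : ℤ) : ℝ) ≤ ((x.1 + (R : ℤ) : ℤ) : ℝ) := by exact_mod_cast hy.1.2
      push_cast at b1 b2
      rw [abs_le]; constructor <;> linarith
    have h4 : |(y.2 - x.2 : ℝ)| ≤ R := by
      have b1 : ((x.2 - (R : ℤ) : ℤ) : ℝ) ≤ (y.2 : ℝ) := by exact_mod_cast hy.2.1
      have b2 : ((y.2 : ℤ) : ℝ) ≤ ((x.2 + (R : ℤ) : ℤ) : ℝ) := by exact_mod_cast hy.2.2
      push_cast at b1 b2
      rw [abs_le]; constructor <;> linarith
    have h5 : ‖pt (a k) y - z‖ ≤ ‖pt (a k) y - pt (a k) x‖ + ‖pt (a k) x - z‖ := by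
      have := norm_add_le (pt (a k) y - pt (a k) x) (pt (a k) x - z)
      rwa [sub_add_sub_cancel] at this
    have h6 : a k * (|(y.1 - x.1 : ℝ)| + |(y.2 - x.2 : ℝ)|) ≤ a k * (2 * R) :=
      mul_le_mul_of_nonneg_left (by linarith) h0.le
    nlinarith
  have hharm : Harm (h k) x R := fun y hy => hk.1 y (hball y hy)
  have h2 := hb [] (by intro e' he'; simp at he') rfl (h k) x R (by lia) hharm
  have h3 : DD [] (h k) x = h k x := rfl
  rw [h3, mul_zero, add_zero, add_zero] at h2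
  have h4 := hk.2 (bx x R) hball
  have h5 : 0 ≤ ∑ y ∈ bx x R, h k y ^ 2 := sum_nonneg fun _ _ => sq_nonneg _
  have h6 : C / (R:ℝ) ^ 2 ≤ C * (16 / r) ^ 2 * a k ^ 2 := by
    calc C / (R:ℝ) ^ 2 ≤ C / (r / (16 * a k)) ^ 2 :=
          div_le_div_of_nonneg_left hC.le (by positivity) (pow_le_pow_left₀ (by positivity) hR3 2)
      _ = _ := by field_simp
  refine Real.abs_le_sqrt ?_
  calc h k x ^ 2 ≤ C / (R:ℝ) ^ 2 * ∑ y ∈ bx x R, h k y ^ 2 := h2
    _ ≤ (C * (16 / r) ^ 2 * a k ^ 2) * ∑ y ∈ bx x R, h k y ^ 2 :=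
        mul_le_mul_of_nonneg_right h6 h5
    _ = (C * (16 / r) ^ 2) * (a k ^ 2 * ∑ y ∈ bx x R, h k y ^ 2) := by ring
    _ ≤ (C * (16 / r) ^ 2) * M := mul_le_mul_of_nonneg_left h4 (by positivity)

end

end Vale.Agent.P144.H170
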