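import Vale.Agent.P144.H170.GradG
import Vale.Agent.P144.H170.Comp
import Vale.Agent.P144.U.AL.Fin3

/-!
`ℓ²` bounds of spinors by the gradients of their `H`-function.
-/

namespace Vale.Agent.P144.H170

open Finset

theorem lap_AL (h : Pt → ℝ) (x : Pt) : AL.lap h x = lap h x := by
  unfold AL.lap lap
  have e1 : x - (1, 0) = (x.1 - 1, x.2) := by ext <;> simp
  have e2 : x - (0, 1) = (x.1, x.2 - 1) := by ext <;> simp
  have e3 : x + (1, 0) = (x.1 + 1, x.2) := by ext <;> simp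
  have e4 : x + (0, 1) = (x.1, x.2 + 1) := by ext <;> simp
  rw [e1, e2, e3, e4]

theorem sq_two {a b t : ℝ} (ht : t * t = 1) :
    a ^ 2 + b ^ 2 ≤ 3 * (|a ^ 2 + b ^ 2 - 2 * √2 * (t * (a * b))| + |a ^ 2 - b ^ 2|) := by
  set p := a ^ 2 + b ^ 2 with hp
  set q := 2 * (t * (a * b)) with hq
  set s := a ^ 2 - b ^ 2 with hs
  have h2 : √2 * √2 = 2 := Real.mul_self_sqrt (by norm_num)
  have hpos : (0:ℝ) ≤ √2 := Real.sqrt_nonneg 2
  have h141 : (1.41:ℝ) ≤ √2 := Real.le_sqrt_of_sq_le (by norm_num)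
  have h142 : √2 ≤ 1.42 := by rw [Real.sqrt_le_left (by norm_num)]; norm_num
  have hp0 : 0 ≤ p := by positivity
  have hpq : p ^ 2 = q ^ 2 + s ^ 2 := by
    simp only [hp, hq, hs]; linear_combination (-(4 * a ^ 2 * b ^ 2)) * ht
  have e : 2 * √2 * (t * (a * b)) = √2 * q := by rw [hq]; ring
  rw [e]
  have hs2 : |s| ^ 2 = s ^ 2 := sq_abs s
  have hs0 := abs_nonneg s
  rcases le_total q 0 with hq0 | hq0
  · have h1 := le_abs_self (p - √2 * q)
    nlinarith [mul_nonneg hpos (neg_nonneg.2 hq0)]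
  · rcases le_total (p) (√2 * q) with h3 | h3
    · have h1 := neg_abs_le (p - √2 * q)
      -- p - q ≤ |s| / √2
      have h5 : p ≤ 1.42 * q := h3.trans (by nlinarith)
      have h6 : q ≤ p := by
        by_contra hc
        push Not at hc
        nlinarith [sq_nonneg s]
      have h4 : 2 * (p - q) ≤ 1.5 * |s| := by
        by_contra hc
        push Not at hc
        have : 0 ≤ p - q := by linarith
        nlinarith
      nlinarith
    · have h1 := le_abs_self (p - √2 * q)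
      have h5 : 1.41 * q ≤ p := le_trans (by nlinarith) h3
      have h4 : 0.7 * p ≤ |s| := by
        by_contra hc
        push Not at hc
        nlinarith
      nlinarith

section

variable {Λ : Finset Site} {τ θ A B C D' Hs Hf : Site → ℝ} (h : AL.Spr Λ τ θ A B C D')
  (hH : AL.IsH Λ A B C D' Hs Hf)

include h hH

theorem sqV (i j : ℤ) :
    A (i, j + 1) ^ 2 + B (i, j + 1) ^ 2 ≤
      3 * (|Hf (i, j + 1) - Hf (i, j)| + |Hs (i + 1, j + 1) - Hs (i, j + 1)|) ∧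
    C (i, j) ^ 2 + D' (i, j) ^ 2 ≤
      3 * (|Hf (i, j + 1) - Hf (i, j)| + |Hs (i + 1, j + 1) - Hs (i, j + 1)|) := by
  have ha := hH.a i (j + 1)
  have hb := hH.b i (j + 1)
  have hc := hH.c i j
  have hd := hH.d i j
  by_cases hh : ((i, j + 1) : Site) ∈ hor Λ
  · obtain ⟨h1, h2⟩ := h.V i j hh
    have ht := h.τ2 (i, j)
    set t := τ (i, j) with htt
    have s2 : √2 * √2 = 2 := Real.mul_self_sqrt (by norm_num)
    constructor
    · have e1 : Hf (i, j + 1) - Hf (i, j) = A (i, j + 1) ^ 2 + B (i, j + 1) ^ 2 -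
          2 * √2 * (t * (A (i, j + 1) * B (i, j + 1))) := by
        rw [h1] at hc
        linear_combination hc - ha + (A (i, j + 1)) ^ 2 * s2 + B (i, j + 1) ^ 2 * ht
      have e2 : Hs (i + 1, j + 1) - Hs (i, j + 1) = -(A (i, j + 1) ^ 2 - B (i, j + 1) ^ 2) := by
        linear_combination hb - ha
      rw [e1, e2, abs_neg]
      exact sq_two ht
    · have e3 : A (i, j + 1) = √2 * C (i, j) + t * D' (i, j) := by
        rw [h1, h2]; linear_combination (-A (i, j + 1)) * s2 + A (i, j + 1) * ht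
      have e1 : Hf (i, j + 1) - Hf (i, j) = -(C (i, j) ^ 2 + D' (i, j) ^ 2 -
          2 * √2 * (-t * (C (i, j) * D' (i, j)))) := by
        rw [e3] at ha
        linear_combination hc - ha - (C (i, j)) ^ 2 * s2 - D' (i, j) ^ 2 * ht
      have e2 : Hs (i + 1, j + 1) - Hs (i, j + 1) = -(C (i, j) ^ 2 - D' (i, j) ^ 2) := by
        linear_combination hd - hc
      rw [e1, e2, abs_neg, abs_neg]
      exact sq_two (by rw [neg_mul_neg]; exact ht)
  · obtain ⟨h1, h2⟩ := h.V0 i j hh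
    rw [h1, h2]
    suffices hs : A (i, j + 1) ^ 2 + B (i, j + 1) ^ 2 ≤
      3 * (|Hf (i, j + 1) - Hf (i, j)| + |Hs (i + 1, j + 1) - Hs (i, j + 1)|) from ⟨hs, hs⟩
    have h3 : ((i, j + 1) : Site) ∉ Λ ∨ ((i + 1, j + 1) : Site) ∉ Λ := by
      by_contra hc
      push Not at hc
      exact hh (mem_hor.2 hc)
    have hpos := abs_nonneg (Hf (i, j + 1) - Hf (i, j))
    rcases h3 with h3 | h3
    · have hA := h.zA i (j + 1) h3
      have hHf := h.Hf_out hH (i := i) (j := j + 1) (Or.inl h3)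
      have hHs := hH.out _ h3
      rw [hHf] at hb
      rw [hA, hHs]
      have := le_abs_self (Hs (i + 1, j + 1) - 0)
      nlinarith [sq_nonneg (B (i, j + 1))]
    · have hB := h.zB i (j + 1) h3
      have hHf := h.Hf_out hH (i := i) (j := j + 1) (Or.inr (Or.inl h3))
      have hHs := hH.out _ h3
      rw [hHf] at ha
      rw [hB, hHs]
      have := neg_abs_le (0 - Hs (i, j + 1))
      nlinarith [sq_nonneg (A (i, j + 1))]

theorem sum_sq_grad (c : Site) (r : ℕ) :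
    ∑ x ∈ bx c r, (A x ^ 2 + B x ^ 2 + C x ^ 2 + D' x ^ 2) ≤
      6 * (∑ x ∈ bx c (r + 1), |D (0, 1) Hf x| + ∑ x ∈ bx c (r + 1), |D (1, 0) Hs x|) := by
  have k1 : ∀ x, A x ^ 2 + B x ^ 2 ≤ 3 * (|D (0, 1) Hf (x - (0, 1))| + |D (1, 0) Hs x|) := by
    rintro ⟨i, j⟩
    have := (sqV h hH i (j - 1)).1
    rw [sub_add_cancel] at this
    unfold D
    simpa using this
  have k2 : ∀ x, C x ^ 2 + D' x ^ 2 ≤ 3 * (|D (0, 1) Hf x| + |D (1, 0) Hs (x + (0, 1))|) := by
    rintro ⟨i, j⟩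
    have := (sqV h hH i j).2
    unfold D
    simpa using this
  have s1 : ∑ x ∈ bx c r, |D (0, 1) Hf (x - (0, 1))| ≤ ∑ x ∈ bx c (r + 1), |D (0, 1) Hf x| := by
    have e : ∑ x ∈ bx c r, |D (0, 1) Hf (x - (0, 1))| =
        ∑ x ∈ (bx c r).image (fun x => x - (0, 1)), |D (0, 1) Hf x| := by
      rw [sum_image fun x _ y _ hxy => sub_left_injective hxy]
    rw [e]
    refine sum_le_sum_of_subset_of_nonneg ?_ fun _ _ _ => abs_nonneg _
    intro x hx
    obtain ⟨y, hy, rfl⟩ := mem_image.1 hx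
    rw [mem_bx] at hy ⊢
    simp only [Prod.fst_sub, Prod.snd_sub]
    push_cast
    lia
  have s2 : ∑ x ∈ bx c r, |D (1, 0) Hs (x + (0, 1))| ≤ ∑ x ∈ bx c (r + 1), |D (1, 0) Hs x| := by
    have e : ∑ x ∈ bx c r, |D (1, 0) Hs (x + (0, 1))| =
        ∑ x ∈ (bx c r).image (fun x => x + (0, 1)), |D (1, 0) Hs x| := by
      rw [sum_image fun x _ y _ hxy => add_left_injective _ hxy]
    rw [e]
    refine sum_le_sum_of_subset_of_nonneg ?_ fun _ _ _ => abs_nonneg _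
    intro x hx
    obtain ⟨y, hy, rfl⟩ := mem_image.1 hx
    rw [mem_bx] at hy ⊢
    simp only [Prod.fst_add, Prod.snd_add]
    push_cast
    lia
  have s3 : ∑ x ∈ bx c r, |D (0, 1) Hf x| ≤ ∑ x ∈ bx c (r + 1), |D (0, 1) Hf x| :=
    sum_le_sum_of_subset_of_nonneg (bx_mono (by lia)) fun _ _ _ => abs_nonneg _
  have s4 : ∑ x ∈ bx c r, |D (1, 0) Hs x| ≤ ∑ x ∈ bx c (r + 1), |D (1, 0) Hs x| :=
    sum_le_sum_of_subset_of_nonneg (bx_mono (by lia)) fun _ _ _ => abs_nonneg _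
  calc _ ≤ ∑ x ∈ bx c r, (3 * (|D (0, 1) Hf (x - (0, 1))| + |D (1, 0) Hs x|) +
        3 * (|D (0, 1) Hf x| + |D (1, 0) Hs (x + (0, 1))|)) := by
        refine sum_le_sum fun x _ => ?_
        linarith [k1 x, k2 x]
    _ = 3 * (∑ x ∈ bx c r, |D (0, 1) Hf (x - (0, 1))| + ∑ x ∈ bx c r, |D (1, 0) Hs x|) +
        3 * (∑ x ∈ bx c r, |D (0, 1) Hf x| + ∑ x ∈ bx c r, |D (1, 0) Hs (x + (0, 1))|) := by
        rw [sum_add_distrib, ← mul_sum, ← mul_sum, sum_add_distrib, sum_add_distrib]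
    _ ≤ _ := by linarith

end

/-- `ℓ²` bound of a spinor in the diamond by the masses of its `H`-function. -/
theorem sum_sq_mass {N : ℕ} {τ θ A B C D' Hs Hf : Site → ℝ} (h : AL.Spr (dia N) τ θ A B C D')
    (hH : AL.IsH (dia N) A B C D' Hs Hf) (c : Site) (r : ℕ) :
    ∑ x ∈ bx c r, (A x ^ 2 + B x ^ 2 + C x ^ 2 + D' x ^ 2) ≤
      384000 * √((r + 1) * (2 * N + 2)) * (∑ w ∈ dia N, |lap Hs w| + ∑ w ∈ dia N, |lap Hf w|) := by
  have h1 := grad_potential (u := Hs) (fun x hx => hH.out x hx) c (r := r + 1) (by lia)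
  have h2 := grad_potential (u := Hf) (fun x hx => by
    obtain ⟨i, j⟩ := x
    exact h.Hf_out hH (Or.inl hx)) c (r := r + 1) (by lia)
  have h3 := sum_sq_grad h hH c r
  push_cast at h1 h2
  rw [sum_add_distrib] at h1 h2
  have e1 : 0 ≤ ∑ x ∈ bx c (r + 1), |D (0, 1) Hs x| := sum_nonneg fun _ _ => abs_nonneg _
  have e2 : 0 ≤ ∑ x ∈ bx c (r + 1), |D (1, 0) Hf x| := sum_nonneg fun _ _ => abs_nonneg _
  linarith

end Vale.Agent.P144.H170
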