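import Vale.Agent.P144.H170.Glob
import Vale.Agent.P144.H170.Spin
import Vale.Agent.P144.H436.Ker
import Vale.Agent.P144.U.AL.Mass

/-!
Discrete bounds of the `H`-function in the diamond and of the `ℓ²` norm of spinors.
-/

namespace Vale.Agent.P144.H170

open Filter Topology Complex

theorem lap_AL436 (u : Site → ℝ) (x : Site) : AL.lap u x = H436.lap u x := by
  rw [lap_AL, lap_eq]

section green

variable {κ : Type*} [Fintype κ]

/-- Upper bound of `Hs` by Green functions. -/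
theorem Hs_upper {N : ℕ} {v : κ → Site} {u : Site → ℝ} {M : ℝ} (hM : 0 ≤ M)
    (hsub : ∀ x ∈ dia N, (∀ q, x ≠ v q) → 0 ≤ AL.lap u x) (hlow : ∀ x, -M ≤ AL.lap u x)
    (hout : ∀ x ∉ dia N, u x ≤ 0) (x : Site) :
    u x ≤ M * ∑ q, H436.green (dia N) (v q) x := by
  have := H436.le_green_sum (Λ := dia N) Finset.univ v (fun _ => M) (u := u) (fun x hx => ?_) hout x
  · rw [Finset.mul_sum]; exact this
  · rw [← lap_AL436]
    by_cases h : ∀ q, x ≠ v q
    · have e : ∑ k, M * (if x = v k then (1:ℝ) else 0) = 0 :=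
        Finset.sum_eq_zero fun k _ => by rw [if_neg (h k), mul_zero]
      rw [e, neg_zero]
      exact hsub x hx h
    · push Not at h
      obtain ⟨q, hq⟩ := h
      have e : M ≤ ∑ k, M * (if x = v k then (1:ℝ) else 0) := by
        have h1 := Finset.single_le_sum (f := fun k => M * (if x = v k then (1:ℝ) else 0))
          (fun k _ => by split_ifs <;> simp [hM]) (Finset.mem_univ q)
        simp only [if_pos hq, mul_one] at h1
        exact h1
      linarith [hlow x]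

/-- Lower bound of `Hf` by Green functions. -/
theorem Hf_lower {N : ℕ} {r : κ → Site} {τ θ A B C E Hs Hf : Site → ℝ}
    (h : AL.Spr (dia N) τ θ A B C E) (hH : AL.IsH (dia N) A B C E Hs Hf) {M : ℝ} (hM : 0 ≤ M)
    (hτ : ∀ i j : ℤ, (∀ p, (i, j) ≠ r p) → τ (i, j) = τ (i, j - 1))
    (hup : ∀ x, AL.lap Hf x ≤ M) (x : Site) :
    -Hf x ≤ M * ∑ p, H436.green (dia N) (r p) x := by
  classical
  set Λ : Finset Site := (dia N).filter fun f => (f.1 + 1, f.2) ∈ dia N ∧ (f.1, f.2 + 1) ∈ dia N ∧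
    (f.1 + 1, f.2 + 1) ∈ dia N with hΛ
  set u : Site → ℝ := fun x => -Hf x - ∑ p, M * H436.green (dia N) (r p) x with hu
  have key := H436.max_principle (Λ := Λ) (u := u) (fun y hy => ?_) (fun y hy => ?_) x
  · simp only [hu] at key
    rw [← Finset.mul_sum] at key
    linarith
  · obtain ⟨hy0, hy1, hy2, hy3⟩ := Finset.mem_filter.1 hy
    have e1 : H436.lap u y = -H436.lap Hf y - ∑ p, M * H436.lap (H436.green (dia N) (r p)) y := by
      have a1 : H436.lap u y = H436.lap (fun y => -Hf y) y -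
          H436.lap (fun y => ∑ p, M * H436.green (dia N) (r p) y) y := by
        unfold H436.lap; simp only [hu]; ring
      rw [a1, H436.lap_sum]
      congr 1
      · unfold H436.lap; ring
      · exact Finset.sum_congr rfl fun p _ => by rw [H436.lap_mul]
    have e2 : ∑ p, M * H436.lap (H436.green (dia N) (r p)) y =
        -∑ p, M * (if y = r p then (1:ℝ) else 0) := by
      rw [← Finset.sum_neg_distrib]
      refine Finset.sum_congr rfl fun p _ => ?_
      rw [H436.lap_green hy0]; ring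
    rw [e1, e2, ← lap_AL436]
    by_cases hp : ∀ p, y ≠ r p
    · have e : ∑ k, M * (if y = r k then (1:ℝ) else 0) = 0 :=
        Finset.sum_eq_zero fun k _ => by rw [if_neg (hp k), mul_zero]
      rw [e]
      have := h.lapf_nonpos hH (i := y.1) (j := y.2) hy0 hy1 hy2 hy3 (hτ y.1 y.2 hp)
      simp only [Prod.mk.eta] at this
      linarith
    · push Not at hp
      obtain ⟨q, hq⟩ := hp
      have e : M ≤ ∑ k, M * (if y = r k then (1:ℝ) else 0) := by
        have h1 := Finset.single_le_sum (f := fun k => M * (if y = r k then (1:ℝ) else 0))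
          (fun k _ => by split_ifs <;> simp [hM]) (Finset.mem_univ q)
        simp only [if_pos hq, mul_one] at h1
        exact h1
      linarith [hup y]
  · have h0 : Hf y = 0 := by
      obtain ⟨i, j⟩ := y
      refine h.Hf_out hH ?_
      by_contra hc
      push Not at hc
      exact hy (Finset.mem_filter.2 ⟨hc.1, hc.2.1, hc.2.2.1, hc.2.2.2⟩)
    simp only [hu]
    rw [h0]
    have : 0 ≤ ∑ p, M * H436.green (dia N) (r p) y :=
      Finset.sum_nonneg fun p _ => mul_nonneg hM (H436.green_nonneg _ _ _)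
    linarith

end green

/-- `ℓ²` bound of a spinor by the total masses. -/
theorem sum_sq_box {N : ℕ} {τ θ A B C E Hs Hf : Site → ℝ} (h : AL.Spr (dia N) τ θ A B C E)
    (hH : AL.IsH (dia N) A B C E Hs Hf) {M : ℝ} (h1 : ∀ T : Finset Site, ∑ w ∈ T, |AL.lap Hs w| ≤ M)
    (h2 : ∀ T : Finset Site, ∑ w ∈ T, |AL.lap Hf w| ≤ M) (c : Site) (n : ℕ) :
    ∑ x ∈ bx c n, (A x ^ 2 + B x ^ 2 + C x ^ 2 + E x ^ 2) ≤ 1152 * M * (n + 2) := by
  have k0 := sum_sq_grad h hH c n
  have hf : ∀ x ∉ dia N, Hf x = 0 := fun x hx => by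
    obtain ⟨i, j⟩ := x
    exact h.Hf_out hH (Or.inl hx)
  have aux : ∀ (u : Site → ℝ), (∀ x ∉ dia N, u x = 0) →
      (∀ T : Finset Site, ∑ w ∈ T, |AL.lap u w| ≤ M) → ∀ e : Site, (e = (1, 0) ∨ e = (0, 1)) →
      ∑ x ∈ bx c (n + 1), |D e u x| ≤ 96 * ((n:ℝ) + 2) * M := by
    intro u hu hT e he
    obtain ⟨K, hK⟩ : ∃ K : ℕ, dia N ⊆ box K := (H436.subset_box (dia N)).exists
    have hs := AL.supp_lap (u := u) (M := K) fun x hx => hu x fun h => hx (hK h)
    have := H436.grad_sum (u := u) (Λ := dia N) (S := box (K + 1)) hu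
      (fun x hx => by rw [← lap_AL436]; exact hs x hx) c (n + 1) he
    have h3 : ∑ w ∈ box (K + 1), |H436.lap u w| ≤ M := by
      have := hT (box (K + 1))
      simp only [lap_AL436] at this
      exact this
    calc ∑ x ∈ bx c (n + 1), |D e u x| ≤ 96 * (((n + 1 : ℕ) : ℝ) + 1) * ∑ w ∈ box (K + 1),
          |H436.lap u w| := this
      _ ≤ 96 * (((n + 1 : ℕ) : ℝ) + 1) * M := mul_le_mul_of_nonneg_left h3 (by positivity)
      _ = _ := by push_cast; ring
  have k1 := aux Hf hf h2 (0, 1) (Or.inr rfl)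
  have k2 := aux Hs hH.out h1 (1, 0) (Or.inl rfl)
  calc _ ≤ _ := k0
    _ ≤ 6 * (96 * ((n:ℝ) + 2) * M + 96 * ((n:ℝ) + 2) * M) := by
        exact mul_le_mul_of_nonneg_left (add_le_add k1 k2) (by norm_num)
    _ = _ := by ring

section lim

variable {ι : Type*} {l : Filter ι} {a : ι → ℝ}

/-- From box bounds to `L2ball` for the rescaled field. -/
theorem l2_of_box (ha : Tendsto a l (𝓝[>] 0)) {X : ι → Pt → ℝ} {K : ℝ} (hK : 0 ≤ K)
    (h : ∀ᶠ k in l, ∀ c n, ∑ x ∈ bx c n, X k x ^ 2 ≤ K * (n + 2)) (z : ℂ) {ρ : ℝ} (hρ : 0 < ρ) :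
    L2ball l a z ρ (8 * K * ρ) (fun k x => (√(a k))⁻¹ * X k x) := by
  have ha0 : ∀ᶠ k in l, 0 < a k := ha.eventually self_mem_nhdsWithin
  have ha1 : ∀ᶠ k in l, a k < ρ / 4 :=
    (ha.mono_right nhdsWithin_le_nhds).eventually (gt_mem_nhds (by positivity))
  filter_upwards [h, ha0, ha1] with k hk h0 h1 S hS
  set n : ℕ := ⌈2 * ρ / a k⌉₊ + 4 with hn
  have hn1 : (n:ℝ) ≤ 2 * ρ / a k + 5 := by
    have := (Nat.ceil_lt_add_one (show 0 ≤ 2 * ρ / a k by positivity)).le
    rw [hn]; push_cast; linarith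
  have hn2 : 2 * ρ / a k + 4 ≤ (n:ℝ) := by
    have := Nat.le_ceil (2 * ρ / a k)
    rw [hn]; push_cast; linarith
  have hsub : S ⊆ bx (fl (a k) z) n := by
    intro x hx
    have k1 := hS x hx
    have k2 := pt_fl_norm h0 z
    have k3 : ‖pt (a k) x - pt (a k) (fl (a k) z)‖ ≤ ρ + 2 * a k := by
      have := norm_sub_le_norm_sub_add_norm_sub (pt (a k) x) z (pt (a k) (fl (a k) z))
      rw [norm_sub_rev z] at this
      linarith
    have k4 := pt_sub_norm' h0 x (fl (a k) z)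
    have k5 : |((x.1:ℝ) - ((fl (a k) z).1:ℝ))| + |((x.2:ℝ) - ((fl (a k) z).2:ℝ))| ≤ n := by
      have : a k * (|((x.1:ℝ) - ((fl (a k) z).1:ℝ))| + |((x.2:ℝ) - ((fl (a k) z).2:ℝ))|) ≤
          a k * (2 * ρ / a k + 4) := by
        have e : a k * (2 * ρ / a k + 4) = 2 * ρ + 4 * a k := by field_simp
        rw [e]; linarith
      exact (le_of_mul_le_mul_left this h0).trans hn2
    have k6 := abs_nonneg ((x.1:ℝ) - ((fl (a k) z).1:ℝ))
    have k7 := abs_nonneg ((x.2:ℝ) - ((fl (a k) z).2:ℝ))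
    have k8 := abs_le.1 (show |((x.1:ℝ) - ((fl (a k) z).1:ℝ))| ≤ n by linarith)
    have k9 := abs_le.1 (show |((x.2:ℝ) - ((fl (a k) z).2:ℝ))| ≤ n by linarith)
    rw [mem_bx]
    refine ⟨⟨?_, ?_⟩, ?_, ?_⟩
    · have : (((fl (a k) z).1 - n : ℤ) : ℝ) ≤ x.1 := by push_cast; linarith
      exact_mod_cast this
    · have : (x.1 : ℝ) ≤ (((fl (a k) z).1 + n : ℤ) : ℝ) := by push_cast; linarith
      exact_mod_cast this
    · have : (((fl (a k) z).2 - n : ℤ) : ℝ) ≤ x.2 := by push_cast; linarith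
      exact_mod_cast this
    · have : (x.2 : ℝ) ≤ (((fl (a k) z).2 + n : ℤ) : ℝ) := by push_cast; linarith
      exact_mod_cast this
  have e1 : ∑ x ∈ S, ((√(a k))⁻¹ * X k x) ^ 2 = (a k)⁻¹ * ∑ x ∈ S, X k x ^ 2 := by
    rw [Finset.mul_sum]
    refine Finset.sum_congr rfl fun x _ => ?_
    rw [mul_pow, inv_pow, Real.sq_sqrt h0.le]
  have e2 : ∑ x ∈ S, X k x ^ 2 ≤ K * (n + 2) :=
    (Finset.sum_le_sum_of_subset_of_nonneg hsub fun _ _ _ => sq_nonneg _).trans (hk _ n)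
  rw [e1]
  calc a k ^ 2 * ((a k)⁻¹ * ∑ x ∈ S, X k x ^ 2) = a k * ∑ x ∈ S, X k x ^ 2 := by
        field_simp
    _ ≤ a k * (K * (n + 2)) := mul_le_mul_of_nonneg_left e2 h0.le
    _ ≤ a k * (K * (2 * ρ / a k + 5 + 2)) := by
        refine mul_le_mul_of_nonneg_left ?_ h0.le
        exact mul_le_mul_of_nonneg_left (by linarith) hK
    _ = K * (2 * ρ + 7 * a k) := by field_simp; ring
    _ ≤ K * (8 * ρ) := mul_le_mul_of_nonneg_left (by linarith) hK
    _ = _ := by ring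

variable {N : ι → ℕ}

/-- The bound of the Green function away from the pole. -/
noncomputable def gb (z c : ℂ) : ℝ := (Real.log (16 / ‖z - c‖ ^ 2) + 1) / (4 * Real.log 2)

theorem green_near (ha : Tendsto a l (𝓝[>] 0))
    (hN : Tendsto (fun k => a k * ((N k : ℝ) + 1)) l (𝓝 1)) {w : ι → Site} {c z : ℂ}
    (hw : Tendsto (fun k => pt (a k) (w k)) l (𝓝 c)) (hwd : ∀ᶠ k in l, w k ∈ dia (N k))
    (hz : z ∈ Dia) (hzc : z ≠ c) :
    ∀ᶠ kx in nf l a z, H436.green (dia (N kx.1)) (w kx.1) kx.2 ≤ gb z c := by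
  have hlog2 : 0 < Real.log 2 := Real.log_pos (by norm_num)
  have hzc' : 0 < ‖z - c‖ := norm_pos_iff.2 (sub_ne_zero.2 hzc)
  have t1 := (re_nf ha hw 0 (z := z)).pow 2
  have t2 := (im_nf ha hw 0 (z := z)).pow 2
  have t3 := (a_nf ha z).pow 2
  have t4 := (t1.add t2).add t3
  have e1 : (z - c).re ^ 2 + (z - c).im ^ 2 + (0:ℝ) ^ 2 = ‖z - c‖ ^ 2 := by
    rw [← normSq_eq_norm_sq, normSq_apply]; ring
  rw [e1] at t4
  have t5 := ((hN.comp (tendsto_fst_nf (l := l) (a := a) z)).pow 2).const_mul 16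
  rw [one_pow, mul_one] at t5
  have t6 := t5.div t4 (by positivity)
  have t7 := (Real.continuousAt_log (x := 16 / ‖z - c‖ ^ 2) (by positivity)).tendsto.comp t6
  filter_upwards [t7.eventually (gt_mem_nhds (show Real.log (16 / ‖z - c‖ ^ 2) <
    Real.log (16 / ‖z - c‖ ^ 2) + 1 by linarith)), near_dia ha hN hz 0,
    ev_nf_of (l := l) (a := a) (z := z) hwd, apos_nf ha z] with kx g1 g2 g3 g4
  have g5 := H436.green_dia_log g3 (g2 kx.2 (by simp) (by simp))
  refine g5.trans ?_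
  unfold gb
  refine div_le_div_of_nonneg_right ?_ (by positivity)
  have hx : 0 < ((kx.2.1 : ℝ) - (w kx.1).1) ^ 2 + ((kx.2.2 : ℝ) - (w kx.1).2) ^ 2 + 1 := by positivity
  rw [← Real.log_div (by positivity) hx.ne']
  refine le_trans (le_of_eq ?_) g1.le
  simp only [Function.comp_apply, Pi.div_apply]
  congr 1
  have : a kx.1 ^ 2 ≠ 0 := by positivity
  rw [div_eq_div_iff hx.ne' (by positivity)]
  ring

/-- Linear decay at the boundary. -/
theorem green_bd (ha : Tendsto a l (𝓝[>] 0))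
    (hN : Tendsto (fun k => a k * ((N k : ℝ) + 1)) l (𝓝 1)) {c : ℂ} (hc : c ∈ Dia) :
    ∃ ε > 0, ∃ K, 0 ≤ K ∧ ∀ w : ι → Site, Tendsto (fun k => pt (a k) (w k)) l (𝓝 c) → ∀ z ∈ Dia,
      1 - ε < |z.re| + |z.im| → ∀ᶠ kx in nf l a z, H436.green (dia (N kx.1)) (w kx.1) kx.2 ≤
        K * (((N kx.1 : ℝ) + 1 - (|(kx.2.1 : ℝ)| + |(kx.2.2 : ℝ)|)) / (N kx.1 + 1)) := by
  have hc' : |c.re| + |c.im| < 1 := hc
  set ε := (1 - (|c.re| + |c.im|)) / 3 with hε
  have hε0 : 0 < ε := by rw [hε]; linarith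
  have hε1 : ε ≤ 1 := by
    rw [hε]; linarith [abs_nonneg c.re, abs_nonneg c.im]
  obtain ⟨K, hK, hb⟩ := H436.green_boundary hε0 hε1
  refine ⟨ε, hε0, K, hK.le, fun w hw z hz hz1 => ?_⟩
  have t1 := (re_nf ha hw 0 (z := z)).abs
  have t2 := (im_nf ha hw 0 (z := z)).abs
  have t3 := (hN.comp (tendsto_fst_nf (l := l) (a := a) z)).const_mul (ε / 2)
  have t4 := ((continuous_re.tendsto c).comp (hw.comp (tendsto_fst_nf (l := l) (a := a) z))).abs
  have t5 := ((continuous_im.tendsto c).comp (hw.comp (tendsto_fst_nf (l := l) (a := a) z))).abs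
  have t6 := (hN.comp (tendsto_fst_nf (l := l) (a := a) z)).const_mul (1 - ε)
  have h1 : |c.re| + |c.im| < (1 - ε) * 1 := by rw [hε]; linarith
  have h2 : ε / 2 * 1 < |(z - c).re| + |(z - c).im| := by
    have k1 : |z.re| - |c.re| ≤ |(z - c).re| := by rw [sub_re]; exact abs_sub_abs_le_abs_sub _ _
    have k2 : |z.im| - |c.im| ≤ |(z - c).im| := by rw [sub_im]; exact abs_sub_abs_le_abs_sub _ _
    have k3 : 3 * ε = 1 - (|c.re| + |c.im|) := by rw [hε]; ring
    linarith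
  filter_upwards [(t4.add t5).eventually_lt t6 h1, t3.eventually_lt (t1.add t2) h2,
    near_dia ha hN hz 0, apos_nf ha z] with kx g1 g2 g3 g4
  refine hb (N kx.1) (w kx.1) kx.2 (g3 kx.2 (by simp) (by simp)) ?_ ?_
  · simp only [Function.comp_apply, pt] at g1
    rw [abs_mul, abs_mul, abs_of_pos g4, ← mul_add] at g1
    have : a kx.1 * (|((w kx.1).1:ℝ)| + |((w kx.1).2:ℝ)|) < a kx.1 * ((1 - ε) * (N kx.1 + 1)) := by
      calc _ < _ := g1
        _ = _ := by ring
    exact (lt_of_mul_lt_mul_left this g4.le).le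
  · simp only [Function.comp_apply, add_zero] at g2
    rw [abs_mul, abs_mul, abs_of_pos g4, ← mul_add] at g2
    have : a kx.1 * (ε * (N kx.1 + 1) / 2) < a kx.1 * (|((kx.2.1:ℝ) - (w kx.1).1)| +
        |((kx.2.2:ℝ) - (w kx.1).2)|) := by
      calc _ = _ := by ring
        _ < _ := g2
    exact (lt_of_mul_lt_mul_left this g4.le).le

end lim

end Vale.Agent.P144.H170
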