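import Vale.Agent.P144.H170.Comp

/-!
Limits of discrete spinors in regions without sign anomalies.
-/

namespace Vale.Agent.P144.H170

open Filter Topology Complex

variable {ι : Type*}

/-- The relations between the corner values of the face `x` and of the faces above and to the
right. -/
def CR4 (A B C E : Pt → ℝ) (x : Pt) : Prop :=
  C x = √2 * A (x + (0, 1)) - B (x + (0, 1)) ∧ E x = √2 * B (x + (0, 1)) - A (x + (0, 1)) ∧
  B x = √2 * A (x + (1, 0)) - C (x + (1, 0)) ∧ E x = -(√2 * C (x + (1, 0)) - A (x + (1, 0)))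

theorem s22 : √2 * √2 = 2 := Real.mul_self_sqrt (by norm_num)

section

variable {A B C E : Pt → ℝ}

theorem CR4.eqA1 {x : Pt} (h : CR4 A B C E (x - (0, 1))) : √2 * A x = C (x - (0, 1)) + B x := by
  have := h.1
  rw [sub_add_cancel] at this
  linarith

theorem CR4.eqA2 {x : Pt} (h : CR4 A B C E (x - (1, 0))) : √2 * A x = B (x - (1, 0)) + C x := by
  have := h.2.2.1
  rw [sub_add_cancel] at this
  linarith

theorem CR4.eqE1 {x : Pt} (h : CR4 A B C E x) : √2 * E x = B (x + (0, 1)) - C x := by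
  rw [h.2.1, h.1]; linear_combination (B (x + (0, 1))) * s22

theorem CR4.eqE2 {x : Pt} (h : CR4 A B C E x) : √2 * E x = B x - C (x + (1, 0)) := by
  rw [h.2.2.2, h.2.2.1]; linear_combination (-C (x + (1, 0))) * s22

theorem CR4.i1 {x : Pt} (h1 : CR4 A B C E (x - (0, 1))) (h2 : CR4 A B C E (x - (1, 0))) :
    B x - B (x - (1, 0)) = C x - C (x - (0, 1)) := by
  have e1 := h1.eqA1
  have e2 := h2.eqA2
  linarith

theorem CR4.i2 {x : Pt} (h : CR4 A B C E x) : B (x + (0, 1)) - B x = C x - C (x + (1, 0)) := by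
  have e1 := h.eqE1
  have e2 := h.eqE2
  linarith

/-- All relations in the `3 × 3` block around `x`. -/
def CR9 (A B C E : Pt → ℝ) (x : Pt) : Prop :=
  ∀ y : Pt, |y.1 - x.1| ≤ 1 → |y.2 - x.2| ≤ 1 → CR4 A B C E y

theorem CR9.lapB {x : Pt} (h : CR9 A B C E x) : lap B x = 0 := by
  obtain ⟨i, j⟩ := x
  have h1 := CR4.i1 (x := ((i, j) : Pt) + (1, 0)) (h _ (by simp) (by simp)) (h _ (by simp) (by simp))
  have h2 := CR4.i1 (x := ((i, j) : Pt)) (h _ (by simp) (by simp)) (h _ (by simp) (by simp))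
  have h3 := CR4.i2 (x := ((i, j) : Pt)) (h _ (by simp) (by simp))
  have h4 := CR4.i2 (x := ((i, j) : Pt) - (0, 1)) (h _ (by simp) (by simp))
  unfold lap
  simp only [Prod.mk_add_mk, Prod.mk_sub_mk, add_zero, sub_zero, sub_add_cancel,
    add_sub_cancel_right] at h1 h2 h3 h4 ⊢
  linarith

theorem CR9.lapC {x : Pt} (h : CR9 A B C E x) : lap C x = 0 := by
  obtain ⟨i, j⟩ := x
  have h1 := CR4.i1 (x := ((i, j) : Pt) + (0, 1)) (h _ (by simp) (by simp)) (h _ (by simp) (by simp))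
  have h2 := CR4.i1 (x := ((i, j) : Pt)) (h _ (by simp) (by simp)) (h _ (by simp) (by simp))
  have h3 := CR4.i2 (x := ((i, j) : Pt)) (h _ (by simp) (by simp))
  have h4 := CR4.i2 (x := ((i, j) : Pt) - (1, 0)) (h _ (by simp) (by simp))
  unfold lap
  simp only [Prod.mk_add_mk, Prod.mk_sub_mk, add_zero, sub_zero, sub_add_cancel,
    add_sub_cancel_right] at h1 h2 h3 h4 ⊢
  linarith

end

/-- The relations hold locally eventually in `U`. -/
def Clean (l : Filter ι) (a : ι → ℝ) (U : Set ℂ) (A B C E : ι → Pt → ℝ) : Prop :=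
  ∀ z ∈ U, ∃ r > 0, ∀ᶠ k in l, ∀ x, ‖pt (a k) x - z‖ ≤ r → CR4 (A k) (B k) (C k) (E k) x

/-- Local `ℓ²` boundedness. -/
def L2on (l : Filter ι) (a : ι → ℝ) (U : Set ℂ) (h : ι → Pt → ℝ) : Prop :=
  ∀ z ∈ U, ∃ r > 0, ∃ M, ∀ᶠ k in l,
    ∀ S : Finset Pt, (∀ x ∈ S, ‖pt (a k) x - z‖ ≤ r) → a k ^ 2 * ∑ x ∈ S, h k x ^ 2 ≤ M

variable {l : Filter ι} {a : ι → ℝ} {U : Set ℂ} {A B C E : ι → Pt → ℝ}

theorem pt_near {a : ℝ} (ha : 0 < a) {x y : Pt} {z : ℂ} {r : ℝ} (hx : ‖pt a x - z‖ ≤ r / 2)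
    (h1 : |y.1 - x.1| ≤ 1) (h2 : |y.2 - x.2| ≤ 1) (har : a ≤ r / 4) : ‖pt a y - z‖ ≤ r := by
  have h3 := pt_sub_norm ha y x
  have h4 : |(y.1 - x.1 : ℝ)| ≤ 1 := by
    have : ((|y.1 - x.1| : ℤ) : ℝ) ≤ 1 := by exact_mod_cast h1
    push_cast at this; exact this
  have h5 : |(y.2 - x.2 : ℝ)| ≤ 1 := by
    have : ((|y.2 - x.2| : ℤ) : ℝ) ≤ 1 := by exact_mod_cast h2
    push_cast at this; exact this
  calc ‖pt a y - z‖ = ‖(pt a y - pt a x) + (pt a x - z)‖ := by ring_nf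
    _ ≤ _ := norm_add_le _ _
    _ ≤ a * (1 + 1) + r / 2 := by
        refine add_le_add (h3.trans ?_) hx
        exact mul_le_mul_of_nonneg_left (add_le_add h4 h5) ha.le
    _ ≤ r := by linarith

theorem Clean.nine (ha : Tendsto a l (𝓝[>] 0)) (hc : Clean l a U A B C E) :
    ∀ z ∈ U, ∃ r > 0, ∀ᶠ k in l, ∀ x, ‖pt (a k) x - z‖ ≤ r → CR9 (A k) (B k) (C k) (E k) x := by
  intro z hz
  obtain ⟨r, hr, hk⟩ := hc z hz
  have ha0 : ∀ᶠ k in l, 0 < a k := ha.eventually self_mem_nhdsWithin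
  have ha1 : ∀ᶠ k in l, a k < r / 4 :=
    (ha.mono_right nhdsWithin_le_nhds).eventually (gt_mem_nhds (by positivity))
  refine ⟨r / 2, by positivity, ?_⟩
  filter_upwards [hk, ha0, ha1] with k h1 h2 h3 x hx y hy1 hy2
  exact h1 y (pt_near h2 hx hy1 hy2 h3.le)

theorem Clean.locL2B (ha : Tendsto a l (𝓝[>] 0)) (hc : Clean l a U A B C E) (hB : L2on l a U B) :
    LocL2 l a U B := by
  intro z hz
  obtain ⟨r, hr, hk⟩ := hc.nine ha z hz
  obtain ⟨s, hs, M, hM⟩ := hB z hz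
  refine ⟨min r s, by positivity, M, ?_⟩
  filter_upwards [hk, hM] with k h1 h2
  exact ⟨fun x hx => (h1 x (hx.trans (min_le_left _ _))).lapB,
    fun S hS => h2 S fun x hx => (hS x hx).trans (min_le_right _ _)⟩

theorem Clean.locL2C (ha : Tendsto a l (𝓝[>] 0)) (hc : Clean l a U A B C E) (hC : L2on l a U C) :
    LocL2 l a U C := by
  intro z hz
  obtain ⟨r, hr, hk⟩ := hc.nine ha z hz
  obtain ⟨s, hs, M, hM⟩ := hC z hz
  refine ⟨min r s, by positivity, M, ?_⟩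
  filter_upwards [hk, hM] with k h1 h2
  exact ⟨fun x hx => (h1 x (hx.trans (min_le_left _ _))).lapC,
    fun S hS => h2 S fun x hx => (hS x hx).trans (min_le_right _ _)⟩

theorem lap_shift (h : Pt → ℝ) (e x : Pt) : lap (fun y => h (y + e)) x = lap h (x + e) := by
  unfold lap
  beta_reduce
  have e1 : x + (1, 0) + e = x + e + (1, 0) := by abel
  have e2 : x - (1, 0) + e = x + e - (1, 0) := by abel
  have e3 : x + (0, 1) + e = x + e + (0, 1) := by abel
  have e4 : x - (0, 1) + e = x + e - (0, 1) := by abel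
  rw [e1, e2, e3, e4]

theorem LocB.shift {h : ι → Pt → ℝ} (ha : Tendsto a l (𝓝[>] 0)) (hh : LocB l a U h) (e : Pt) :
    LocB l a U (fun k x => h k (x + e)) := by
  intro z hz
  obtain ⟨r, hr, M, hM⟩ := hh z hz
  have ha0 : ∀ᶠ k in l, 0 < a k := ha.eventually self_mem_nhdsWithin
  have ha1 : ∀ᶠ k in l, a k < r / 2 / (|(e.1:ℝ)| + |(e.2:ℝ)| + 1) :=
    (ha.mono_right nhdsWithin_le_nhds).eventually (gt_mem_nhds (by positivity))
  refine ⟨r / 2, by positivity, M, ?_⟩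
  filter_upwards [hM, ha0, ha1] with k h1 h2 h3 x hx
  have h4 : ‖pt (a k) (x + e) - z‖ ≤ r := by
    have h5 := pt_sub_norm h2 (x + e) x
    simp only [Prod.fst_add, Prod.snd_add, Int.cast_add, add_sub_cancel_left] at h5
    have h6 : a k * (|(e.1:ℝ)| + |(e.2:ℝ)|) ≤ r / 2 := by
      have h7 : a k * (|(e.1:ℝ)| + |(e.2:ℝ)| + 1) < r / 2 := by
        rwa [lt_div_iff₀ (by positivity)] at h3
      nlinarith
    calc ‖pt (a k) (x + e) - z‖ = ‖(pt (a k) (x + e) - pt (a k) x) + (pt (a k) x - z)‖ := by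
          ring_nf
      _ ≤ _ := norm_add_le _ _
      _ ≤ r := by linarith
  exact ⟨by rw [lap_shift]; exact (h1 _ h4).1, (h1 _ h4).2⟩

theorem LocB.neg {h : ι → Pt → ℝ} (hh : LocB l a U h) : LocB l a U (fun k x => - h k x) := by
  intro z hz
  obtain ⟨r, hr, M, hM⟩ := hh z hz
  refine ⟨r, hr, M, ?_⟩
  filter_upwards [hM] with k h1 x hx
  refine ⟨?_, by rw [abs_neg]; exact (h1 x hx).2⟩
  have := (h1 x hx).1
  unfold lap at this ⊢
  linarith

/-- Limits of discrete spinors without anomalies. -/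
theorem clean_lim {l : Ultrafilter ι} (ha : Tendsto a l (𝓝[>] 0)) (hU : IsOpen U)
    (hc : Clean l a U A B C E) (hB : L2on l a U B) (hC : L2on l a U C) :
    ∃ f : ℂ → ℂ, DifferentiableOn ℂ f U ∧ CConv l a U A (fun z => (f z).re) ∧
      CConv l a U B (fun z => ((f z).re - (f z).im) / √2) ∧
      CConv l a U C (fun z => ((f z).re + (f z).im) / √2) ∧
      CConv l a U E (fun z => -(f z).im) := by
  have lB := (hc.locL2B ha hB).locB ha
  have lC := (hc.locL2C ha hC).locB ha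
  obtain ⟨HB, cB⟩ := exists_cconv ha lB
  obtain ⟨HC, cC⟩ := exists_cconv ha lC
  have hcr : LocCR l a U (fun k x => B k (x + (-1, -1))) (fun k x => -C k (x + (0, -1))) := by
    intro z hz
    obtain ⟨r, hr, hk⟩ := hc.nine ha z hz
    refine ⟨r, hr, ?_⟩
    filter_upwards [hk] with k h1 x hx
    obtain ⟨i, j⟩ := x
    have h9 := h1 _ hx
    have k1 := CR4.i1 (x := ((i, j) : Pt)) (h9 _ (by simp) (by simp)) (h9 _ (by simp) (by simp))
    have k2 := CR4.i2 (x := ((i, j) : Pt) - (0, 1)) (h9 _ (by simp) (by simp))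
    simp only [Prod.mk_add_mk, Prod.mk_sub_mk, add_zero, sub_zero, sub_add_cancel,
      add_sub_cancel_right, ← sub_eq_add_neg] at k1 k2 ⊢
    constructor <;> linarith
  have hF := holo ha hU (lB.shift ha (-1, -1)) (lC.shift ha (0, -1)).neg hcr
    (cB.shift ha (-1, -1)) (cC.shift ha (0, -1)).neg
  have hs : √2 ≠ 0 := by positivity
  have s2 := s22
  refine ⟨fun z => (⟨1 / √2, -(1 / √2)⟩ : ℂ) * ((HB z : ℂ) - (-HC z : ℝ) * I), ?_, ?_, ?_, ?_, ?_⟩
  · exact hF.const_mul _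
  · have h1 : CConv l a U (fun k x => 1 / √2 * (C k (x + (0, -1)) + B k x))
        (fun z => 1 / √2 * (HC z + HB z)) := ((cC.shift ha (0, -1)).add cB).const_mul _
    have h2 : (fun z => ((⟨1 / √2, -(1 / √2)⟩ : ℂ) * ((HB z : ℂ) - (-HC z : ℝ) * I)).re) =
        fun z => 1 / √2 * (HC z + HB z) := by
      funext z
      simp only [mul_re, sub_re, ofReal_re, I_re, ofReal_im, I_im, sub_im, mul_im]
      ring
    rw [h2]
    refine h1.congr fun z hz => ?_
    obtain ⟨r, hr, hk⟩ := hc.nine ha z hz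
    refine ⟨r, hr, ?_⟩
    filter_upwards [hk] with k h3 x hx
    obtain ⟨i, j⟩ := x
    have h9 := h3 _ hx
    have k1 := CR4.eqA1 (x := ((i, j) : Pt)) (h9 _ (by simp) (by simp))
    simp only [Prod.mk_add_mk, Prod.mk_sub_mk, add_zero, sub_zero, ← sub_eq_add_neg] at k1 ⊢
    rw [← k1]; field_simp
  · have h2 : (fun z => (((⟨1 / √2, -(1 / √2)⟩ : ℂ) * ((HB z : ℂ) - (-HC z : ℝ) * I)).re -
        ((⟨1 / √2, -(1 / √2)⟩ : ℂ) * ((HB z : ℂ) - (-HC z : ℝ) * I)).im) / √2) = HB := by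
      funext z
      simp only [mul_re, sub_re, ofReal_re, I_re, ofReal_im, I_im, sub_im, mul_im]
      field_simp
      linear_combination (-HB z) * s2
    rw [h2]; exact cB
  · have h2 : (fun z => (((⟨1 / √2, -(1 / √2)⟩ : ℂ) * ((HB z : ℂ) - (-HC z : ℝ) * I)).re +
        ((⟨1 / √2, -(1 / √2)⟩ : ℂ) * ((HB z : ℂ) - (-HC z : ℝ) * I)).im) / √2) = HC := by
      funext z
      simp only [mul_re, sub_re, ofReal_re, I_re, ofReal_im, I_im, sub_im, mul_im]
      field_simp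
      linear_combination (-HC z) * s2
    rw [h2]; exact cC
  · have h1 : CConv l a U (fun k x => 1 / √2 * (B k (x + (0, 1)) - C k x))
        (fun z => 1 / √2 * (HB z - HC z)) := ((cB.shift ha (0, 1)).sub cC).const_mul _
    have h2 : (fun z => -((⟨1 / √2, -(1 / √2)⟩ : ℂ) * ((HB z : ℂ) - (-HC z : ℝ) * I)).im) =
        fun z => 1 / √2 * (HB z - HC z) := by
      funext z
      simp only [mul_re, sub_re, ofReal_re, I_re, ofReal_im, I_im, sub_im, mul_im]
      ring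
    rw [h2]
    refine h1.congr fun z hz => ?_
    obtain ⟨r, hr, hk⟩ := hc.nine ha z hz
    refine ⟨r, hr, ?_⟩
    filter_upwards [hk] with k h3 x hx
    obtain ⟨i, j⟩ := x
    have h9 := h3 _ hx
    have k1 := CR4.eqE1 (x := ((i, j) : Pt)) (h9 _ (by simp) (by simp))
    simp only [Prod.mk_add_mk, add_zero] at k1 ⊢
    rw [← k1]; field_simp

end Vale.Agent.P144.H170
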