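import Vale.Agent.P144.H170.Side
import Vale.Agent.P144.U.AL.Fin3

/-!
Spinors near the sides of the diamond.
-/

namespace Vale.Agent.P144.H170

open Filter Topology Complex

/-- The relations in a face of a domain with the set `m` of sites, without sign anomalies. -/
structure BR (m : ℤ → ℤ → Prop) (A B C E : Pt → ℝ) (i j : ℤ) : Prop where
  V : m i (j + 1) → m (i + 1) (j + 1) →
    C (i, j) = √2 * A (i, j + 1) - B (i, j + 1) ∧ E (i, j) = √2 * B (i, j + 1) - A (i, j + 1)
  V0 : ¬ (m i (j + 1) ∧ m (i + 1) (j + 1)) → C (i, j) = A (i, j + 1) ∧ E (i, j) = B (i, j + 1)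
  H : m (i + 1) j → m (i + 1) (j + 1) →
    B (i, j) = √2 * A (i + 1, j) - C (i + 1, j) ∧ E (i, j) = -(√2 * C (i + 1, j) - A (i + 1, j))
  H0 : ¬ (m (i + 1) j ∧ m (i + 1) (j + 1)) → B (i, j) = A (i + 1, j) ∧ E (i, j) = -C (i + 1, j)
  zA : ¬ m i j → A (i, j) = 0
  zB : ¬ m (i + 1) j → B (i, j) = 0
  zC : ¬ m i (j + 1) → C (i, j) = 0
  zE : ¬ m (i + 1) (j + 1) → E (i, j) = 0

theorem BR.congr {m m' : ℤ → ℤ → Prop} {A B C E : Pt → ℝ} {i j : ℤ} (h : BR m A B C E i j)
    (h1 : m i j ↔ m' i j) (h2 : m (i + 1) j ↔ m' (i + 1) j) (h3 : m i (j + 1) ↔ m' i (j + 1))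
    (h4 : m (i + 1) (j + 1) ↔ m' (i + 1) (j + 1)) : BR m' A B C E i j where
  V := fun a b => h.V (h3.2 a) (h4.2 b)
  V0 := fun a => h.V0 fun b => a ⟨h3.1 b.1, h4.1 b.2⟩
  H := fun a b => h.H (h2.2 a) (h4.2 b)
  H0 := fun a => h.H0 fun b => a ⟨h2.1 b.1, h4.1 b.2⟩
  zA := fun a => h.zA fun b => a (h1.1 b)
  zB := fun a => h.zB fun b => a (h2.1 b)
  zC := fun a => h.zC fun b => a (h3.1 b)
  zE := fun a => h.zE fun b => a (h4.1 b)

theorem BR.refx {m : ℤ → ℤ → Prop} {A B C E : Pt → ℝ} {i j : ℤ} (h1 : BR m A B C E (-i - 1) j)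
    (h2 : BR m A B C E (-i - 2) j) : BR (fun x y => m (-x) y) (fun x => B (-x.1 - 1, x.2))
      (fun x => A (-x.1 - 1, x.2)) (fun x => E (-x.1 - 1, x.2)) (fun x => C (-x.1 - 1, x.2)) i j := by
  have e1 : -i - 1 + 1 = -i := by ring
  have e2 : -i - 2 + 1 = -(i + 1) := by ring
  have e3 : -i - 1 = -(i + 1) := by ring
  have e4 : -(i + 1) - 1 = -i - 2 := by ring
  have s2 := s22
  constructor
  · intro ha hb
    have := h1.V (by rwa [e3]) (by rwa [e1])
    exact ⟨this.2, this.1⟩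
  · intro ha
    have := h1.V0 (by rw [e1, e3]; exact fun h => ha ⟨h.2, h.1⟩)
    exact ⟨this.2, this.1⟩
  · intro ha hb
    have := h2.H (by rwa [e2]) (by rwa [e2])
    rw [e2] at this
    simp only [e4]
    rw [e3, this.1, this.2]
    constructor
    · linear_combination (-A (-(i + 1), j)) * s2
    · linear_combination (-C (-(i + 1), j)) * s2
  · intro ha
    have := h2.H0 (by rw [e2]; exact ha)
    rw [e2] at this
    simp only [e4]
    rw [e3, this.1, this.2]
    exact ⟨rfl, by ring⟩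
  · intro ha; exact h1.zB (by rwa [e1])
  · intro ha; exact h1.zA (by rwa [e3])
  · intro ha; exact h1.zE (by rwa [e1])
  · intro ha; exact h1.zC (by rwa [e3])

theorem BR.refy {m : ℤ → ℤ → Prop} {A B C E : Pt → ℝ} {i j : ℤ} (h1 : BR m A B C E i (-j - 1))
    (h2 : BR m A B C E i (-j - 2)) : BR (fun x y => m x (-y)) (fun x => C (x.1, -x.2 - 1))
      (fun x => -E (x.1, -x.2 - 1)) (fun x => A (x.1, -x.2 - 1)) (fun x => -B (x.1, -x.2 - 1)) i j := by
  have e1 : -j - 1 + 1 = -j := by ring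
  have e2 : -j - 2 + 1 = -(j + 1) := by ring
  have e3 : -j - 1 = -(j + 1) := by ring
  have e4 : -(j + 1) - 1 = -j - 2 := by ring
  have s2 := s22
  constructor
  · intro ha hb
    have := h2.V (by rwa [e2]) (by rwa [e2])
    rw [e2] at this
    simp only [e4]
    rw [e3, this.1, this.2]
    constructor
    · linear_combination (-A (i, -(j + 1))) * s2
    · linear_combination (B (i, -(j + 1))) * s2
  · intro ha
    have := h2.V0 (by rw [e2]; exact ha)
    rw [e2] at this
    simp only [e4]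
    rw [e3, this.1, this.2]
    exact ⟨rfl, rfl⟩
  · intro ha hb
    have := h1.H (by rwa [e3]) (by rwa [e1])
    simp only
    rw [this.1, this.2]
    exact ⟨by ring, by ring⟩
  · intro ha
    have := h1.H0 (by rw [e1, e3]; exact fun h => ha ⟨h.2, h.1⟩)
    simp only
    rw [this.1, this.2]
    exact ⟨by ring, rfl⟩
  · intro ha; exact h1.zC (by rwa [e1])
  · intro ha
    simp only
    rw [h1.zE (by rwa [e1]), neg_zero]
  · intro ha; exact h1.zA (by rwa [e3])
  · intro ha
    simp only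
    rw [h1.zB (by rwa [e3]), neg_zero]

/-- The inner component at the side `x + y = N` is harmonic up to the side. -/
theorem BR.harmE {N : ℤ} {A B C E : Pt → ℝ} {i j : ℤ}
    (h : ∀ i' j', |i' - i| ≤ 2 → |j' - j| ≤ 2 → BR (fun x y => x + y ≤ N) A B C E i' j')
    (hv : i + j ≤ N) : lap E (i - 1, j - 1) = 0 := by
  have s2 := s22
  have b00 := h i j (by simp) (by simp)
  have b10 := h (i - 1) j (by simp) (by simp)
  have b01 := h i (j - 1) (by simp) (by simp)
  have b11 := h (i - 1) (j - 1) (by simp) (by simp)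
  have b21 := h (i - 2) (j - 1) (by simp) (by simp)
  have b12 := h (i - 1) (j - 2) (by simp) (by simp)
  have f1 : i - 2 + 1 = i - 1 := by ring
  have f2 : j - 2 + 1 = j - 1 := by ring
  unfold lap
  simp only [Prod.mk_add_mk, Prod.mk_sub_mk, add_zero, sub_zero, sub_add_cancel]
  have f3 : i - 1 - 1 = i - 2 := by ring
  have f4 : j - 1 - 1 = j - 2 := by ring
  rw [f3, f4]
  -- CR1 at v - e1: V at (i-1, j-1), H at (i-2, j-1)
  have v11 := b11.V (by lia) (by lia)
  have h21 := b21.H (by lia) (by lia)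
  have h11 := b11.H (by lia) (by lia)
  have v12 := b12.V (by lia) (by lia)
  simp only [sub_add_cancel] at v11 h11
  simp only [f1] at h21
  simp only [f2] at v12
  -- v11 : C (i-1,j-1) = √2 A (i-1,j) - B (i-1,j), E (i-1,j-1) = √2 B (i-1,j) - A (i-1,j)
  -- h21 : B (i-2,j-1) = √2 A (i-1,j-1) - C (i-1,j-1), E (i-2,j-1) = -(√2 C (i-1,j-1) - A (i-1,j-1))
  -- h11 : B (i-1,j-1) = √2 A (i,j-1) - C (i,j-1), E (i-1,j-1) = -(√2 C (i,j-1) - A (i,j-1))
  -- v12 : C (i-1,j-2) = .., E (i-1,j-2) = √2 B (i-1,j-1) - A (i-1,j-1)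
  have c1 : E (i - 1, j - 1) - E (i - 2, j - 1) = A (i - 1, j) - A (i - 1, j - 1) := by
    rw [h21.2, v11.2, v11.1]; linear_combination (A (i - 1, j)) * s2
  have c2 : E (i - 1, j - 1) - E (i - 1, j - 2) = A (i - 1, j - 1) - A (i, j - 1) := by
    rw [v12.2, h11.2, h11.1]; linear_combination (-A (i, j - 1)) * s2
  rcases lt_or_eq_of_le hv with hlt | heq
  · have v01 := b01.V (by lia) (by lia)
    have h10 := b10.H (by lia) (by lia)
    simp only [sub_add_cancel] at v01 h10
    have c3 : E (i, j - 1) - E (i - 1, j - 1) = A (i, j) - A (i, j - 1) := by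
      rw [v01.2, h11.2, v01.1]; linear_combination (A (i, j)) * s2
    have c4 : E (i - 1, j) - E (i - 1, j - 1) = A (i - 1, j) - A (i, j) := by
      rw [h10.2, v11.2]
      linear_combination (-√2) * h10.1 - (A (i, j)) * s2
    linarith
  · have v01 := b01.V0 (by lia)
    have h10 := b10.H0 (by lia)
    have z01 := b01.zE (by lia)
    have z10 := b10.zE (by lia)
    simp only [sub_add_cancel] at v01 h10
    have c5 : B (i - 1, j) = C (i, j - 1) := by rw [v01.1, h10.1]
    have c6 : 2 * E (i - 1, j - 1) = A (i, j - 1) - A (i - 1, j) := by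
      linear_combination v11.2 + h11.2 + √2 * c5
    rw [z01, z10]
    linarith

end Vale.Agent.P144.H170
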