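import Vale.Agent.P144.H170.Lim
import Mathlib.Analysis.Complex.RemovableSingularity

/-!
The holomorphic function that encodes the limit extends through the marked points.
-/

namespace Vale.Agent.P144.H170

open Filter Topology Complex

section

variable {ι : Type*} {l : Filter ι} {a : ι → ℝ}

theorem compact_ev {K : Set ℂ} (hK : IsCompact K) {P : ι → Pt → Prop}
    (h : ∀ z ∈ K, ∀ᶠ kx in nf l a z, P kx.1 kx.2) :
    ∀ᶠ k in l, ∀ x, pt (a k) x ∈ K → P k x := by
  refine hK.induction_on (p := fun s => ∀ᶠ k in l, ∀ x, pt (a k) x ∈ s → P k x) ?_ ?_ ?_ ?_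
  · exact Eventually.of_forall fun k x hx => absurd hx (Set.notMem_empty _)
  · intro s t hst ht
    filter_upwards [ht] with k hk x hx
    exact hk x (hst hx)
  · intro s t hs ht
    filter_upwards [hs, ht] with k h1 h2 x hx
    rcases hx with hx | hx
    · exact h1 x hx
    · exact h2 x hx
  · intro z hz
    obtain ⟨r, hr, hk⟩ := ev_nf.1 (h z hz)
    refine ⟨Metric.closedBall z r, mem_nhdsWithin_of_mem_nhds (Metric.closedBall_mem_nhds z hr), ?_⟩
    filter_upwards [hk] with k h1 x hx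
    rw [Metric.mem_closedBall, dist_eq_norm] at hx
    exact h1 x hx

/-- The sum of the squares over every finite set of lattice points in the ball is bounded. -/
def L2ball (l : Filter ι) (a : ι → ℝ) (z : ℂ) (r M : ℝ) (h : ι → Pt → ℝ) : Prop :=
  ∀ᶠ k in l, ∀ S : Finset Pt, (∀ x ∈ S, ‖pt (a k) x - z‖ ≤ r) → a k ^ 2 * ∑ x ∈ S, h k x ^ 2 ≤ M

/-- Pointwise bounds from `ℓ²` bounds. -/
theorem sup_of_l2 : ∃ C : ℝ, 0 < C ∧ ∀ {ι : Type*} {l : Filter ι} {a : ι → ℝ}
    (_ : Tendsto a l (𝓝[>] 0)) {z : ℂ} {r M : ℝ} {h : ι → Pt → ℝ} (_ : 0 < r)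
    (_ : ∀ᶠ k in l, ∀ x, ‖pt (a k) x - z‖ ≤ r → lap (h k) x = 0) (_ : L2ball l a z r M h),
    ∀ᶠ k in l, ∀ x, ‖pt (a k) x - z‖ ≤ r / 2 → h k x ^ 2 ≤ C * M / r ^ 2 := by
  obtain ⟨C, hC, hb⟩ := DD_bound 0
  refine ⟨C * 256, by positivity, ?_⟩
  intro ι l a ha z r M h hr hL hM
  have ha0 : ∀ᶠ k in l, 0 < a k := ha.eventually self_mem_nhdsWithin
  have ha1 : ∀ᶠ k in l, a k < r / 16 :=
    (ha.mono_right nhdsWithin_le_nhds).eventually (gt_mem_nhds (by positivity))
  filter_upwards [hL, hM, ha0, ha1] with k hk1 hk2 h0 h1 x hx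
  set R : ℕ := ⌊r / (8 * a k)⌋₊ with hR
  have hRle : (R:ℝ) ≤ r / (8 * a k) := Nat.floor_le (by positivity)
  have hRlt : r / (8 * a k) < R + 1 := Nat.lt_floor_add_one _
  have hRa : (R:ℝ) * a k ≤ r / 8 := by
    have := mul_le_mul_of_nonneg_right hRle h0.le
    have e : r / (8 * a k) * a k = r / 8 := by field_simp
    linarith
  have hR2 : (2:ℝ) ≤ r / (8 * a k) := by
    rw [le_div_iff₀ (by positivity)]; linarith
  have hR1 : 1 ≤ R := Nat.le_floor (by push_cast; linarith)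
  have hR1' : (1:ℝ) ≤ R := by exact_mod_cast hR1
  have hR3 : r / (16 * a k) ≤ R := by
    have : r / (16 * a k) = r / (8 * a k) / 2 := by field_simp; norm_num
    linarith
  have hball : ∀ y ∈ bx x R, ‖pt (a k) y - z‖ ≤ r := by
    intro y hy
    rw [mem_bx] at hy
    have h2 := pt_sub_norm h0 y x
    have h3 : |(y.1 - x.1 : ℝ)| ≤ R := by
      have b1 : ((x.1 - (R : ℤ) : ℤ) : ℝ) ≤ (y.1 : ℝ) := by exact_mod_cast hy.1.1
      have b2 : ((y.1 : ℤ) : ℝ) ≤ ((x.1 + (R : ℤ) : ℤ) : ℝ) := by exact_mod_cast hy.1.2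
      push_cast at b1 b2
      rw [abs_le]; constructor <;> linarith
    have h4 : |(y.2 - x.2 : ℝ)| ≤ R := by
      have b1 : ((x.2 - (R : ℤ) : ℤ) : ℝ) ≤ (y.2 : ℝ) := by exact_mod_cast hy.2.1
      have b2 : ((y.2 : ℤ) : ℝ) ≤ ((x.2 + (R : ℤ) : ℤ) : ℝ) := by exact_mod_cast hy.2.2
      push_cast at b1 b2
      rw [abs_le]; constructor <;> linarith
    have h5 : ‖pt (a k) y - z‖ ≤ ‖pt (a k) y - pt (a k) x‖ + ‖pt (a k) x - z‖ := by
      have := norm_add_le (pt (a k) y - pt (a k) x) (pt (a k) x - z)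
      rwa [sub_add_sub_cancel] at this
    have h6 : a k * (|(y.1 - x.1 : ℝ)| + |(y.2 - x.2 : ℝ)|) ≤ a k * (2 * R) :=
      mul_le_mul_of_nonneg_left (by linarith) h0.le
    nlinarith
  have hharm : Harm (h k) x R := fun y hy => hk1 y (hball y hy)
  have h2 := hb [] (by intro e' he'; simp at he') rfl (h k) x R (by lia) hharm
  have h3 : DD [] (h k) x = h k x := rfl
  rw [h3, mul_zero, add_zero, add_zero] at h2
  have h4 := hk2 (bx x R) hball
  have h5 : 0 ≤ ∑ y ∈ bx x R, h k y ^ 2 := Finset.sum_nonneg fun _ _ => sq_nonneg _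
  have h6 : C / (R:ℝ) ^ 2 ≤ C * (16 / r) ^ 2 * a k ^ 2 := by
    calc C / (R:ℝ) ^ 2 ≤ C / (r / (16 * a k)) ^ 2 :=
          div_le_div_of_nonneg_left hC.le (by positivity) (pow_le_pow_left₀ (by positivity) hR3 2)
      _ = _ := by field_simp
  calc h k x ^ 2 ≤ C / (R:ℝ) ^ 2 * ∑ y ∈ bx x R, h k y ^ 2 := h2
    _ ≤ (C * (16 / r) ^ 2 * a k ^ 2) * ∑ y ∈ bx x R, h k y ^ 2 :=
        mul_le_mul_of_nonneg_right h6 h5
    _ = (C * (16 / r) ^ 2) * (a k ^ 2 * ∑ y ∈ bx x R, h k y ^ 2) := by ring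
    _ ≤ (C * (16 / r) ^ 2) * M := mul_le_mul_of_nonneg_left h4 (by positivity)
    _ = C * 256 * M / r ^ 2 := by field_simp; ring

theorem lim_bound (ha : Tendsto a l (𝓝[>] 0)) [NeBot l] {z : ℂ} {r K : ℝ} (hr : 0 < r)
    {h : ι → Pt → ℝ} {w : ℝ}
    (hK : ∀ᶠ k in l, ∀ x, ‖pt (a k) x - z‖ ≤ r / 2 → h k x ^ 2 ≤ K)
    (hw : Tendsto (fun kx : ι × Pt => h kx.1 kx.2) (nf l a z) (𝓝 w)) : w ^ 2 ≤ K := by
  have := nf_neBot ha z
  refine le_of_tendsto (hw.pow 2) ?_
  exact (ev_nf (P := fun k x => h k x ^ 2 ≤ K)).2 ⟨r / 2, by positivity, hK⟩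

end

section data

variable {ι κ κ' : Type*} [Fintype κ] [Fintype κ'] {r : κ → ι → Site} {v : κ' → ι → Site}
  {ζ : κ → ℂ} {ω : κ' → ℂ}

theorem ph_sq (w : ℂ) : phB w ^ 2 + phC w ^ 2 = ‖w‖ ^ 2 := by
  rw [phB_apply, phC_apply, ← normSq_eq_norm_sq, normSq_apply]
  have : √2 ^ 2 = 2 := Real.sq_sqrt (by norm_num)
  rw [div_pow, div_pow, this]; ring

omit [Fintype κ] [Fintype κ'] in
/-- A ball that stays away from the marked points has a single pattern. -/
theorem exists_pattern_ball {z : ℂ} {d : ℝ} (h1 : ∀ p, 2 * d ≤ ‖z - ζ p‖)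
    (h2 : ∀ q, 2 * d ≤ ‖z - ω q‖) (hd : 0 < d) :
    ∃ S S', Metric.closedBall z d ⊆ VS S S' ζ ω := by
  have aux : ∀ w u : ℂ, ‖u - z‖ ≤ d → |(u - w).re - (z - w).re| ≤ d ∧
      |(u - w).im - (z - w).im| ≤ d := by
    intro w u hu
    constructor
    · have := (abs_re_le_norm (u - z)).trans hu
      simpa using this
    · have := (abs_im_le_norm (u - z)).trans hu
      simpa using this
  have far : ∀ w : ℂ, 2 * d ≤ ‖z - w‖ → |(z - w).re| ≤ d → |(z - w).im| ≤ d → False := by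
    intro w hw hr hi
    have h3 : ‖z - w‖ ^ 2 = (z - w).re ^ 2 + (z - w).im ^ 2 := by
      rw [← normSq_eq_norm_sq, normSq_apply]; ring
    have h4 : (z - w).re ^ 2 ≤ d ^ 2 := sq_le_sq' (abs_le.1 hr).1 (abs_le.1 hr).2
    have h5 : (z - w).im ^ 2 ≤ d ^ 2 := sq_le_sq' (abs_le.1 hi).1 (abs_le.1 hi).2
    have h6 : (2 * d) ^ 2 ≤ ‖z - w‖ ^ 2 := pow_le_pow_left₀ (by positivity) hw 2
    nlinarith
  refine ⟨fun p => d < (z - ζ p).im, fun q => (z - ω q).im < -d, fun u hu => ?_⟩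
  rw [Metric.mem_closedBall, dist_eq_norm] at hu
  constructor
  · intro p
    obtain ⟨k1, k2⟩ := aux (ζ p) u hu
    rw [abs_le] at k1 k2
    constructor
    · intro h; linarith
    · intro h
      by_contra hc
      push Not at hc h
      refine far (ζ p) (h1 p) ?_ ?_
      · rw [abs_le]; constructor <;> linarith
      · rw [abs_le]; constructor <;> linarith
  · intro p
    obtain ⟨k1, k2⟩ := aux (ω p) u hu
    rw [abs_le] at k1 k2
    constructor
    · intro h; linarith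
    · intro h
      by_contra hc
      push Not at hc h
      refine far (ω p) (h2 p) ?_ ?_
      · rw [abs_le]; constructor <;> linarith
      · rw [abs_le]; constructor <;> linarith

/-- Pointwise bound of the limit. -/
theorem q_bound : ∃ K₀ : ℝ, 0 < K₀ ∧ ∀ {ι κ κ' : Type*} [Fintype κ] [Fintype κ']
    {r : κ → ι → Site} {v : κ' → ι → Site} {ζ : κ → ℂ} {ω : κ' → ℂ} {l : Filter ι} [NeBot l]
    {a : ι → ℝ} (_ : Tendsto a l (𝓝[>] 0)) {U : Set ℂ}
    (_ : ∀ p, Tendsto (fun k => pt (a k) (r p k)) l (𝓝 (ζ p)))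
    (_ : ∀ q, Tendsto (fun k => pt (a k) (v q k)) l (𝓝 (ω q)))
    {A B C E : ι → Pt → ℝ} (_ : RelOn l a U r v A B C E) {q : ℂ → ℂ}
    (_ : SLim l a U r v A B C E q) {z : ℂ} {d M : ℝ} (_ : 0 < d)
    (_ : Metric.closedBall z d ⊆ U)
    (_ : ∀ p, 2 * d ≤ ‖z - ζ p‖) (_ : ∀ p, 2 * d ≤ ‖z - ω p‖)
    (_ : L2ball l a z d M B) (_ : L2ball l a z d M C),
    ‖q z‖ ^ 2 ≤ K₀ * M / d ^ 2 * ((∏ p, ‖z - ζ p‖) * ∏ p, ‖z - ω p‖) := by
  obtain ⟨K, hK, hb⟩ := sup_of_l2
  refine ⟨2 * K, by positivity, ?_⟩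
  intro ι κ κ' _ _ r v ζ ω l _ a ha U hr hv A B C E hrel q hq z d M hd hU hζ hω hB hC
  obtain ⟨S, S', hS⟩ := exists_pattern_ball hζ hω hd
  have hzb : z ∈ Metric.closedBall z d := Metric.mem_closedBall_self hd.le
  have hcl := clean_of_rel ha hr hv hrel S S'
  have hnine := hcl.nine ha
  have hev : ∀ᶠ k in l, ∀ x, pt (a k) x ∈ Metric.closedBall z d → CR9
      (fun x => gs S S' (fun p => r p k) (fun q => v q k) ((x.1:ℝ) + 1 / 4) * A k x)
      (fun x => gs S S' (fun p => r p k) (fun q => v q k) ((x.1:ℝ) + 3 / 4) * B k x)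
      (fun x => gs S S' (fun p => r p k) (fun q => v q k) ((x.1:ℝ) + 1 / 4) * C k x)
      (fun x => gs S S' (fun p => r p k) (fun q => v q k) ((x.1:ℝ) + 3 / 4) * E k x) x := by
    refine compact_ev (isCompact_closedBall z d) (fun w hw => ?_)
    exact ev_nf.2 (hnine w ⟨hU hw, hS hw⟩)
  have bB := hb ha (h := fun k x => gs S S' (fun p => r p k) (fun q => v q k)
      ((x.1:ℝ) + 3 / 4) * B k x) (M := M) hd (by
    filter_upwards [hev] with k h1 x hx
    exact (h1 x (by rw [Metric.mem_closedBall, dist_eq_norm]; exact hx)).lapB) (by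
    filter_upwards [hB] with k h1 T hT
    refine le_trans (le_of_eq ?_) (h1 T hT)
    congr 1
    refine Finset.sum_congr rfl fun x _ => ?_
    rw [mul_pow, pow_two (gs _ _ _ _ _), gs_sq, one_mul])
  have bC := hb ha (h := fun k x => gs S S' (fun p => r p k) (fun q => v q k)
      ((x.1:ℝ) + 1 / 4) * C k x) (M := M) hd (by
    filter_upwards [hev] with k h1 x hx
    exact (h1 x (by rw [Metric.mem_closedBall, dist_eq_norm]; exact hx)).lapC) (by
    filter_upwards [hC] with k h1 T hT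
    refine le_trans (le_of_eq ?_) (h1 T hT)
    congr 1
    refine Finset.sum_congr rfl fun x _ => ?_
    rw [mul_pow, pow_two (gs _ _ _ _ _), gs_sq, one_mul])
  have k1 := lim_bound ha hd bB (of_xlim ha hr hv (hS hzb) (Or.inr rfl) _ _ (hq.B z (hU hzb)))
  have k2 := lim_bound ha hd bC (of_xlim ha hr hv (hS hzb) (Or.inl rfl) _ _ (hq.C z (hU hzb)))
  have k3 := ph_sq (q z / RS S S' ζ ω z)
  have hne := RS_ne (hS hzb)
  have k4 : ‖RS S S' ζ ω z‖ ^ 2 = (∏ p, ‖z - ζ p‖) * ∏ p, ‖z - ω p‖ := by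
    have := congrArg norm (RS_sq S S' ζ ω z)
    rw [norm_mul, norm_mul, norm_prod, norm_prod] at this
    rw [pow_two, this]
  rw [norm_div, div_pow, k4] at k3
  have hpos : 0 < (∏ p, ‖z - ζ p‖) * ∏ p, ‖z - ω p‖ := by
    rw [← k4]; have := norm_pos_iff.2 hne; positivity
  have k5 : ‖q z‖ ^ 2 / ((∏ p, ‖z - ζ p‖) * ∏ p, ‖z - ω p‖) ≤ 2 * K * M / d ^ 2 := by
    rw [← k3]
    calc _ ≤ K * M / d ^ 2 + K * M / d ^ 2 := add_le_add k1 k2
      _ = _ := by ring
  rw [div_le_iff₀ hpos] at k5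
  exact k5

end data

section ext

variable {ι κ κ' : Type*} [Fintype κ] [Fintype κ'] {r : κ → ι → Site} {v : κ' → ι → Site}
  {ζ : κ → ℂ} {ω : κ' → ℂ}

/-- The set of marked points. -/
def Mk (ζ : κ → ℂ) (ω : κ' → ℂ) : Set ℂ := Set.range ζ ∪ Set.range ω

theorem Mk_finite (ζ : κ → ℂ) (ω : κ' → ℂ) : (Mk ζ ω).Finite :=
  (Set.finite_range _).union (Set.finite_range _)

theorem Mk_closed (ζ : κ → ℂ) (ω : κ' → ℂ) : IsClosed (Mk ζ ω) := (Mk_finite ζ ω).isClosed

omit [Fintype κ] [Fintype κ'] in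
theorem notMem_Mk {z : ℂ} : z ∉ Mk ζ ω ↔ (∀ p, z ≠ ζ p) ∧ ∀ q, z ≠ ω q := by
  simp only [Mk, Set.mem_union, Set.mem_range, not_or, not_exists]
  exact ⟨fun h => ⟨fun p hp => h.1 p hp.symm, fun p hp => h.2 p hp.symm⟩,
    fun h => ⟨fun p hp => h.1 p hp.symm, fun p hp => h.2 p hp.symm⟩⟩

/-- A marked or unmarked point of `W` has a neighbourhood in `W` without other marked points. -/
theorem exists_isolated {W : Set ℂ} (hW : IsOpen W) {c : ℂ} (hc : c ∈ W) :
    ∃ R > 0, Metric.closedBall c (2 * R) ⊆ W ∧ ∀ w ∈ Mk ζ ω, w ≠ c → 2 * R ≤ ‖c - w‖ := by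
  have h1 : W ∩ (Mk ζ ω \ {c})ᶜ ∈ 𝓝 c := by
    refine (hW.inter ?_).mem_nhds ⟨hc, by simp⟩
    exact ((Mk_finite ζ ω).subset Set.sdiff_subset).isClosed.isOpen_compl
  obtain ⟨R, hR, hRs⟩ := Metric.mem_nhds_iff.1 h1
  refine ⟨R / 4, by positivity, ?_, ?_⟩
  · intro w hw
    rw [Metric.mem_closedBall] at hw
    exact (hRs (Metric.mem_ball.2 (by linarith))).1
  · intro w hw hwc
    by_contra hlt
    push Not at hlt
    have : w ∈ Metric.ball c R := by
      rw [Metric.mem_ball, dist_comm, dist_eq_norm]; linarith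
    exact (hRs this).2 ⟨hw, hwc⟩

/-- **Extension through the marked points.** -/
theorem slim_ext {l : Ultrafilter ι} {a : ι → ℝ} (ha : Tendsto a l (𝓝[>] 0)) {W : Set ℂ}
    (hW : IsOpen W) (hr : ∀ p, Tendsto (fun k => pt (a k) (r p k)) l (𝓝 (ζ p)))
    (hv : ∀ q, Tendsto (fun k => pt (a k) (v q k)) l (𝓝 (ω q)))
    {A B C E : ι → Pt → ℝ} (hrel : RelOn l a (W \ Mk ζ ω) r v A B C E) {K : ℝ}
    (hB : ∀ z ∈ W, ∀ ρ > 0, ρ ≤ 1 → Metric.closedBall z ρ ⊆ W → L2ball l a z ρ (K * √ρ) B)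
    (hC : ∀ z ∈ W, ∀ ρ > 0, ρ ≤ 1 → Metric.closedBall z ρ ⊆ W → L2ball l a z ρ (K * √ρ) C) :
    ∃ q : ℂ → ℂ, DifferentiableOn ℂ q W ∧ SLim l a (W \ Mk ζ ω) r v A B C E q := by
  classical
  obtain ⟨K₀, hK₀, hq⟩ := q_bound
  have hUo : IsOpen (W \ Mk ζ ω) := hW.sdiff (Mk_closed ζ ω)
  have l2 : ∀ X : ι → Pt → ℝ, (∀ z ∈ W, ∀ ρ > 0, ρ ≤ 1 → Metric.closedBall z ρ ⊆ W →
      L2ball l a z ρ (K * √ρ) X) → L2on l a (W \ Mk ζ ω) X := by
    intro X hX z hz
    obtain ⟨R, hR, hRW⟩ := Metric.mem_nhds_iff.1 (hW.mem_nhds hz.1)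
    refine ⟨min (R / 2) 1, by positivity, K * √(min (R / 2) 1), ?_⟩
    refine hX z hz.1 _ (by positivity) (min_le_right _ _) fun w hw => hRW ?_
    rw [Metric.mem_closedBall] at hw
    rw [Metric.mem_ball]
    have := min_le_left (R / 2) 1
    linarith
  obtain ⟨q₀, hq₀, hs⟩ := slim_exists ha hUo hr hv (fun z hz => notMem_Mk.1 hz.2) hrel
    (l2 B hB) (l2 C hC)
  set q : ℂ → ℂ := fun z => if z ∈ Mk ζ ω then limUnder (𝓝[≠] z) q₀ else q₀ z with hqdef
  have hqq : ∀ z, z ∉ Mk ζ ω → q z = q₀ z := fun z hz => if_neg hz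
  refine ⟨q, ?_, ?_⟩
  · intro z hz
    by_cases hzM : z ∈ Mk ζ ω
    · obtain ⟨R, hR, hRW, hRM⟩ := exists_isolated (ζ := ζ) (ω := ω) hW hz
      set s := Metric.ball z (min R 1) with hs1
      have hR1 : 0 < min R 1 := by positivity
      have hsn : s ∈ 𝓝 z := Metric.ball_mem_nhds z hR1
      have hsM : ∀ w ∈ s, w ≠ z → w ∈ W \ Mk ζ ω := by
        intro w hw hwz
        rw [hs1, Metric.mem_ball, dist_eq_norm] at hw
        have h1 := min_le_left R 1
        refine ⟨hRW (by rw [Metric.mem_closedBall, dist_eq_norm]; linarith), fun hwM => ?_⟩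
        have := hRM w hwM hwz
        rw [norm_sub_rev] at this
        linarith
      have hd : DifferentiableOn ℂ q₀ (s \ {z}) := hq₀.mono fun w hw => hsM w hw.1 hw.2
      -- the bound
      set P : ℂ → ℝ := fun w => (∏ p, ‖w - ζ p‖) * ∏ p, ‖w - ω p‖ with hP
      have hPc : Continuous P := by
        simp only [hP]
        exact (continuous_finsetProd _ fun _ _ => by fun_prop).mul
          (continuous_finsetProd _ fun _ _ => by fun_prop)
      have hb : ∀ w ∈ s \ {z}, ‖q₀ w * (w - z)‖ ≤ √(4 * K₀ * |K| * √(‖w - z‖ / 2) * P w) := by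
        intro w hw
        have hw1 := hw.1
        rw [hs1, Metric.mem_ball, dist_eq_norm] at hw1
        have hwz : 0 < ‖w - z‖ := norm_pos_iff.2 (sub_ne_zero.2 hw.2)
        have h1 := min_le_left R 1
        have h2 := min_le_right R 1
        set d := ‖w - z‖ / 2 with hdd
        have hd0 : 0 < d := by positivity
        have hsub : Metric.closedBall w d ⊆ W \ Mk ζ ω := by
          intro u hu
          rw [Metric.mem_closedBall, dist_eq_norm] at hu
          have h3 : ‖u - z‖ ≤ ‖u - w‖ + ‖w - z‖ := norm_sub_le_norm_sub_add_norm_sub u w z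
          refine ⟨hRW (by rw [Metric.mem_closedBall, dist_eq_norm]; linarith), fun huM => ?_⟩
          by_cases huz : u = z
          · subst huz
            rw [norm_sub_rev] at hu
            linarith
          · have := hRM u huM huz
            rw [norm_sub_rev] at this
            linarith
        have hfar : ∀ m ∈ Mk ζ ω, 2 * d ≤ ‖w - m‖ := by
          intro m hm
          by_cases hmz : m = z
          · subst hmz; linarith
          · have h3 := hRM m hm hmz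
            have h4 : ‖z - m‖ ≤ ‖z - w‖ + ‖w - m‖ := norm_sub_le_norm_sub_add_norm_sub z w m
            rw [norm_sub_rev z w] at h4
            linarith
        have h5 := hq ha hr hv hrel hs hd0 hsub (fun p => hfar _ (Or.inl ⟨p, rfl⟩))
          (fun p => hfar _ (Or.inr ⟨p, rfl⟩))
          (hB w (hsM w hw.1 hw.2).1 d hd0 (by linarith) fun u hu => (hsub hu).1)
          (hC w (hsM w hw.1 hw.2).1 d hd0 (by linarith) fun u hu => (hsub hu).1)
        have hPn : 0 ≤ P w := by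
          simp only [hP]
          exact mul_nonneg (Finset.prod_nonneg fun _ _ => norm_nonneg _)
            (Finset.prod_nonneg fun _ _ => norm_nonneg _)
        refine Real.le_sqrt_of_sq_le ?_
        rw [norm_mul, mul_pow]
        have h6 : ‖w - z‖ = 2 * d := by rw [hdd]; ring
        calc ‖q₀ w‖ ^ 2 * ‖w - z‖ ^ 2 ≤ (K₀ * (K * √d) / d ^ 2 * P w) * ‖w - z‖ ^ 2 :=
              mul_le_mul_of_nonneg_right h5 (sq_nonneg _)
          _ = 4 * K₀ * K * √d * P w := by rw [h6]; field_simp; ring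
          _ ≤ 4 * K₀ * |K| * √d * P w := by
              refine mul_le_mul_of_nonneg_right ?_ hPn
              refine mul_le_mul_of_nonneg_right ?_ (Real.sqrt_nonneg _)
              exact mul_le_mul_of_nonneg_left (le_abs_self K) (by positivity)
      have ho : (fun w => q₀ w - q₀ z) =o[𝓝[≠] z] fun w => (w - z)⁻¹ := by
        refine Asymptotics.isLittleO_of_tendsto' ?_ ?_
        · filter_upwards [self_mem_nhdsWithin] with w hw h0
          exact absurd (inv_eq_zero.1 h0) (sub_ne_zero.2 hw)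
        · have t1 : Tendsto (fun w => √(4 * K₀ * |K| * √(‖w - z‖ / 2) * P w) +
              ‖q₀ z‖ * ‖w - z‖) (𝓝[≠] z) (𝓝 0) := by
            have c1 : Continuous (fun w => √(4 * K₀ * |K| * √(‖w - z‖ / 2) * P w) +
              ‖q₀ z‖ * ‖w - z‖) := by fun_prop
            have := c1.tendsto z
            simp only [sub_self, norm_zero, zero_div, Real.sqrt_zero, mul_zero, zero_mul,
              add_zero] at this
            exact this.mono_left nhdsWithin_le_nhds
          refine squeeze_zero_norm' ?_ t1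
          filter_upwards [self_mem_nhdsWithin, nhdsWithin_le_nhds hsn] with w hw hws
          have h7 : (q₀ w - q₀ z) / (w - z)⁻¹ = q₀ w * (w - z) - q₀ z * (w - z) := by
            rw [div_inv_eq_mul]; ring
          rw [h7]
          refine (norm_sub_le _ _).trans (add_le_add (hb w ⟨hws, hw⟩) ?_)
          rw [norm_mul]
      have hmain := Complex.differentiableOn_update_limUnder_of_isLittleO hsn hd ho
      have heq : ∀ w ∈ s, q w = Function.update q₀ z (limUnder (𝓝[≠] z) q₀) w := by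
        intro w hw
        by_cases hwz : w = z
        · subst hwz
          rw [Function.update_self]
          exact if_pos hzM
        · rw [Function.update_of_ne hwz]
          exact hqq w (hsM w hw hwz).2
      have h8 := (hmain.differentiableAt hsn).congr_of_eventuallyEq
        (Filter.eventuallyEq_of_mem hsn heq)
      exact h8.differentiableWithinAt
    · have h1 : W \ Mk ζ ω ∈ 𝓝 z := hUo.mem_nhds ⟨hz, hzM⟩
      have h2 := (hq₀.differentiableAt h1).congr_of_eventuallyEq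
        (Filter.eventuallyEq_of_mem h1 fun w hw => hqq w hw.2)
      exact h2.differentiableWithinAt
  · refine ⟨fun z hz => ?_, fun z hz => ?_, fun z hz => ?_, fun z hz => ?_⟩
    · rw [hqq z hz.2]; exact hs.A z hz
    · rw [hqq z hz.2]; exact hs.B z hz
    · rw [hqq z hz.2]; exact hs.C z hz
    · rw [hqq z hz.2]; exact hs.E z hz

end ext

end Vale.Agent.P144.H170
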