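import Vale.Agent.P144.H170.SideLim

/-!
Limits of spinors in the diamond, up to the boundary.
-/

namespace Vale.Agent.P144.H170

open Filter Topology Complex

/-- The relations in a face of a domain with the set `m` of sites, with signs `t`, `th`. -/
structure SRel (m : ℤ → ℤ → Prop) (t th A B C E : Pt → ℝ) (i j : ℤ) : Prop where
  V : m i (j + 1) → m (i + 1) (j + 1) →
    C (i, j) = √2 * A (i, j + 1) - t (i, j) * B (i, j + 1) ∧
    E (i, j) = √2 * B (i, j + 1) - t (i, j) * A (i, j + 1)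
  V0 : ¬ (m i (j + 1) ∧ m (i + 1) (j + 1)) → C (i, j) = A (i, j + 1) ∧ E (i, j) = B (i, j + 1)
  H : m (i + 1) j → m (i + 1) (j + 1) →
    B (i, j) = th (i, j) * (√2 * A (i + 1, j) - C (i + 1, j)) ∧
    E (i, j) = -(th (i, j) * (√2 * C (i + 1, j) - A (i + 1, j)))
  H0 : ¬ (m (i + 1) j ∧ m (i + 1) (j + 1)) →
    B (i, j) = th (i, j) * A (i + 1, j) ∧ E (i, j) = -(th (i, j) * C (i + 1, j))
  zA : ¬ m i j → A (i, j) = 0
  zB : ¬ m (i + 1) j → B (i, j) = 0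
  zC : ¬ m i (j + 1) → C (i, j) = 0
  zE : ¬ m (i + 1) (j + 1) → E (i, j) = 0

theorem SRel.of_spr {Λ : Finset Site} {t th A B C E : Pt → ℝ} (h : AL.Spr Λ t th A B C E)
    (i j : ℤ) : SRel (fun x y => (x, y) ∈ Λ) t th A B C E i j where
  V := fun a b => h.V i j (mem_hor.2 ⟨a, b⟩)
  V0 := fun a => h.V0 i j fun b => a (mem_hor.1 b)
  H := fun a b => h.H i j (mem_ver.2 ⟨a, b⟩)
  H0 := fun a => h.H0 i j fun b => a (mem_ver.1 b)
  zA := h.zA i j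
  zB := h.zB i j
  zC := h.zC i j
  zE := h.zD i j

/-- Scaling of the relations. -/
theorem SRel.smul {m : ℤ → ℤ → Prop} {t th A B C E : Pt → ℝ} {i j : ℤ}
    (h : SRel m t th A B C E i j) (c : ℝ) :
    SRel m t th (fun x => c * A x) (fun x => c * B x) (fun x => c * C x) (fun x => c * E x) i j where
  V := fun a b => by
    have := h.V a b
    rw [this.1, this.2]; exact ⟨by ring, by ring⟩
  V0 := fun a => by
    have := h.V0 a
    rw [this.1, this.2]; exact ⟨rfl, rfl⟩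
  H := fun a b => by
    have := h.H a b
    rw [this.1, this.2]; exact ⟨by ring, by ring⟩
  H0 := fun a => by
    have := h.H0 a
    rw [this.1, this.2]; exact ⟨by ring, by ring⟩
  zA := fun a => by rw [h.zA a, mul_zero]
  zB := fun a => by rw [h.zB a, mul_zero]
  zC := fun a => by rw [h.zC a, mul_zero]
  zE := fun a => by rw [h.zE a, mul_zero]

/-- Gauge transformation of the relations. -/
theorem SRel.gauge {m : ℤ → ℤ → Prop} {t th A B C E : Pt → ℝ} {i j : ℤ}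
    (h : SRel m t th A B C E i j) {G : ℝ → ℝ} (hG : ∀ x, G x * G x = 1)
    (h1 : t (i, j) = G ((i:ℝ) + 1 / 4) * G ((i:ℝ) + 3 / 4))
    (h2 : th (i, j) = G ((i:ℝ) + 3 / 4) * G ((i:ℝ) + 5 / 4)) :
    BR m (fun x => G ((x.1:ℝ) + 1 / 4) * A x) (fun x => G ((x.1:ℝ) + 3 / 4) * B x)
      (fun x => G ((x.1:ℝ) + 1 / 4) * C x) (fun x => G ((x.1:ℝ) + 3 / 4) * E x) i j := by
  have e5 : ((i + 1 : ℤ) : ℝ) + 1 / 4 = (i:ℝ) + 5 / 4 := by push_cast; ring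
  have g1 := hG ((i:ℝ) + 1 / 4)
  have g3 := hG ((i:ℝ) + 3 / 4)
  constructor
  · intro a b
    have := h.V a b
    simp only
    rw [this.1, this.2, h1]
    constructor
    · linear_combination (-G ((i:ℝ) + 3 / 4) * B (i, j + 1)) * g1
    · linear_combination (-G ((i:ℝ) + 1 / 4) * A (i, j + 1)) * g3
  · intro a
    have := h.V0 a
    simp only
    rw [this.1, this.2]; exact ⟨rfl, rfl⟩
  · intro a b
    have := h.H a b
    simp only
    rw [this.1, this.2, h2, e5]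
    constructor
    · linear_combination (G ((i:ℝ) + 5 / 4) * (√2 * A (i + 1, j) - C (i + 1, j))) * g3
    · linear_combination (-G ((i:ℝ) + 5 / 4) * (√2 * C (i + 1, j) - A (i + 1, j))) * g3
  · intro a
    have := h.H0 a
    simp only
    rw [this.1, this.2, h2, e5]
    constructor
    · linear_combination (G ((i:ℝ) + 5 / 4) * A (i + 1, j)) * g3
    · linear_combination (-G ((i:ℝ) + 5 / 4) * C (i + 1, j)) * g3
  · intro a; simp only; rw [h.zA a, mul_zero]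
  · intro a; simp only; rw [h.zB a, mul_zero]
  · intro a; simp only; rw [h.zC a, mul_zero]
  · intro a; simp only; rw [h.zE a, mul_zero]

section data

variable {ι κ κ' : Type*} [Fintype κ] [Fintype κ'] {r : κ → ι → Site} {v : κ' → ι → Site}
  {ζ : κ → ℂ} {ω : κ' → ℂ} {l : Filter ι} {a : ι → ℝ} {N : ι → ℕ} {A B C E : ι → Pt → ℝ}

/-- The relations of the diamond hold locally eventually in `W` (`W` may contain boundary points
of the diamond). -/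
def RelB (l : Filter ι) (a : ι → ℝ) (N : ι → ℕ) (W : Set ℂ) (r : κ → ι → Site)
    (v : κ' → ι → Site) (A B C E : ι → Pt → ℝ) : Prop :=
  ∀ z ∈ W, ∀ᶠ kx in nf l a z, SRel (fun x y => (x, y) ∈ dia (N kx.1)) (tauF fun p => r p kx.1)
    (theF fun q => v q kx.1) (A kx.1) (B kx.1) (C kx.1) (E kx.1) kx.2.1 kx.2.2

/-- Near a point of the diamond all sites are in `dia N`. -/
theorem near_dia (ha : Tendsto a l (𝓝[>] 0)) (hN : Tendsto (fun k => a k * ((N k : ℝ) + 1)) l (𝓝 1))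
    {z : ℂ} (hz : z ∈ Dia) (m : ℕ) : ∀ᶠ kx in nf l a z, ∀ y : Pt, |y.1 - kx.2.1| ≤ m →
      |y.2 - kx.2.2| ≤ m → y ∈ dia (N kx.1) := by
  refine ev_near ha (P := fun k y => y ∈ dia (N k)) ?_ m
  have t1 := (continuous_re.tendsto z).comp (tendsto_pt_nf (l := l) (a := a) z)
  have t2 := (continuous_im.tendsto z).comp (tendsto_pt_nf (l := l) (a := a) z)
  have t3 := hN.comp (tendsto_fst_nf (l := l) (a := a) z)
  have hz' : |z.re| + |z.im| < 1 := hz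
  filter_upwards [(t1.abs.add t2.abs).eventually_lt t3 hz', apos_nf ha z] with kx g1 g2
  rw [AL.mem_dia]
  simp only [Function.comp_apply, pt] at g1
  rw [abs_mul, abs_mul, abs_of_pos g2, ← mul_add] at g1
  have g3 : |(kx.2.1:ℝ)| + |(kx.2.2:ℝ)| < (N kx.1 : ℝ) + 1 := lt_of_mul_lt_mul_left g1 g2.le
  have g4 : ((|kx.2.1| + |kx.2.2| : ℤ) : ℝ) < ((N kx.1 + 1 : ℤ) : ℝ) := by push_cast; exact g3
  have g5 : |kx.2.1| + |kx.2.2| < (N kx.1 : ℤ) + 1 := by exact_mod_cast g4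
  lia

theorem RelB.relOn (ha : Tendsto a l (𝓝[>] 0))
    (hN : Tendsto (fun k => a k * ((N k : ℝ) + 1)) l (𝓝 1)) {W : Set ℂ}
    (h : RelB l a N W r v A B C E) : RelOn l a (W ∩ Dia) r v A B C E := by
  intro z hz
  filter_upwards [h z hz.1, near_dia ha hN hz.2 1] with kx g1 g2
  obtain ⟨k, x, y⟩ := kx
  simp only at g1 g2
  have m1 := g2 (x, y + 1) (by simp) (by simp)
  have m2 := g2 (x + 1, y + 1) (by simp) (by simp)
  have m3 := g2 (x + 1, y) (by simp) (by simp)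
  have k1 := g1.V m1 m2
  have k2 := g1.H m3 m2
  unfold Rel
  simp only [Prod.mk_add_mk, add_zero]
  exact ⟨k1.1, k1.2, k2.1, k2.2⟩

theorem RelB.brn (ha : Tendsto a l (𝓝[>] 0))
    (hr : ∀ p, Tendsto (fun k => pt (a k) (r p k)) l (𝓝 (ζ p)))
    (hv : ∀ q, Tendsto (fun k => pt (a k) (v q k)) l (𝓝 (ω q))) {W : Set ℂ}
    (h : RelB l a N W r v A B C E) {S : κ → Prop} {S' : κ' → Prop} {p : ℂ} (hp : p ∈ W)
    (hS : p ∈ VS S S' ζ ω) :
    BRn l a N (fun k x => gs S S' (fun p => r p k) (fun q => v q k) ((x.1:ℝ) + 1 / 4) * A k x)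
      (fun k x => gs S S' (fun p => r p k) (fun q => v q k) ((x.1:ℝ) + 3 / 4) * B k x)
      (fun k x => gs S S' (fun p => r p k) (fun q => v q k) ((x.1:ℝ) + 1 / 4) * C k x)
      (fun k x => gs S S' (fun p => r p k) (fun q => v q k) ((x.1:ℝ) + 3 / 4) * E k x) p := by
  filter_upwards [h p hp, gauge_signs ha hr hv hS] with kx g1 g2
  have g3 := SRel.gauge g1 (G := gs S S' (fun p => r p kx.1) (fun q => v q kx.1))
    (fun x => gs_sq _ _ _ _ _) g2.1 g2.2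
  refine g3.congr ?_ ?_ ?_ ?_ <;> exact AL.mem_dia

/-- The square of the limit spinor. -/
noncomputable def F2 (ζ : κ → ℂ) (ω : κ' → ℂ) (q : ℂ → ℂ) (z : ℂ) : ℂ := q z ^ 2 / PP ζ ω z

theorem ph_F2 (f : ℂ) : phA f ^ 2 = (‖f ^ 2‖ + (f ^ 2).re) / 2 ∧
    phE f ^ 2 = (‖f ^ 2‖ - (f ^ 2).re) / 2 ∧ phB f ^ 2 = (‖f ^ 2‖ - (f ^ 2).im) / 2 ∧
    phC f ^ 2 = (‖f ^ 2‖ + (f ^ 2).im) / 2 := by
  have h1 : ‖f ^ 2‖ = f.re ^ 2 + f.im ^ 2 := by
    rw [norm_pow, ← normSq_eq_norm_sq, normSq_apply]; ring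
  have h2 : √2 ^ 2 = 2 := Real.sq_sqrt (by norm_num)
  have h3 : (f ^ 2).re = f.re ^ 2 - f.im ^ 2 := by rw [pow_two, mul_re]; ring
  have h4 : (f ^ 2).im = 2 * f.re * f.im := by rw [pow_two, mul_im]; ring
  rw [phA_apply, phB_apply, phC_apply, phE_apply, div_pow, div_pow, h2, h1, h3, h4]
  refine ⟨by ring, by ring, by ring, by ring⟩

theorem F2_eq {S : κ → Prop} {S' : κ' → Prop} (q : ℂ → ℂ) (z : ℂ) :
    (q z / RS S S' ζ ω z) ^ 2 = F2 ζ ω q z := by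
  unfold F2 PP
  rw [div_pow, pow_two (RS S S' ζ ω z), RS_sq]

theorem sq_of_abs_le {x L y : ℝ} (h : |x| ≤ L * y) : x ^ 2 ≤ L ^ 2 * y ^ 2 := by
  rw [← sq_abs, ← mul_pow]
  exact pow_le_pow_left₀ (abs_nonneg _) h 2

section U2

variable (ha : Tendsto a l (𝓝[>] 0)) [NeBot l]
    (hN : Tendsto (fun k => a k * ((N k : ℝ) + 1)) l (𝓝 1))
    (hr : ∀ p, Tendsto (fun k => pt (a k) (r p k)) l (𝓝 (ζ p)))
    (hv : ∀ q, Tendsto (fun k => pt (a k) (v q k)) l (𝓝 (ω q)))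
    {W : Set ℂ} (hW : IsOpen W) (h : RelB l a N W r v A B C E) {q : ℂ → ℂ}
    (hs : SLim l a ((W ∩ Dia) \ Mk ζ ω) r v A B C E q) {p : ℂ} (hp : p ∈ W) (hpM : p ∉ Mk ζ ω)

include ha hN hr hv hW h hs hp hpM

theorem bdNE (h1 : 0 < p.re) (h2 : 0 < p.im) (h3 : p.re + p.im = 1)
    (hl : ∃ r > 0, ∃ M, L2ball l a p r M E) : ∃ r > 0, ∃ L, ∀ z ∈ Dia, ‖z - p‖ < r →
      ‖F2 ζ ω q z‖ - (F2 ζ ω q z).re ≤ L * (1 - z.re - z.im) ^ 2 := by
  obtain ⟨S, S', hS⟩ := exists_pattern (notMem_Mk.1 hpM).1 (notMem_Mk.1 hpM).2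
  obtain ⟨ρ, hρ, M, hM⟩ := hl
  obtain ⟨s, hs0, L, hL, hmain⟩ := U2_NE ha hN h1 h2 h3 (h.brn ha hr hv hp hS)
    ⟨ρ, hρ, M, by
      filter_upwards [hM] with k g1 T hT
      refine le_trans (le_of_eq ?_) (g1 T hT)
      congr 1
      refine Finset.sum_congr rfl fun x _ => ?_
      rw [mul_pow, pow_two (gs _ _ _ _ _), gs_sq, one_mul]⟩
  obtain ⟨t, ht, hts⟩ := Metric.mem_nhds_iff.1 (((hW.sdiff (Mk_closed ζ ω)).inter
    (VS_open S S' ζ ω)).mem_nhds ⟨⟨hp, hpM⟩, hS⟩)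
  refine ⟨min s t, by positivity, 2 * L ^ 2, fun z hz hzp => ?_⟩
  have hz1 := hts (Metric.mem_ball.2 ((dist_eq_norm z p).trans_lt (hzp.trans_le (min_le_right _ _))))
  have hzD : |z.re| + |z.im| < 1 := hz
  have hlim := of_xlim ha hr hv hz1.2 (Or.inr rfl) _ _ (hs.E z ⟨⟨hz1.1.1, hz⟩, hz1.1.2⟩)
  have h4 := hmain z (hzp.trans_le (min_le_left _ _))
    (by linarith [le_abs_self z.re, le_abs_self z.im]) _ hlim
  have h5 := (ph_F2 (q z / RS S S' ζ ω z)).2.1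
  rw [F2_eq] at h5
  have h6 := sq_of_abs_le h4
  rw [h5] at h6
  linarith

theorem bdNW (h1 : p.re < 0) (h2 : 0 < p.im) (h3 : -p.re + p.im = 1)
    (hl : ∃ r > 0, ∃ M, L2ball l a p r M C) : ∃ r > 0, ∃ L, ∀ z ∈ Dia, ‖z - p‖ < r →
      ‖F2 ζ ω q z‖ + (F2 ζ ω q z).im ≤ L * (1 + z.re - z.im) ^ 2 := by
  obtain ⟨S, S', hS⟩ := exists_pattern (notMem_Mk.1 hpM).1 (notMem_Mk.1 hpM).2
  obtain ⟨ρ, hρ, M, hM⟩ := hl
  obtain ⟨s, hs0, L, hL, hmain⟩ := U2_NW ha hN h1 h2 h3 (h.brn ha hr hv hp hS)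
    ⟨ρ, hρ, M, by
      filter_upwards [hM] with k g1 T hT
      refine le_trans (le_of_eq ?_) (g1 T hT)
      congr 1
      refine Finset.sum_congr rfl fun x _ => ?_
      rw [mul_pow, pow_two (gs _ _ _ _ _), gs_sq, one_mul]⟩
  obtain ⟨t, ht, hts⟩ := Metric.mem_nhds_iff.1 (((hW.sdiff (Mk_closed ζ ω)).inter
    (VS_open S S' ζ ω)).mem_nhds ⟨⟨hp, hpM⟩, hS⟩)
  refine ⟨min s t, by positivity, 2 * L ^ 2, fun z hz hzp => ?_⟩
  have hz1 := hts (Metric.mem_ball.2 ((dist_eq_norm z p).trans_lt (hzp.trans_le (min_le_right _ _))))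
  have hzD : |z.re| + |z.im| < 1 := hz
  have hlim := of_xlim ha hr hv hz1.2 (Or.inl rfl) _ _ (hs.C z ⟨⟨hz1.1.1, hz⟩, hz1.1.2⟩)
  have h4 := hmain z (hzp.trans_le (min_le_left _ _))
    (by linarith [neg_abs_le z.re, le_abs_self z.im]) _ hlim
  have h5 := (ph_F2 (q z / RS S S' ζ ω z)).2.2.2
  rw [F2_eq] at h5
  have h6 := sq_of_abs_le h4
  rw [h5] at h6
  linarith

theorem bdSW (h1 : p.re < 0) (h2 : p.im < 0) (h3 : -p.re - p.im = 1)
    (hl : ∃ r > 0, ∃ M, L2ball l a p r M A) : ∃ r > 0, ∃ L, ∀ z ∈ Dia, ‖z - p‖ < r →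
      ‖F2 ζ ω q z‖ + (F2 ζ ω q z).re ≤ L * (1 + z.re + z.im) ^ 2 := by
  obtain ⟨S, S', hS⟩ := exists_pattern (notMem_Mk.1 hpM).1 (notMem_Mk.1 hpM).2
  obtain ⟨ρ, hρ, M, hM⟩ := hl
  obtain ⟨s, hs0, L, hL, hmain⟩ := U2_SW ha hN h1 h2 h3 (h.brn ha hr hv hp hS)
    ⟨ρ, hρ, M, by
      filter_upwards [hM] with k g1 T hT
      refine le_trans (le_of_eq ?_) (g1 T hT)
      congr 1
      refine Finset.sum_congr rfl fun x _ => ?_
      rw [mul_pow, pow_two (gs _ _ _ _ _), gs_sq, one_mul]⟩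
  obtain ⟨t, ht, hts⟩ := Metric.mem_nhds_iff.1 (((hW.sdiff (Mk_closed ζ ω)).inter
    (VS_open S S' ζ ω)).mem_nhds ⟨⟨hp, hpM⟩, hS⟩)
  refine ⟨min s t, by positivity, 2 * L ^ 2, fun z hz hzp => ?_⟩
  have hz1 := hts (Metric.mem_ball.2 ((dist_eq_norm z p).trans_lt (hzp.trans_le (min_le_right _ _))))
  have hzD : |z.re| + |z.im| < 1 := hz
  have hlim := of_xlim ha hr hv hz1.2 (Or.inl rfl) _ _ (hs.A z ⟨⟨hz1.1.1, hz⟩, hz1.1.2⟩)
  have h4 := hmain z (hzp.trans_le (min_le_left _ _))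
    (by linarith [neg_abs_le z.re, neg_abs_le z.im]) _ hlim
  have h5 := (ph_F2 (q z / RS S S' ζ ω z)).1
  rw [F2_eq] at h5
  have h6 := sq_of_abs_le h4
  rw [h5] at h6
  linarith

theorem bdSE (h1 : 0 < p.re) (h2 : p.im < 0) (h3 : p.re - p.im = 1)
    (hl : ∃ r > 0, ∃ M, L2ball l a p r M B) : ∃ r > 0, ∃ L, ∀ z ∈ Dia, ‖z - p‖ < r →
      ‖F2 ζ ω q z‖ - (F2 ζ ω q z).im ≤ L * (1 - z.re + z.im) ^ 2 := by
  obtain ⟨S, S', hS⟩ := exists_pattern (notMem_Mk.1 hpM).1 (notMem_Mk.1 hpM).2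
  obtain ⟨ρ, hρ, M, hM⟩ := hl
  obtain ⟨s, hs0, L, hL, hmain⟩ := U2_SE ha hN h1 h2 h3 (h.brn ha hr hv hp hS)
    ⟨ρ, hρ, M, by
      filter_upwards [hM] with k g1 T hT
      refine le_trans (le_of_eq ?_) (g1 T hT)
      congr 1
      refine Finset.sum_congr rfl fun x _ => ?_
      rw [mul_pow, pow_two (gs _ _ _ _ _), gs_sq, one_mul]⟩
  obtain ⟨t, ht, hts⟩ := Metric.mem_nhds_iff.1 (((hW.sdiff (Mk_closed ζ ω)).inter
    (VS_open S S' ζ ω)).mem_nhds ⟨⟨hp, hpM⟩, hS⟩)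
  refine ⟨min s t, by positivity, 2 * L ^ 2, fun z hz hzp => ?_⟩
  have hz1 := hts (Metric.mem_ball.2 ((dist_eq_norm z p).trans_lt (hzp.trans_le (min_le_right _ _))))
  have hzD : |z.re| + |z.im| < 1 := hz
  have hlim := of_xlim ha hr hv hz1.2 (Or.inr rfl) _ _ (hs.B z ⟨⟨hz1.1.1, hz⟩, hz1.1.2⟩)
  have h4 := hmain z (hzp.trans_le (min_le_left _ _))
    (by linarith [le_abs_self z.re, neg_abs_le z.im]) _ hlim
  have h5 := (ph_F2 (q z / RS S S' ζ ω z)).2.2.1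
  rw [F2_eq] at h5
  have h6 := sq_of_abs_le h4
  rw [h5] at h6
  linarith

end U2

end data

end Vale.Agent.P144.H170
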