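import Vale.Agent.P144.H170.Tip2

/-!
The limit of the spinor with one inserted spin: normalisation, values at the disorders, uniqueness.
-/

namespace Vale.Agent.P144.H170

open Filter Topology Complex Metric

theorem real_of_sq {z : ℂ} (h1 : (z ^ 2).im = 0) (h2 : 0 ≤ (z ^ 2).re) : z.im = 0 := by
  rw [pow_two, mul_im] at h1
  rw [pow_two, mul_re] at h2
  by_contra hne
  have hre : z.re = 0 := by
    have : z.re * z.im = 0 := by linarith
    exact (mul_eq_zero.1 this).resolve_right hne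
  rw [hre] at h2
  have := mul_self_pos.2 hne
  linarith

theorem eq_re {z : ℂ} (h : z.im = 0) : z = (z.re : ℂ) := by
  apply Complex.ext
  · simp
  · rw [h, ofReal_im]

theorem tendsto_self {ι : Type*} {l : Filter ι} {a : ι → ℝ} {b : ι → Site} {c : ℂ}
    (hb : Tendsto (fun k => pt (a k) (b k)) l (𝓝 c)) :
    Tendsto (fun k => (k, b k)) l (nf l a c) := by
  unfold nf
  rw [tendsto_inf]
  refine ⟨tendsto_id.prodMk tendsto_top, ?_⟩
  rw [tendsto_comap_iff]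
  exact hb

section sol

variable {κ : Type*} [Fintype κ]

/-- The limits of the spinors with one inserted spin at `ω`. -/
structure Sol (ζ : κ → ℂ) (ω : ℂ) (q : ℂ → ℂ) : Prop where
  diff : DifferentiableOn ℂ q Dia
  bd : H365.BdC (F2 ζ (fun _ : Unit => ω) q)
  res : ∀ p, H365.ResNN ζ (fun _ : Unit => ω) q (ζ p)
  src : (Real.pi / 2 : ℂ) * (1 - I) * q ω ^ 2 = ∏ p, (ω - ζ p)

variable {ζ : κ → ℂ} {ω : ℂ}

theorem F2_neg {κ' : Type*} [Fintype κ'] (ζ : κ → ℂ) (ω : κ' → ℂ) (q : ℂ → ℂ) :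
    F2 ζ ω (fun z => -q z) = F2 ζ ω q := by
  funext z; unfold F2; rw [neg_sq]

theorem gq_neg {κ' : Type*} [Fintype κ'] (ζ : κ → ℂ) (ω : κ' → ℂ) (q : ℂ → ℂ) :
    gq ζ ω (fun z => -q z) = gq ζ ω q := by
  funext z; unfold gq; rw [neg_sq]

theorem one_sub_I_ne : (1 - I : ℂ) ≠ 0 := by
  intro h
  have := congrArg re h
  simp at this

/-- The solution is unique up to the sign. -/
theorem sol_unique (hζ : ∀ p, ζ p ∈ Dia) (hω : ω ∈ Dia) (hinj : Function.Injective ζ)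
    (hne : ∀ p, ζ p ≠ ω) {q1 q2 : ℂ → ℂ} (h1 : Sol ζ ω q1) (h2 : Sol ζ ω q2) :
    (∀ z ∈ Dia, q1 z = q2 z) ∨ ∀ z ∈ Dia, q1 z = -q2 z := by
  have hinj' : Function.Injective (Sum.elim ζ fun _ : Unit => ω) := by
    rintro (x | x) (y | y) h
    · exact congrArg Sum.inl (hinj h)
    · exact absurd h (hne x)
    · exact absurd h.symm (hne y)
    · rfl
  have hsq : q1 ω ^ 2 = q2 ω ^ 2 := by
    have h := h1.src.trans h2.src.symm
    refine mul_left_cancel₀ (mul_ne_zero ?_ one_sub_I_ne) h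
    have : (Real.pi : ℂ) ≠ 0 := by exact_mod_cast Real.pi_ne_zero
    exact div_ne_zero this two_ne_zero
  rcases sq_eq_sq_iff_eq_or_eq_neg.1 hsq with h | h
  · left
    exact H365.cont_unique hζ (fun _ => hω) hinj' h1.diff h2.diff h1.bd h2.bd h1.res h2.res
      fun _ => h
  · right
    refine H365.cont_unique (q2 := fun z => -q2 z) hζ (fun _ => hω) hinj' h1.diff h2.diff.neg h1.bd
      ?_ h1.res (fun p => ?_) fun _ => h
    · rw [F2_neg]; exact h2.bd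
    · obtain ⟨c, hc, hl⟩ := h2.res p
      exact ⟨c, hc, by rw [gq_neg]; exact hl⟩

end sol

section res

variable {ι κ κ' : Type*} [Fintype κ] [Fintype κ'] {l : Filter ι} {a : ι → ℝ}
  {r : κ → ι → Site} {v : κ' → ι → Site} {ζ : κ → ℂ} {ω : κ' → ℂ}
  {A B C E Hs Hf : ι → Pt → ℝ} {q : ℂ → ℂ} {h : ℂ → ℝ}

theorem GLim.bdc (hG : GLim l a r v ζ ω A B C E Hs Hf q h) : H365.BdC (F2 ζ ω q) where
  bdd := by
    obtain ⟨ε, hε, M, hM⟩ := hG.U1
    exact ⟨ε, hε, M, fun z hz hz' => hM z hz hz'⟩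
  NE := hG.NE
  NW := hG.NW
  SW := hG.SW
  SE := hG.SE

theorem PZ_cont (p : κ) : Continuous (PZ ζ ω p) := by
  unfold PZ
  fun_prop

theorem PZ_ne {p : κ} (h1 : ∀ p' ≠ p, ζ p' ≠ ζ p) (h2 : ∀ q, ω q ≠ ζ p) : PZ ζ ω p (ζ p) ≠ 0 := by
  classical
  unfold PZ
  refine mul_ne_zero (Finset.prod_ne_zero_iff.2 fun p' hp' => sub_ne_zero.2 fun h => ?_)
    (Finset.prod_ne_zero_iff.2 fun p' _ => sub_ne_zero.2 fun h => h2 p' h.symm)
  exact h1 p' (Finset.mem_erase.1 hp').1 h.symm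

theorem GLim.resNN (hζ : ∀ p, ζ p ∈ Dia) (hG : GLim l a r v ζ ω A B C E Hs Hf q h) {p : κ}
    (h1 : ∀ p' ≠ p, ζ p' ≠ ζ p) (h2 : ∀ q, ω q ≠ ζ p) : H365.ResNN ζ ω q (ζ p) := by
  obtain ⟨k1, k2⟩ := hG.resZ p h1 h2
  refine ⟨_, k2, ?_⟩
  rw [← eq_re k1]
  have hc : ContinuousAt q (ζ p) :=
    (hG.diff.differentiableAt (Dia_open'.mem_nhds (hζ p))).continuousAt
  have h3 : ContinuousAt (fun z => (⟨-1 / 2, 1 / 2⟩ : ℂ) * (q z ^ 2 / PZ ζ ω p z)) (ζ p) :=
    continuousAt_const.mul ((hc.pow 2).div (PZ_cont p).continuousAt (PZ_ne h1 h2))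
  refine (h3.tendsto.mono_left nhdsWithin_le_nhds).congr' ?_
  filter_upwards [self_mem_nhdsWithin] with z hz
  have hz' : z - ζ p ≠ 0 := sub_ne_zero.2 hz
  unfold gq
  rw [PP_eqZ p]
  by_cases hp : PZ ζ ω p z = 0
  · rw [hp]; simp
  · field_simp

end res

section pack

variable {ι κ : Type*} [Fintype κ] [DecidableEq κ]

/-- The spinor with one inserted spin converges. -/
structure Pack (l : Filter ι) (a : ι → ℝ) (N : ι → ℕ) (r : κ → ι → Site) (v : ι → Site)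
    (ζ : κ → ℂ) (ω : ℂ) (q : ℂ → ℂ) : Prop where
  sol : Sol ζ ω q
  slim : SLim l a (Dia \ Mk ζ fun _ : Unit => ω) r (fun _ : Unit => v)
    (fun k x => (√(a k))⁻¹ * jA (N k) (fun p => r p k) (v k) x)
    (fun k x => (√(a k))⁻¹ * jB (N k) (fun p => r p k) (v k) x)
    (fun k x => (√(a k))⁻¹ * jC (N k) (fun p => r p k) (v k) x)
    (fun k x => (√(a k))⁻¹ * jD (N k) (fun p => r p k) (v k) x) q
  src : Tendsto (fun k => ∏ p, rtu (pos (a k) (v k) (1 / 4) (1 / 4) - cF (a k) (r p k))) l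
    (𝓝 ((√(2 * Real.pi) / 2 : ℝ) * (H365.c0 * q ω)))
  disA : ∀ p, Tendsto (fun k => (∏ p' : {p' // p' ≠ p},
      rtu (pos (a k) (r p k) (1 / 4) (1 / 4) - cF (a k) (r p' k))) *
      rtd (pos (a k) (r p k) (1 / 4) (1 / 4) - pt (a k) (v k)) *
      (jA (N k) (fun p => r p k) (v k) (r p k) : ℂ)) l
    (𝓝 ((√(2 * Real.pi) / 2 : ℝ) * (H365.c0 * (I * q (ζ p)))))
  disE : ∀ p, Tendsto (fun k => (∏ p' : {p' // p' ≠ p},
      rtu (pos (a k) (r p k) (3 / 4) (3 / 4) - cF (a k) (r p' k))) *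
      rtd (pos (a k) (r p k) (3 / 4) (3 / 4) - pt (a k) (v k)) *
      (jD (N k) (fun p => r p k) (v k) (r p k) : ℂ)) l
    (𝓝 ((√(2 * Real.pi) / 2 : ℝ) * (H365.c0 * (I * q (ζ p)))))
  T5 : Tendsto (fun k => (a k)⁻¹ * (jD (N k) (fun p => r p k) (v k) (v k - (1, 1)) - 1)) l
    (𝓝 (-(Real.pi / 4) * (deriv (fun z => q z ^ 2 / ∏ p, (z - ζ p)) ω).re))

variable {a : ι → ℝ} {N : ι → ℕ} {r : κ → ι → Site} {v : ι → Site} {ζ : κ → ℂ} {ω : ℂ}

omit [DecidableEq κ] in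
theorem spr_jX {r : κ → Site} {v : Site} {N : ℕ} (h : |v.1| + |v.2| + 1 ≤ (N : ℤ)) :
    AL.Spr (dia N) (tauF r) (theF fun _ : Unit => v) (jA N r v) (jB N r v) (jC N r v)
      (jD N r v) := by
  have h1 := AL.spr_QQ (Λ := dia N) (rM r) (A := {v}) (by
    intro x hx
    rw [Multiset.mem_singleton] at hx
    subst hx
    rw [AL.mem_dia]
    lia) (AL.zj (dia N) (rM r) v)
  rw [tauR_rM, theA_single] at h1
  exact h1

omit [DecidableEq κ] in
theorem relOn_jX {l : Filter ι} (ha : Tendsto a l (𝓝[>] 0))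
    (hN : Tendsto (fun k => a k * ((N k : ℝ) + 1)) l (𝓝 1))
    (hv : Tendsto (fun k => pt (a k) (v k)) l (𝓝 ω)) (hω : ω ∈ Dia) :
    RelOn l a Dia r (fun _ : Unit => v) (fun k => jA (N k) (fun p => r p k) (v k))
      (fun k => jB (N k) (fun p => r p k) (v k)) (fun k => jC (N k) (fun p => r p k) (v k))
      (fun k => jD (N k) (fun p => r p k) (v k)) := by
  have d1 := deep_ev ha hN hω hv 1
  have hS : RelB l a N Set.univ r (fun _ : Unit => v) (fun k => jA (N k) (fun p => r p k) (v k))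
      (fun k => jB (N k) (fun p => r p k) (v k)) (fun k => jC (N k) (fun p => r p k) (v k))
      (fun k => jD (N k) (fun p => r p k) (v k)) := by
    intro z _
    filter_upwards [ev_nf_of (l := l) (a := a) (z := z) d1] with kx hk
    exact SRel.of_spr (spr_jX hk) _ _
  have h1 := hS.relOn ha hN
  rwa [Set.univ_inter] at h1

omit [Fintype κ] [DecidableEq κ] in
/-- Sites with different limits are different, also up to a fixed displacement. -/
theorem ev_ne_add {l : Filter ι} (ha : Tendsto a l (𝓝[>] 0)) {x y : ι → Site} {z w : ℂ}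
    (hx : Tendsto (fun k => pt (a k) (x k)) l (𝓝 z)) (hy : Tendsto (fun k => pt (a k) (y k)) l (𝓝 w))
    (h : z ≠ w) (e : Site) : ∀ᶠ k in l, x k ≠ y k + e := by
  have h1 : Tendsto (fun k => ((a k : ℝ) : ℂ)) l (𝓝 0) := by
    have := (continuous_ofReal.tendsto 0).comp (ha.mono_right nhdsWithin_le_nhds)
    rw [ofReal_zero] at this
    exact this
  have h2 := (hx.sub hy).sub (h1.mul_const (⟨e.1, e.2⟩ : ℂ))
  rw [zero_mul, sub_zero] at h2
  filter_upwards [h2.eventually_ne (sub_ne_zero.2 h)] with k hk hc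
  apply hk
  rw [hc]
  apply Complex.ext <;> simp [pt] <;> ring

omit [DecidableEq κ] in
theorem real_src {κ' : Type*} [Fintype κ'] [DecidableEq κ'] {ζ : κ → ℂ} {ω : κ' → ℂ} {q : ℂ → ℂ}
    {q0 : κ'} {S : κ → Prop} {S' : {q // q ≠ q0} → Prop}
    (h : ((⟨-1 / 2, 1 / 2⟩ : ℂ) * (q (ω q0) ^ 2 / PO ζ ω q0 (ω q0))).im = 0 ∧
    ((⟨-1 / 2, 1 / 2⟩ : ℂ) * (q (ω q0) ^ 2 / PO ζ ω q0 (ω q0))).re ≤ 0) :
    (H365.c0 * gloc (ζ := ζ) (ω := ω) q0 S S' q 0).im = 0 := by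
  have e1 : RS S S' ζ (fun q => ω q) (ω q0) ^ 2 = PO ζ ω q0 (ω q0) := by
    rw [pow_two, RS_sq]
    unfold PO
    congr 1
    exact (Finset.prod_subtype (M := ℂ) _ (fun x => by simp) (fun q => ω q0 - ω q)).symm
  have e2 : (H365.c0 * gloc (ζ := ζ) (ω := ω) q0 S S' q 0) ^ 2 =
      ((-2 : ℝ) : ℂ) * ((⟨-1 / 2, 1 / 2⟩ : ℂ) * (q (ω q0) ^ 2 / PO ζ ω q0 (ω q0))) := by
    unfold gloc
    rw [add_zero, mul_pow, div_pow, e1, H365.c0_sq]
    have : (1 - I : ℂ) = ((-2 : ℝ) : ℂ) * (⟨-1 / 2, 1 / 2⟩ : ℂ) := by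
      apply Complex.ext <;> simp <;> norm_num
    rw [this]; ring
  refine real_of_sq ?_ ?_
  · rw [e2, im_ofReal_mul, h.1, mul_zero]
  · rw [e2, re_ofReal_mul]; nlinarith [h.2]

theorem real_dis {κ' : Type*} [Fintype κ'] {ζ : κ → ℂ} {ω : κ' → ℂ} {q : ℂ → ℂ}
    {p0 : κ} {S : {p // p ≠ p0} → Prop} {S' : κ' → Prop}
    (h : ((⟨-1 / 2, 1 / 2⟩ : ℂ) * (q (ζ p0) ^ 2 / PZ ζ ω p0 (ζ p0))).im = 0 ∧
    0 ≤ ((⟨-1 / 2, 1 / 2⟩ : ℂ) * (q (ζ p0) ^ 2 / PZ ζ ω p0 (ζ p0))).re) :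
    (H365.c0 * glocF (ζ := ζ) (ω := ω) p0 S S' q 0).im = 0 := by
  have e1 : RS S S' (fun p => ζ p) ω (ζ p0) ^ 2 = PZ ζ ω p0 (ζ p0) := by
    rw [pow_two, RS_sq]
    unfold PZ
    congr 1
    exact (Finset.prod_subtype (M := ℂ) _ (fun x => by simp) (fun p => ζ p0 - ζ p)).symm
  have e2 : (H365.c0 * glocF (ζ := ζ) (ω := ω) p0 S S' q 0) ^ 2 =
      ((2 : ℝ) : ℂ) * ((⟨-1 / 2, 1 / 2⟩ : ℂ) * (q (ζ p0) ^ 2 / PZ ζ ω p0 (ζ p0))) := by
    unfold glocF
    rw [add_zero, mul_pow, mul_pow, div_pow, e1, H365.c0_sq, I_sq]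
    have : (1 - I : ℂ) * -1 = ((2 : ℝ) : ℂ) * (⟨-1 / 2, 1 / 2⟩ : ℂ) := by
      apply Complex.ext <;> simp <;> norm_num
    linear_combination (q (ζ p0) ^ 2 / PZ ζ ω p0 (ζ p0)) * this
  refine real_of_sq ?_ ?_
  · rw [e2, im_ofReal_mul, h.1, mul_zero]
  · rw [e2, re_ofReal_mul]; nlinarith [h.2]


instance : IsEmpty {q : Unit // q ≠ ()} := ⟨fun q => q.2 rfl⟩

omit [Fintype κ] [DecidableEq κ] in
theorem unit_prod (f : {q : Unit // q ≠ ()} → ℂ) : ∏ q, f q = 1 := Fintype.prod_empty f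

omit [Fintype κ] [DecidableEq κ] in
theorem unit_prod' (f : Unit → ℂ) : ∏ q, f q = f () := Fintype.prod_unique f

variable {l : Ultrafilter ι} (ha : Tendsto a l (𝓝[>] 0))
  (hN : Tendsto (fun k => a k * ((N k : ℝ) + 1)) l (𝓝 1))
  (hr : ∀ p, Tendsto (fun k => pt (a k) (r p k)) l (𝓝 (ζ p)))
  (hv : Tendsto (fun k => pt (a k) (v k)) l (𝓝 ω))

section srcs

variable {S : κ → Prop} {S' : {q : Unit // q ≠ ()} → Prop} (hS : ω ∈ VS S S' ζ fun _ => ω)

include ha hr hv hS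

omit [DecidableEq κ] in
theorem src_prod : Tendsto (fun k => ((gs S S' (fun p => r p k)
    (fun _ : {q : Unit // q ≠ ()} => v k) (((v k).1 : ℝ) + 1 / 4) : ℝ) : ℂ) *
    ∏ p, rtu (pos (a k) (v k) (1 / 4) (1 / 4) - cF (a k) (r p k))) l
    (𝓝 (RS S S' ζ (fun _ => ω) ω)) := by
  have h1 := (RS_lim ha hr (fun _ : {q : Unit // q ≠ ()} => hv) hS (1 / 4) (1 / 4)).comp
    (tendsto_self hv)
  refine h1.congr' ?_
  have h0 : ∀ᶠ k in (l : Filter ι), 0 < a k := ha.eventually self_mem_nhdsWithin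
  filter_upwards [h0] with k hk
  have h2 := RR_eq S S' hk (fun p => r p k) (fun _ : {q : Unit // q ≠ ()} => v k) (v k)
    (Or.inl rfl : (1 / 4 : ℝ) = 1 / 4 ∨ (1 / 4 : ℝ) = 3 / 4) (1 / 4)
  have h3 := gs_sq S S' (fun p => r p k) (fun _ : {q : Unit // q ≠ ()} => v k)
    (((v k).1 : ℝ) + 1 / 4)
  have h3' : ((gs S S' (fun p => r p k) (fun _ : {q : Unit // q ≠ ()} => v k)
    (((v k).1 : ℝ) + 1 / 4) : ℝ) : ℂ) * ((gs S S' (fun p => r p k)
    (fun _ : {q : Unit // q ≠ ()} => v k) (((v k).1 : ℝ) + 1 / 4) : ℝ) : ℂ) = 1 := by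
    exact_mod_cast h3
  simp only [Function.comp_apply]
  unfold RR at h2
  rw [unit_prod, mul_one] at h2
  rw [h2, ← mul_assoc, h3', one_mul]

end srcs

section src2

variable {S : κ → Prop} {S' : {q : Unit // q ≠ ()} → Prop}

omit [DecidableEq κ] in
/-- The gauge sign does not change between the two corners at the source. -/
theorem gs_src (r : κ → Site) (v : Site) :
    gs S S' r (fun _ : {q : Unit // q ≠ ()} => v) ((v.1 : ℝ) - 1 / 4) =
      gs S S' r (fun _ : {q : Unit // q ≠ ()} => v) ((v.1 : ℝ) + 1 / 4) := by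
  classical
  have hu : ∀ f : {q : Unit // q ≠ ()} → ℝ, ∏ q, f q = 1 := fun f => Fintype.prod_empty f
  unfold gs
  rw [hu, hu]
  congr 1
  refine Finset.prod_congr rfl fun p _ => ?_
  congr 1
  rcases le_or_gt v.1 (r p).1 with h | h
  · have h' : (v.1 : ℝ) ≤ (r p).1 := by exact_mod_cast h
    rw [sg_neg (by linarith), sg_neg (by linarith)]
  · have h' : ((r p).1 : ℝ) + 1 ≤ v.1 := by exact_mod_cast h
    rw [sg_pos (by linarith), sg_pos (by linarith)]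

omit [DecidableEq κ] in
theorem T5_const {q : ℂ → ℂ} (hq : DifferentiableAt ℂ q ω) (hS : ω ∈ VS S S' ζ fun _ => ω)
    (him : (H365.c0 * gloc (ζ := ζ) (ω := fun _ : Unit => ω) () S S' q 0).im = 0) :
    √(2 * Real.pi) / 2 * (H365.c0 * gloc (ζ := ζ) (ω := fun _ : Unit => ω) () S S' q 0).re *
      -(√(Real.pi / 2) / 2 *
        ((1 + I) * (H365.c0 * deriv (gloc (ζ := ζ) (ω := fun _ : Unit => ω) () S S' q) 0)).re) =
      -(Real.pi / 4) * (deriv (fun z => q z ^ 2 / ∏ p, (z - ζ p)) ω).re := by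
  set g := gloc (ζ := ζ) (ω := fun _ : Unit => ω) () S S' q with hg
  have hq' : DifferentiableAt ℂ q (ω + 0) := by rwa [add_zero]
  have hS' : ω + 0 ∈ VS S S' ζ fun _ : {q : Unit // q ≠ ()} => ω := by rwa [add_zero]
  have hgd : DifferentiableAt ℂ g 0 := by
    have e1 : DifferentiableAt ℂ (fun z => q (ω + z)) 0 :=
      DifferentiableAt.comp (g := q) (f := fun z => ω + z) 0 hq' (by fun_prop)
    have e2 : DifferentiableAt ℂ (fun z => RS S S' ζ (fun _ => ω) (ω + z)) 0 :=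
      DifferentiableAt.comp (g := RS S S' ζ fun _ => ω) (f := fun z => ω + z) 0
        (RS_diff hS') (by fun_prop)
    exact e1.div e2 (RS_ne hS')
  have hsq : (fun z => g z ^ 2) = fun z => (fun w => q w ^ 2 / ∏ p, (w - ζ p)) (ω + z) := by
    funext z
    rw [hg]
    unfold gloc
    rw [div_pow]
    congr 1
    rw [pow_two, RS_sq, unit_prod, mul_one]
  have hd : 2 * (g 0 * deriv g 0) = deriv (fun w => q w ^ 2 / ∏ p, (w - ζ p)) ω := by
    have h1 : HasDerivAt (fun z => g z ^ 2) (2 * (g 0 * deriv g 0)) 0 := by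
      have h3 := hgd.hasDerivAt.mul hgd.hasDerivAt
      have e3 : (fun z => g z ^ 2) = g * g := by funext z; simp [pow_two]
      rw [e3]
      have e4 : 2 * (g 0 * deriv g 0) = deriv g 0 * g 0 + g 0 * deriv g 0 := by ring
      rw [e4]
      exact h3
    have h2 : deriv (fun z => g z ^ 2) 0 = deriv (fun w => q w ^ 2 / ∏ p, (w - ζ p)) ω := by
      rw [hsq]
      have h4 := deriv_comp_const_add (f := fun w => q w ^ 2 / ∏ p, (w - ζ p)) (a := ω) (x := 0)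
      rw [add_zero] at h4
      exact h4
    rw [← h2, h1.deriv]
  rw [← hd]
  have hpi : √(2 * Real.pi) * √(Real.pi / 2) = Real.pi := by
    rw [← Real.sqrt_mul (by positivity), show 2 * Real.pi * (Real.pi / 2) = Real.pi ^ 2 by ring,
      Real.sqrt_sq Real.pi_pos.le]
  have e1 : (H365.c0 * g 0).re * ((1 + I) * (H365.c0 * deriv g 0)).re =
      (2 * (g 0 * deriv g 0)).re := by
    rw [← re_ofReal_mul, ← eq_re him]
    congr 1
    have hc := H365.c0_sq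
    have : H365.c0 * g 0 * ((1 + I) * (H365.c0 * deriv g 0)) =
        H365.c0 ^ 2 * (1 + I) * (g 0 * deriv g 0) := by ring
    rw [this, hc]
    have h2 : (1 - I) * (1 + I) = (2 : ℂ) := by
      have := I_sq
      linear_combination (-1) * this
    rw [h2]
  rw [← e1]
  linear_combination (-((H365.c0 * g 0).re * ((1 + I) * (H365.c0 * deriv g 0)).re) / 4) * hpi

end src2

section exist

omit [Fintype κ] [DecidableEq κ] in
include ha hr in
theorem ev_inj [Finite κ] (hinj : Function.Injective ζ) :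
    ∀ᶠ k in (l : Filter ι), Function.Injective fun p => r p k := by
  have : ∀ᶠ k in (l : Filter ι), ∀ p p', p ≠ p' → r p k ≠ r p' k := by
    rw [eventually_all]; intro p; rw [eventually_all]; intro p'
    by_cases h : p = p'
    · exact Eventually.of_forall fun k hh => absurd h hh
    · filter_upwards [ev_ne_add ha (hr p) (hr p') (fun hh => h (hinj hh)) 0] with k hk _
      simpa using hk
  filter_upwards [this] with k hk p p' h
  by_contra hc
  exact hk p p' hc h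

omit [Fintype κ] [DecidableEq κ] in
include ha hr hv in
theorem ev_cnr [Finite κ] (hne : ∀ p, ζ p ≠ ω) :
    ∀ᶠ k in (l : Filter ι), ∀ p, v k ∉ AL.cnr (r p k) := by
  rw [eventually_all]; intro p
  filter_upwards [ev_ne_add ha hv (hr p) (hne p).symm (0, 0),
    ev_ne_add ha hv (hr p) (hne p).symm (1, 0), ev_ne_add ha hv (hr p) (hne p).symm (0, 1),
    ev_ne_add ha hv (hr p) (hne p).symm (1, 1)] with k k1 k2 k3 k4
  rw [AL.mem_cnr]
  rintro (h | h | h | h)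
  · exact k1 (by rw [h]; ext <;> simp)
  · exact k2 (by rw [h]; ext <;> simp)
  · exact k3 (by rw [h]; ext <;> simp)
  · exact k4 (by rw [h]; ext <;> simp)

omit [DecidableEq κ] in
include ha hN hv in
theorem ev_self (hω : ω ∈ Dia) :
    ∀ᶠ k in (l : Filter ι), jA (N k) (fun p => r p k) (v k) (v k) = 1 := by
  filter_upwards [deep_ev ha hN hω hv 1] with k hk
  exact AL.xA_self _ _ _ (by rw [AL.mem_dia]; lia)

/-- The data of the limit of the spinor with one inserted spin. -/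
abbrev JLim (l : Filter ι) (a : ι → ℝ) (N : ι → ℕ) (r : κ → ι → Site) (v : ι → Site)
    (ζ : κ → ℂ) (ω : ℂ) (Hs Hf : ι → Pt → ℝ) (q : ℂ → ℂ) (h : ℂ → ℝ) : Prop :=
  GLim l a r (fun _ : Unit => v) ζ (fun _ => ω)
    (fun k => jA (N k) (fun p => r p k) (v k)) (fun k => jB (N k) (fun p => r p k) (v k))
    (fun k => jC (N k) (fun p => r p k) (v k)) (fun k => jD (N k) (fun p => r p k) (v k)) Hs Hf q h

variable {Hs Hf : ι → Pt → ℝ} {q : ℂ → ℂ} {h : ℂ → ℝ}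

omit [DecidableEq κ] in
theorem gg_one (S : κ → Prop) (S' : {q : Unit // q ≠ ()} → Prop) (r : κ → Site) (v : Site) (t : ℝ) :
    ((gs S S' r (fun _ : {q : Unit // q ≠ ()} => v) t : ℝ) : ℂ) *
      ((gs S S' r (fun _ : {q : Unit // q ≠ ()} => v) t : ℝ) : ℂ) = 1 := by
  have := gs_sq S S' r (fun _ : {q : Unit // q ≠ ()} => v) t
  exact_mod_cast this

include ha hN hr hv

omit [DecidableEq κ] in
theorem gl_gs (hω : ω ∈ Dia) {S : κ → Prop} {S' : {q : Unit // q ≠ ()} → Prop}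
    (hS : ω ∈ VS S S' ζ fun _ => ω) (hG : JLim l a N r v ζ ω Hs Hf q h) :
    Tendsto (fun k => gs S S' (fun p => r p k) (fun _ : {q : Unit // q ≠ ()} => v k)
      (((v k).1 : ℝ) + 1 / 4)) l (𝓝 (√(2 * Real.pi) / 2 *
      (H365.c0 * gloc (ζ := ζ) (ω := fun _ : Unit => ω) () S S' q 0).re)) := by
  have t1 := tip_spin (q0 := ()) ha hr (fun _ => hv) Dia_open' hω hS
    (relOn_jX (r := r) ha hN hv hω) hG.slim.A hG.diff
  refine t1.congr' ?_
  filter_upwards [ev_self (r := r) ha hN hv hω] with k hk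
  have e1 : v k + ((0:ℤ), (0:ℤ)) = v k := by ext <;> simp
  unfold gX GV
  rw [e1]
  show _ * jA (N k) (fun p => r p k) (v k) (v k) = _
  rw [hk, mul_one]

omit [DecidableEq κ] ha hN hr hv in
theorem gl_im (hne : ∀ p, ζ p ≠ ω) (hG : JLim l a N r v ζ ω Hs Hf q h) (S : κ → Prop)
    (S' : {q : Unit // q ≠ ()} → Prop) :
    (H365.c0 * gloc (ζ := ζ) (ω := fun _ : Unit => ω) () S S' q 0).im = 0 :=
  real_src (S := S) (S' := S') (q0 := ()) (hG.resO () hne (fun _ hq => absurd rfl hq))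

omit [DecidableEq κ] in
theorem gl_src (hω : ω ∈ Dia) (hne : ∀ p, ζ p ≠ ω) (hG : JLim l a N r v ζ ω Hs Hf q h) :
    Tendsto (fun k => ∏ p, rtu (pos (a k) (v k) (1 / 4) (1 / 4) - cF (a k) (r p k))) l
      (𝓝 ((√(2 * Real.pi) / 2 : ℝ) * (H365.c0 * q ω))) := by
  obtain ⟨S, S', hS⟩ := exists_patR (ζ := ζ) (ω := fun _ : Unit => ω) () (fun p => (hne p).symm)
    (fun q hq => absurd rfl hq)
  have t2 := gl_gs ha hN hr hv hω hS hG
  have him := gl_im hne hG S S'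
  have hgl : gloc (ζ := ζ) (ω := fun _ : Unit => ω) () S S' q 0 * RS S S' ζ (fun _ => ω) ω = q ω := by
    unfold gloc
    rw [add_zero, div_mul_cancel₀ _ (RS_ne hS)]
  have t3 := ((continuous_ofReal.tendsto _).comp t2).mul (src_prod ha hr hv hS)
  have e1 : ((√(2 * Real.pi) / 2 *
      (H365.c0 * gloc (ζ := ζ) (ω := fun _ : Unit => ω) () S S' q 0).re : ℝ) : ℂ) *
      RS S S' ζ (fun _ => ω) ω = (√(2 * Real.pi) / 2 : ℝ) * (H365.c0 * q ω) := by
    rw [ofReal_mul, ← eq_re him, ← hgl]; ring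
  rw [e1] at t3
  refine t3.congr fun k => ?_
  simp only [Function.comp_apply]
  rw [← mul_assoc, gg_one, one_mul]

omit hN in
omit [DecidableEq κ] in
theorem gl_norm {q : ℂ → ℂ}
    (h1 : Tendsto (fun k => ∏ p, rtu (pos (a k) (v k) (1 / 4) (1 / 4) - cF (a k) (r p k))) l
      (𝓝 ((√(2 * Real.pi) / 2 : ℝ) * (H365.c0 * q ω)))) :
    (Real.pi / 2 : ℂ) * (1 - I) * q ω ^ 2 = ∏ p, (ω - ζ p) := by
  have t4 := h1.mul h1
  have t5 : Tendsto (fun k => ∏ p, (pos (a k) (v k) (1 / 4) (1 / 4) - cF (a k) (r p k))) l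
      (𝓝 (∏ p, (ω - ζ p))) := by
    refine tendsto_finsetProd _ fun p _ => ?_
    exact ((pos_nf ha ω (1 / 4) (1 / 4)).comp (tendsto_self hv)).sub (cF_lim ha (hr p))
  have t6 : Tendsto (fun k => ∏ p, (pos (a k) (v k) (1 / 4) (1 / 4) - cF (a k) (r p k))) l
      (𝓝 ((√(2 * Real.pi) / 2 : ℝ) * (H365.c0 * q ω) * ((√(2 * Real.pi) / 2 : ℝ) *
        (H365.c0 * q ω)))) := by
    refine t4.congr fun k => ?_
    rw [← Finset.prod_mul_distrib]
    exact Finset.prod_congr rfl fun p _ => rtu_mul_self _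
  rw [← tendsto_nhds_unique t6 t5]
  have e1 : ((√(2 * Real.pi) / 2 : ℝ) : ℂ) * ((√(2 * Real.pi) / 2 : ℝ) : ℂ) =
      (Real.pi / 2 : ℂ) := by
    have : √(2 * Real.pi) / 2 * (√(2 * Real.pi) / 2) = Real.pi / 2 := by
      have := Real.mul_self_sqrt (show 0 ≤ 2 * Real.pi by positivity)
      linarith
    rw [← ofReal_mul, this]; push_cast; ring
  have hc := H365.c0_sq
  linear_combination (-(H365.c0 * q ω) ^ 2) * e1 - (Real.pi / 2 : ℂ) * q ω ^ 2 * hc

omit [DecidableEq κ] in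
theorem gl_sol (hζ : ∀ p, ζ p ∈ Dia) (hω : ω ∈ Dia) (hinj : Function.Injective ζ)
    (hne : ∀ p, ζ p ≠ ω) (hG : JLim l a N r v ζ ω Hs Hf q h) : Sol ζ ω q :=
  ⟨hG.diff, hG.bdc, fun p => hG.resNN hζ (fun _ hp' hh => hp' (hinj hh))
      (fun _ => (hne p).symm), gl_norm ha hr hv (gl_src ha hN hr hv hω hne hG)⟩

theorem gl_disA (hζ : ∀ p, ζ p ∈ Dia) (hω : ω ∈ Dia) (hinj : Function.Injective ζ)
    (hne : ∀ p, ζ p ≠ ω) (hG : JLim l a N r v ζ ω Hs Hf q h) (p : κ) :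
    Tendsto (fun k => (∏ p' : {p' // p' ≠ p},
      rtu (pos (a k) (r p k) (1 / 4) (1 / 4) - cF (a k) (r p' k))) *
      rtd (pos (a k) (r p k) (1 / 4) (1 / 4) - pt (a k) (v k)) *
      (jA (N k) (fun p => r p k) (v k) (r p k) : ℂ)) l
    (𝓝 ((√(2 * Real.pi) / 2 : ℝ) * (H365.c0 * (I * q (ζ p))))) := by
  have h0 : ∀ᶠ k in (l : Filter ι), 0 < a k := ha.eventually self_mem_nhdsWithin
  obtain ⟨S, S', hS⟩ := exists_patF (ζ := ζ) (ω := fun _ : Unit => ω) p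
    (fun p' hp' hh => hp' (hinj hh).symm) (fun _ => hne p)
  have t1 := tip_disA (p0 := p) ha hr (fun _ => hv) Dia_open' (hζ p) hS
    (relOn_jX (r := r) ha hN hv hω) hG.slim.A hG.diff
  have him := real_dis (S := S) (S' := S') (p0 := p) (hG.resZ p
    (fun p' hp' hh => hp' (hinj hh)) (fun _ => (hne p).symm))
  have t2 := (RS_lim ha (fun p' : {p' // p' ≠ p} => hr p') (fun _ : Unit => hv) hS (1 / 4)
    (1 / 4)).comp (tendsto_self (hr p))
  have t3 := ((continuous_ofReal.tendsto _).comp t1).mul t2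
  have hgl : glocF (ζ := ζ) (ω := fun _ : Unit => ω) p S S' q 0 *
      RS S S' (fun p => ζ p) (fun _ => ω) (ζ p) = I * q (ζ p) := by
    unfold glocF
    rw [add_zero, mul_assoc, div_mul_cancel₀ _ (RS_ne hS)]
  have e1 : ((√(2 * Real.pi) / 2 *
      (H365.c0 * glocF (ζ := ζ) (ω := fun _ : Unit => ω) p S S' q 0).re : ℝ) : ℂ) *
      RS S S' (fun p => ζ p) (fun _ => ω) (ζ p) =
      (√(2 * Real.pi) / 2 : ℝ) * (H365.c0 * (I * q (ζ p))) := by
    rw [ofReal_mul, ← eq_re him, ← hgl]; ring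
  rw [e1] at t3
  refine t3.congr' ?_
  filter_upwards [h0] with k hk
  have h2 := RR_eq S S' hk (fun p' : {p' // p' ≠ p} => r p' k) (fun _ : Unit => v k) (r p k)
    (Or.inl rfl : (1 / 4 : ℝ) = 1 / 4 ∨ (1 / 4 : ℝ) = 3 / 4) (1 / 4)
  unfold RR at h2
  rw [unit_prod'] at h2
  beta_reduce at h2
  simp only [Function.comp_apply]
  rw [h2]
  push_cast
  ring

theorem gl_disE (hζ : ∀ p, ζ p ∈ Dia) (hω : ω ∈ Dia) (hinj : Function.Injective ζ)
    (hne : ∀ p, ζ p ≠ ω) (hG : JLim l a N r v ζ ω Hs Hf q h) (p : κ) :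
    Tendsto (fun k => (∏ p' : {p' // p' ≠ p},
      rtu (pos (a k) (r p k) (3 / 4) (3 / 4) - cF (a k) (r p' k))) *
      rtd (pos (a k) (r p k) (3 / 4) (3 / 4) - pt (a k) (v k)) *
      (jD (N k) (fun p => r p k) (v k) (r p k) : ℂ)) l
    (𝓝 ((√(2 * Real.pi) / 2 : ℝ) * (H365.c0 * (I * q (ζ p))))) := by
  have h0 : ∀ᶠ k in (l : Filter ι), 0 < a k := ha.eventually self_mem_nhdsWithin
  obtain ⟨S, S', hS⟩ := exists_patF (ζ := ζ) (ω := fun _ : Unit => ω) p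
    (fun p' hp' hh => hp' (hinj hh).symm) (fun _ => hne p)
  have t1 := tip_dis (p0 := p) ha hr (fun _ => hv) Dia_open' (hζ p) hS
    (relOn_jX (r := r) ha hN hv hω) hG.slim.E hG.diff
  have him := real_dis (S := S) (S' := S') (p0 := p) (hG.resZ p
    (fun p' hp' hh => hp' (hinj hh)) (fun _ => (hne p).symm))
  have t2 := (RS_lim ha (fun p' : {p' // p' ≠ p} => hr p') (fun _ : Unit => hv) hS (3 / 4)
    (3 / 4)).comp (tendsto_self (hr p))
  have t3 := ((continuous_ofReal.tendsto _).comp t1).mul t2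
  have hgl : glocF (ζ := ζ) (ω := fun _ : Unit => ω) p S S' q 0 *
      RS S S' (fun p => ζ p) (fun _ => ω) (ζ p) = I * q (ζ p) := by
    unfold glocF
    rw [add_zero, mul_assoc, div_mul_cancel₀ _ (RS_ne hS)]
  have e1 : ((√(2 * Real.pi) / 2 *
      (H365.c0 * glocF (ζ := ζ) (ω := fun _ : Unit => ω) p S S' q 0).re : ℝ) : ℂ) *
      RS S S' (fun p => ζ p) (fun _ => ω) (ζ p) =
      (√(2 * Real.pi) / 2 : ℝ) * (H365.c0 * (I * q (ζ p))) := by
    rw [ofReal_mul, ← eq_re him, ← hgl]; ring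
  rw [e1] at t3
  refine t3.congr' ?_
  filter_upwards [h0] with k hk
  have h2 := RR_eq S S' hk (fun p' : {p' // p' ≠ p} => r p' k) (fun _ : Unit => v k) (r p k)
    (Or.inr rfl : (3 / 4 : ℝ) = 1 / 4 ∨ (3 / 4 : ℝ) = 3 / 4) (3 / 4)
  unfold RR at h2
  rw [unit_prod'] at h2
  beta_reduce at h2
  have h4 : sg ((((r p k).1 : ℤ) : ℝ) + 3 / 4 - (r p k).1 - 1 / 2) = 1 := sg_pos (by linarith)
  simp only [Function.comp_apply]
  unfold fX GF
  beta_reduce
  rw [h2, h4]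
  push_cast
  ring

omit [DecidableEq κ] in
theorem gl_T5 (hω : ω ∈ Dia) (hne : ∀ p, ζ p ≠ ω) (hG : JLim l a N r v ζ ω Hs Hf q h) :
    Tendsto (fun k => (a k)⁻¹ * (jD (N k) (fun p => r p k) (v k) (v k - (1, 1)) - 1)) l
    (𝓝 (-(Real.pi / 4) * (deriv (fun z => q z ^ 2 / ∏ p, (z - ζ p)) ω).re)) := by
  obtain ⟨S, S', hS⟩ := exists_patR (ζ := ζ) (ω := fun _ : Unit => ω) () (fun p => (hne p).symm)
    (fun q hq => absurd rfl hq)
  have t2 := gl_gs ha hN hr hv hω hS hG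
  have him := gl_im hne hG S S'
  have t5 := tip_T5 (q0 := ()) ha hr (fun _ => hv) Dia_open' hω hS
    (relOn_jX (r := r) ha hN hv hω) hG.slim.A hG.slim.E hG.diff
  have t6 := t2.mul t5
  rw [T5_const (hG.diff.differentiableAt (Dia_open'.mem_nhds hω)) hS him] at t6
  refine t6.congr' ?_
  filter_upwards [ev_self (r := r) ha hN hv hω] with k hk
  have e1 : v k + ((0:ℤ), (0:ℤ)) = v k := by ext <;> simp
  have e2 : v k + (-((0:ℤ)) - 1, -((0:ℤ)) - 1) = v k - (1, 1) := by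
    ext
    · simp; ring
    · simp; ring
  have h3 := gs_sq S S' (fun p => r p k) (fun _ : {q : Unit // q ≠ ()} => v k)
    (((v k).1 : ℝ) + 1 / 4)
  have e3 : ((((v k - ((1:ℤ), (1:ℤ))).1 : ℤ)) : ℝ) + 3 / 4 = ((v k).1 : ℝ) - 1 / 4 := by
    simp only [Prod.fst_sub]; push_cast; ring
  have e4 : H365.sgn 0 = 1 := by unfold H365.sgn; rw [if_neg (lt_irrefl _)]
  unfold H365.Em gX GV
  simp only
  rw [e1, e2, e3, e4]
  show gs S S' (fun p => r p k) (fun _ : {q : Unit // q ≠ ()} => v k) (((v k).1 : ℝ) + 1 / 4) *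
    ((a k)⁻¹ * (1 * (gs S S' (fun p => r p k) (fun _ : {q : Unit // q ≠ ()} => v k)
      (((v k).1 : ℝ) - 1 / 4) * jD (N k) (fun p => r p k) (v k) (v k - (1, 1))) -
      gs S S' (fun p => r p k) (fun _ : {q : Unit // q ≠ ()} => v k) (((v k).1 : ℝ) + 1 / 4) *
      jA (N k) (fun p => r p k) (v k) (v k))) = _
  rw [hk, gs_src]
  linear_combination ((a k)⁻¹ * (jD (N k) (fun p => r p k) (v k) (v k - (1, 1)) - 1)) * h3

/-- **Convergence of the spinor with one inserted spin.** -/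
theorem pack_exists (hζ : ∀ p, ζ p ∈ Dia) (hω : ω ∈ Dia) (hinj : Function.Injective ζ)
    (hne : ∀ p, ζ p ≠ ω) : ∃ q, Pack l a N r v ζ ω q := by
  obtain ⟨Hs, Hf, q, h, -, hG⟩ := xj_lim ha hN hr hv hζ hω (ev_inj ha hr hinj)
    (ev_cnr ha hr hv hne)
  exact ⟨q, gl_sol ha hN hr hv hζ hω hinj hne hG, hG.slim, gl_src ha hN hr hv hω hne hG,
    gl_disA ha hN hr hv hζ hω hinj hne hG, gl_disE ha hN hr hv hζ hω hinj hne hG,
    gl_T5 ha hN hr hv hω hne hG⟩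

end exist

end pack

end Vale.Agent.P144.H170
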