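import Vale.Agent.P144.H170.Reg
import Vale.Agent.P144.H436.PotDia
import Mathlib.Analysis.Complex.ExponentialBounds

/-!
`ℓ¹` bounds for the gradient of the Dirichlet Green function and of potentials.
-/

namespace Vale.Agent.P144.H170

open Finset

theorem lap_eq (h : Pt → ℝ) (x : Pt) : H436.lap h x = lap h x := by
  unfold H436.lap lap
  have e1 : x + (-1, 0) = x - (1, 0) := by ext <;> simp [sub_eq_add_neg]
  have e2 : x + (0, -1) = x - (0, 1) := by ext <;> simp [sub_eq_add_neg]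
  rw [e1, e2]

/-- Caccioppoli inequality with an arbitrary cut-off. -/
theorem cacc_gen {h η : Pt → ℝ} {c : Pt} {n : ℕ} (hη : ∀ x, x ∉ bx c n → η x = 0)
    (hh : ∀ x ∈ bx c n, η x ≠ 0 → 0 ≤ lap h x * h x) :
    ∑ x ∈ bx c (n + 1), ((η x ^ 2 + η (x + (1, 0)) ^ 2) / 2 * D (1, 0) h x ^ 2 +
      (η x ^ 2 + η (x + (0, 1)) ^ 2) / 2 * D (0, 1) h x ^ 2) ≤
    2 * ∑ x ∈ bx c (n + 1), (D (1, 0) η x ^ 2 * (h (x + (1, 0)) ^ 2 + h x ^ 2) +
      D (0, 1) η x ^ 2 * (h (x + (0, 1)) ^ 2 + h x ^ 2)) := by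
  set φ : Pt → ℝ := fun x => η x ^ 2 * h x with hφ
  have h0 : ∀ x, x ∉ bx c n → φ x = 0 := by
    intro x hx
    simp only [hφ]
    rw [hη x hx]; ring
  have hE := energy (h := h) h0
  have hE2 : 0 ≤ ∑ x ∈ bx c n, lap h x * φ x := by
    refine sum_nonneg fun x hx => ?_
    by_cases h1 : η x = 0
    · simp [hφ, h1]
    have : lap h x * φ x = (lap h x * h x) * η x ^ 2 := by simp only [hφ]; ring
    rw [this]
    exact mul_nonneg (hh x hx h1) (sq_nonneg _)
  have hedge : ∀ (e : Pt) (x : Pt), (η x ^ 2 + η (x + e) ^ 2) / 2 * D e h x ^ 2 ≤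
      2 * (D e h x * D e φ x) + 2 * (D e η x ^ 2 * (h (x + e) ^ 2 + h x ^ 2)) := by
    intro e x
    have := edge_ineq (η (x + e)) (η x) (h (x + e)) (h x)
    simp only [D, hφ]
    linarith
  have key : ∑ x ∈ bx c (n + 1), ((η x ^ 2 + η (x + (1, 0)) ^ 2) / 2 * D (1, 0) h x ^ 2 +
      (η x ^ 2 + η (x + (0, 1)) ^ 2) / 2 * D (0, 1) h x ^ 2) ≤
      2 * ∑ x ∈ bx c (n + 1), (D (1, 0) h x * D (1, 0) φ x + D (0, 1) h x * D (0, 1) φ x) +
      2 * ∑ x ∈ bx c (n + 1), (D (1, 0) η x ^ 2 * (h (x + (1, 0)) ^ 2 + h x ^ 2) +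
      D (0, 1) η x ^ 2 * (h (x + (0, 1)) ^ 2 + h x ^ 2)) := by
    rw [mul_sum, mul_sum, ← sum_add_distrib]
    refine sum_le_sum fun x _ => ?_
    have h1 := hedge (1, 0) x
    have h2 := hedge (0, 1) x
    linarith
  rw [hE] at key
  linarith

theorem green_le_sqrt {N : ℕ} {w x : Site} (hw : w ∈ dia N) {m : ℕ} (hm : 1 ≤ m)
    (hx : x ∉ bx w (m - 1)) : H436.green (dia N) w x ≤ 3 * √((2 * N + 2) / m) := by
  by_cases hxΛ : x ∈ dia N
  · have h1 := H436.green_dia_log hw hxΛ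
    have hm' : (1:ℝ) ≤ m := by exact_mod_cast hm
    have hd : (m:ℝ) ^ 2 ≤ ((x.1 : ℝ) - w.1) ^ 2 + ((x.2 : ℝ) - w.2) ^ 2 := by
      have h2 : (m:ℤ) ≤ |x.1 - w.1| ∨ (m:ℤ) ≤ |x.2 - w.2| := by
        by_contra h
        push Not at h
        apply hx
        rw [mem_bx]
        have e : ((m - 1 : ℕ) : ℤ) = (m:ℤ) - 1 := by push_cast [hm]; ring
        rw [e]
        have a1 := abs_lt.1 h.1
        have a2 := abs_lt.1 h.2
        lia
      rcases h2 with h2 | h2
      · have h3 : (m:ℝ) ≤ |(x.1 : ℝ) - w.1| := by exact_mod_cast h2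
        have h4 := pow_le_pow_left₀ (by positivity) h3 2
        rw [sq_abs] at h4
        nlinarith [sq_nonneg ((x.2 : ℝ) - w.2)]
      · have h3 : (m:ℝ) ≤ |(x.2 : ℝ) - w.2| := by exact_mod_cast h2
        have h4 := pow_le_pow_left₀ (by positivity) h3 2
        rw [sq_abs] at h4
        nlinarith [sq_nonneg ((x.1 : ℝ) - w.1)]
    set y : ℝ := (2 * N + 2) / m with hy
    have hN : (0:ℝ) ≤ N := Nat.cast_nonneg N
    have hy0 : 0 < y := by positivity
    have h5 : Real.log (16 * ((N : ℝ) + 1) ^ 2) -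
        Real.log (((x.1 : ℝ) - w.1) ^ 2 + ((x.2 : ℝ) - w.2) ^ 2 + 1) ≤ Real.log ((2 * y) ^ 2) := by
      have e1 : (2 * y) ^ 2 = 16 * ((N : ℝ) + 1) ^ 2 / (m:ℝ) ^ 2 := by
        rw [hy]; field_simp; ring
      rw [e1, Real.log_div (by positivity) (by positivity)]
      have := Real.log_le_log (show (0:ℝ) < (m:ℝ) ^ 2 by positivity)
        (show (m:ℝ) ^ 2 ≤ ((x.1 : ℝ) - w.1) ^ 2 + ((x.2 : ℝ) - w.2) ^ 2 + 1 by linarith)
      linarith
    have h6 : Real.log ((2 * y) ^ 2) ≤ 4 * √(2 * y) := by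
      have e2 : (2 * y) ^ 2 = √(2 * y) ^ 4 := by
        have := Real.sq_sqrt (show 0 ≤ 2 * y by positivity)
        calc (2 * y) ^ 2 = (√(2 * y) ^ 2) ^ 2 := by rw [this]
          _ = _ := by ring
      rw [e2, Real.log_pow]
      have := Real.log_le_sub_one_of_pos (show 0 < √(2 * y) by positivity)
      push_cast
      linarith
    have h7 : √(2 * y) = √2 * √y := Real.sqrt_mul (by norm_num) y
    have h8 : √2 ≤ 1.42 := by
      rw [Real.sqrt_le_left (by norm_num)]; norm_num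
    have h9 := Real.log_two_gt_d9
    refine h1.trans ?_
    rw [div_le_iff₀ (by positivity)]
    have h10 : 0 ≤ √y := Real.sqrt_nonneg _
    rw [h7] at h6
    nlinarith
  · rw [H436.green_out hxΛ]; positivity

theorem green_le_sqrt_all {N : ℕ} {w x : Site} (hw : w ∈ dia N) :
    H436.green (dia N) w x ≤ 3 * √(2 * N + 2) := by
  by_cases hx : x ∈ bx w 0
  · have hxw : x = w := by
      rw [mem_bx] at hx
      have e0 : ((0 : ℕ) : ℤ) = 0 := rfl
      rw [e0] at hx
      ext <;> lia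
    subst hxw
    have h1 := H436.green_dia_log hw hw
    have hN : (0:ℝ) ≤ N := Nat.cast_nonneg N
    rw [sub_self, sub_self] at h1
    norm_num at h1
    have e2 : 16 * ((N : ℝ) + 1) ^ 2 = √(4 * (N + 1)) ^ 4 := by
      have := Real.sq_sqrt (show 0 ≤ 4 * ((N:ℝ) + 1) by positivity)
      calc 16 * ((N : ℝ) + 1) ^ 2 = (4 * ((N:ℝ) + 1)) ^ 2 := by ring
        _ = (√(4 * ((N:ℝ) + 1)) ^ 2) ^ 2 := by rw [this]
        _ = _ := by ring
    rw [e2, Real.log_pow] at h1
    have h3 := Real.log_le_sub_one_of_pos (show 0 < √(4 * ((N:ℝ) + 1)) by positivity)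
    have h7 : √(4 * ((N:ℝ) + 1)) = √2 * √(2 * N + 2) := by
      rw [← Real.sqrt_mul (by norm_num)]; congr 1; ring
    have h8 : √2 ≤ 1.42 := by
      rw [Real.sqrt_le_left (by norm_num)]; norm_num
    have h9 := Real.log_two_gt_d9
    have h10 : 0 ≤ √(2 * (N:ℝ) + 2) := Real.sqrt_nonneg _
    refine h1.trans ?_
    rw [div_le_iff₀ (by positivity)]
    push_cast
    rw [h7] at h3 ⊢
    nlinarith
  · have := green_le_sqrt (m := 1) hw le_rfl hx
    simpa using this

/-- The energy of the Green function in an annulus. -/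
theorem green_annulus {N : ℕ} {w : Site} (hw : w ∈ dia N) {m : ℕ} (hm : 1 ≤ m) :
    ∑ x ∈ bx w (4 * m) \ bx w (2 * m - 1), (D (1, 0) (H436.green (dia N) w) x ^ 2 +
      D (0, 1) (H436.green (dia N) w) x ^ 2) ≤ 500000 * ((2 * N + 2) / m) := by
  set G := H436.green (dia N) w with hG
  have hm' : (1:ℝ) ≤ m := by exact_mod_cast hm
  set η : Pt → ℝ := fun x => (1 - cut w m x) * cut w (4 * m) x with hη
  have hη0 : ∀ x, 0 ≤ η x := fun x => mul_nonneg (by linarith [cut_le_one w m x]) (cut_nonneg _ _ _)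
  have hout : ∀ x, x ∉ bx w (8 * m - 1) → η x = 0 := by
    intro x hx
    simp only [hη]
    rw [cut_zero (show 0 < 4 * m by lia) (by
      rw [show 2 * (4 * m) - 1 = 8 * m - 1 by lia]; exact hx), mul_zero]
  have hin : ∀ x, x ∈ bx w m → η x = 0 := by
    intro x hx
    simp only [hη]
    rw [cut_one (by lia) hx]; ring
  have hone : ∀ x, x ∈ bx w (4 * m) \ bx w (2 * m - 1) → η x = 1 := by
    intro x hx
    rw [mem_sdiff] at hx
    simp only [hη]
    rw [cut_zero (by lia) hx.2, cut_one (by lia) hx.1]; ring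
  have hlip : ∀ e : Pt, (e = (1, 0) ∨ e = (0, 1)) → ∀ x, D e η x ^ 2 ≤ 4 / (m:ℝ) ^ 2 := by
    intro e he x
    have h1 := cut_lip (show 0 < m by lia) he x (c := w)
    have h2 := cut_lip (show 0 < 4 * m by lia) he x (c := w)
    have h3 : |D e η x| ≤ 2 / m := by
      have e1 : D e η x = -(cut w m (x + e) - cut w m x) * cut w (4 * m) (x + e) +
        (1 - cut w m x) * (cut w (4 * m) (x + e) - cut w (4 * m) x) := by
        simp only [D, hη]; ring
      rw [e1]
      refine (abs_add_le _ _).trans ?_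
      rw [abs_mul, abs_mul, abs_neg]
      have a1 : |cut w (4 * m) (x + e)| ≤ 1 := by
        rw [abs_of_nonneg (cut_nonneg _ _ _)]; exact cut_le_one _ _ _
      have a2 : |1 - cut w m x| ≤ 1 := by
        rw [abs_of_nonneg (by linarith [cut_le_one w m x])]; linarith [cut_nonneg w m x]
      have a3 : (1:ℝ) / ((4 * m : ℕ) : ℝ) ≤ 1 / m := by
        push_cast
        exact div_le_div_of_nonneg_left zero_le_one (by positivity) (by linarith)
      have b1 := mul_le_mul h1 a1 (abs_nonneg _) (by positivity)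
      have b2 := mul_le_mul a2 (h2.trans a3) (abs_nonneg _) zero_le_one
      have e2 : (2:ℝ) / m = 1 / m * 1 + 1 * (1 / m) := by ring
      linarith
    rw [← sq_abs]
    calc |D e η x| ^ 2 ≤ (2 / m) ^ 2 := pow_le_pow_left₀ (abs_nonneg _) h3 2
      _ = _ := by rw [div_pow]; norm_num
  have hwη : η w = 0 := hin w (self_mem_bx _ _)
  have hc := cacc_gen (h := G) (η := η) (c := w) (n := 8 * m - 1) hout (by
    intro x _ hx0
    have hxw : x ≠ w := fun h => hx0 (h ▸ hwη)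
    by_cases hxΛ : x ∈ dia N
    · rw [← lap_eq, hG, H436.lap_green hxΛ, if_neg hxw]; simp
    · rw [hG, H436.green_out hxΛ, mul_zero])
  rw [show 8 * m - 1 + 1 = 8 * m by lia] at hc
  set B : ℝ := (2 * N + 2) / m with hB
  have hB0 : 0 ≤ B := by positivity
  have hGB : ∀ x, x ∉ bx w (m - 1) → G x ^ 2 ≤ 9 * B := by
    intro x hx
    have h1 := green_le_sqrt hw hm hx
    have h2 := H436.green_nonneg (dia N) w x
    calc G x ^ 2 ≤ (3 * √B) ^ 2 := pow_le_pow_left₀ h2 h1 2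
      _ = 9 * B := by rw [mul_pow, Real.sq_sqrt hB0]; norm_num
  have hup : ∀ e : Pt, (e = (1, 0) ∨ e = (0, 1)) → ∀ x,
      D e η x ^ 2 * (G (x + e) ^ 2 + G x ^ 2) ≤ 72 * B / (m:ℝ) ^ 2 := by
    intro e he x
    by_cases hx : x ∈ bx w (m - 1)
    · have h1 : x ∈ bx w m := bx_mono (by lia) hx
      have h2 : x + e ∈ bx w m := by
        rw [mem_bx] at hx ⊢
        have e1 : ((m - 1 : ℕ) : ℤ) = (m:ℤ) - 1 := by push_cast [hm]; ring
        rw [e1] at hx
        rcases he with rfl | rfl <;> simp <;> lia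
      have : D e η x = 0 := by unfold D; rw [hin _ h1, hin _ h2, sub_self]
      rw [this]
      simp only [ne_eq, OfNat.ofNat_ne_zero, not_false_eq_true, zero_pow, zero_mul]
      positivity
    by_cases hxe : x + e ∈ bx w (m - 1)
    · have h2 : x + e ∈ bx w m := bx_mono (by lia) hxe
      have h1 : x ∈ bx w m := by
        rw [mem_bx] at hxe ⊢
        have e1 : ((m - 1 : ℕ) : ℤ) = (m:ℤ) - 1 := by push_cast [hm]; ring
        rw [e1] at hxe
        rcases he with rfl | rfl <;> simp at hxe <;> lia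
      have : D e η x = 0 := by unfold D; rw [hin _ h1, hin _ h2, sub_self]
      rw [this]
      simp only [ne_eq, OfNat.ofNat_ne_zero, not_false_eq_true, zero_pow, zero_mul]
      positivity
    · have h1 := hGB x hx
      have h2 := hGB _ hxe
      calc D e η x ^ 2 * (G (x + e) ^ 2 + G x ^ 2) ≤ 4 / (m:ℝ) ^ 2 * (18 * B) :=
            mul_le_mul (hlip e he x) (by linarith) (by positivity) (by positivity)
        _ = _ := by ring
  have hlow : ∑ x ∈ bx w (4 * m) \ bx w (2 * m - 1), (D (1, 0) G x ^ 2 + D (0, 1) G x ^ 2) ≤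
      2 * ∑ x ∈ bx w (8 * m), ((η x ^ 2 + η (x + (1, 0)) ^ 2) / 2 * D (1, 0) G x ^ 2 +
      (η x ^ 2 + η (x + (0, 1)) ^ 2) / 2 * D (0, 1) G x ^ 2) := by
    rw [mul_sum]
    calc _ ≤ ∑ x ∈ bx w (4 * m) \ bx w (2 * m - 1), 2 * ((η x ^ 2 + η (x + (1, 0)) ^ 2) / 2 *
          D (1, 0) G x ^ 2 + (η x ^ 2 + η (x + (0, 1)) ^ 2) / 2 * D (0, 1) G x ^ 2) := by
          refine sum_le_sum fun x hx => ?_
          rw [hone x hx]
          nlinarith [mul_nonneg (sq_nonneg (η (x + (1, 0)))) (sq_nonneg (D (1, 0) G x)),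
            mul_nonneg (sq_nonneg (η (x + (0, 1)))) (sq_nonneg (D (0, 1) G x))]
      _ ≤ _ := by
          refine sum_le_sum_of_subset_of_nonneg ?_ fun x _ _ => by positivity
          exact sdiff_subset.trans (bx_mono (by lia))
  have hfin : ∑ x ∈ bx w (8 * m), (D (1, 0) η x ^ 2 * (G (x + (1, 0)) ^ 2 + G x ^ 2) +
      D (0, 1) η x ^ 2 * (G (x + (0, 1)) ^ 2 + G x ^ 2)) ≤ (17 * m) ^ 2 * (144 * B / (m:ℝ) ^ 2) := by
    calc _ ≤ ∑ x ∈ bx w (8 * m), 144 * B / (m:ℝ) ^ 2 := by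
          refine sum_le_sum fun x _ => ?_
          have h1 := hup _ (Or.inl rfl) x
          have h2 := hup _ (Or.inr rfl) x
          have e : 144 * B / (m:ℝ) ^ 2 = 72 * B / (m:ℝ) ^ 2 + 72 * B / (m:ℝ) ^ 2 := by ring
          linarith
      _ = (2 * ((8 * m : ℕ) : ℝ) + 1) ^ 2 * (144 * B / (m:ℝ) ^ 2) := by
          rw [sum_const, card_bx, nsmul_eq_mul]; push_cast; ring
      _ ≤ _ := by
          refine mul_le_mul_of_nonneg_right ?_ (by positivity)
          refine pow_le_pow_left₀ (by positivity) ?_ 2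
          push_cast; linarith
  have e3 : (17 * (m:ℝ)) ^ 2 * (144 * B / (m:ℝ) ^ 2) = 41616 * B := by
    field_simp; ring
  rw [e3] at hfin
  linarith

theorem cs_sum (S : Finset Pt) (u v : Pt → ℝ) {K E : ℝ} (hK : (S.card : ℝ) ≤ K)
    (hE : ∑ x ∈ S, (u x ^ 2 + v x ^ 2) ≤ E) :
    ∑ x ∈ S, (|u x| + |v x|) ≤ √(2 * (K * E)) := by
  refine Real.le_sqrt_of_sq_le ?_
  have hS : 0 ≤ ∑ x ∈ S, (u x ^ 2 + v x ^ 2) := sum_nonneg fun _ _ => by positivity
  calc (∑ x ∈ S, (|u x| + |v x|)) ^ 2 ≤ S.card * ∑ x ∈ S, (|u x| + |v x|) ^ 2 :=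
        sq_sum_le_card_mul_sum_sq
    _ ≤ S.card * ∑ x ∈ S, 2 * (u x ^ 2 + v x ^ 2) := by
        refine mul_le_mul_of_nonneg_left (sum_le_sum fun x _ => ?_) (Nat.cast_nonneg _)
        rw [← sq_abs (u x), ← sq_abs (v x)]
        nlinarith [sq_nonneg (|u x| - |v x|)]
    _ = 2 * (S.card * ∑ x ∈ S, (u x ^ 2 + v x ^ 2)) := by rw [← mul_sum]; ring
    _ ≤ 2 * (K * E) := by
        refine mul_le_mul_of_nonneg_left ?_ (by norm_num)
        exact mul_le_mul hK hE hS ((Nat.cast_nonneg _).trans hK)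

/-- `ℓ¹` bound of the gradient of the Green function, boxes around the pole. -/
theorem gradG_center {N : ℕ} {w : Site} (hw : w ∈ dia N) (J : ℕ) :
    ∑ x ∈ bx w (4 * 2 ^ J), (|D (1, 0) (H436.green (dia N) w) x| +
      |D (0, 1) (H436.green (dia N) w) x|) ≤ 32000 * √(2 ^ J * (2 * N + 2)) := by
  set G := H436.green (dia N) w with hG
  have hann : ∀ m : ℕ, 1 ≤ m → ∑ x ∈ bx w (4 * m) \ bx w (2 * m - 1),
      (|D (1, 0) G x| + |D (0, 1) G x|) ≤ 9000 * √(m * (2 * N + 2)) := by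
    intro m hm
    have hm' : (1:ℝ) ≤ m := by exact_mod_cast hm
    have h1 := green_annulus hw hm
    have h2 : ((bx w (4 * m) \ bx w (2 * m - 1)).card : ℝ) ≤ (9 * m) ^ 2 := by
      have a1 : (bx w (4 * m) \ bx w (2 * m - 1)).card ≤ (2 * (4 * m) + 1) ^ 2 :=
        (card_le_card sdiff_subset).trans (card_bx _ _).le
      have a2 : ((bx w (4 * m) \ bx w (2 * m - 1)).card : ℝ) ≤ (2 * (4 * m) + 1) ^ 2 := by
        exact_mod_cast a1
      refine a2.trans (pow_le_pow_left₀ (by positivity) (by linarith) 2)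
    have h3 := cs_sum _ (D (1, 0) G) (D (0, 1) G) h2 h1
    refine h3.trans ?_
    have e : 2 * ((9 * (m:ℝ)) ^ 2 * (500000 * ((2 * N + 2) / m))) = 9000 ^ 2 * (m * (2 * N + 2)) := by
      field_simp; ring
    rw [e, Real.sqrt_mul (by norm_num), Real.sqrt_sq (by norm_num)]
  have hN : (0:ℝ) ≤ N := Nat.cast_nonneg N
  induction J with
  | zero =>
    have h1 := hann 1 le_rfl
    have h2 : ∑ x ∈ bx w (2 * 1 - 1), (|D (1, 0) G x| + |D (0, 1) G x|) ≤
        108 * √(2 * N + 2) := by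
      calc _ ≤ ∑ x ∈ bx w (2 * 1 - 1), 12 * √(2 * (N:ℝ) + 2) := by
            refine sum_le_sum fun x _ => ?_
            have a : ∀ y, |G y| ≤ 3 * √(2 * N + 2) := fun y => by
              rw [abs_of_nonneg (H436.green_nonneg _ _ _)]; exact green_le_sqrt_all hw
            have b1 := abs_sub (G (x + (1, 0))) (G x)
            have b2 := abs_sub (G (x + (0, 1))) (G x)
            have := a x
            have := a (x + (1, 0))
            have := a (x + (0, 1))
            unfold D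
            linarith
        _ = _ := by rw [sum_const, card_bx, nsmul_eq_mul]; norm_num; ring
    have h3 : ∑ x ∈ bx w (4 * 1), (|D (1, 0) G x| + |D (0, 1) G x|) =
        ∑ x ∈ bx w (4 * 1) \ bx w (2 * 1 - 1), (|D (1, 0) G x| + |D (0, 1) G x|) +
        ∑ x ∈ bx w (2 * 1 - 1), (|D (1, 0) G x| + |D (0, 1) G x|) :=
      (sum_sdiff (bx_mono (by norm_num))).symm
    simp only [pow_zero, one_mul, Nat.cast_one] at h1 ⊢
    rw [h3]
    have := Real.sqrt_nonneg (2 * (N:ℝ) + 2)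
    linarith
  | succ J ih =>
    have h1 := hann (2 ^ (J + 1)) Nat.one_le_two_pow
    have hsub : bx w (2 * 2 ^ (J + 1) - 1) ⊆ bx w (4 * 2 ^ (J + 1)) := bx_mono (by lia)
    have h3 : ∑ x ∈ bx w (4 * 2 ^ (J + 1)), (|D (1, 0) G x| + |D (0, 1) G x|) =
        ∑ x ∈ bx w (4 * 2 ^ (J + 1)) \ bx w (2 * 2 ^ (J + 1) - 1),
          (|D (1, 0) G x| + |D (0, 1) G x|) +
        ∑ x ∈ bx w (2 * 2 ^ (J + 1) - 1), (|D (1, 0) G x| + |D (0, 1) G x|) :=
      (sum_sdiff hsub).symm
    have h4 : ∑ x ∈ bx w (2 * 2 ^ (J + 1) - 1), (|D (1, 0) G x| + |D (0, 1) G x|) ≤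
        ∑ x ∈ bx w (4 * 2 ^ J), (|D (1, 0) G x| + |D (0, 1) G x|) := by
      refine sum_le_sum_of_subset_of_nonneg (bx_mono ?_) fun _ _ _ => by positivity
      rw [pow_succ]; lia
    rw [h3]
    push_cast at h1
    have e1 : √((2:ℝ) ^ (J + 1) * (2 * N + 2)) = √2 * √(2 ^ J * (2 * N + 2)) := by
      rw [← Real.sqrt_mul (by norm_num)]; congr 1; rw [pow_succ]; ring
    rw [e1] at h1 ⊢
    have h5 : (1.41:ℝ) ≤ √2 := Real.le_sqrt_of_sq_le (by norm_num)
    have h6 : √2 ≤ 1.42 := by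
      rw [Real.sqrt_le_left (by norm_num)]; norm_num
    have h7 := Real.sqrt_nonneg ((2:ℝ) ^ J * (2 * N + 2))
    nlinarith

/-- `ℓ¹` bound of the gradient of the Green function. -/
theorem gradG {N : ℕ} {w : Site} (hw : w ∈ dia N) (c : Site) {r : ℕ} (hr : 1 ≤ r) :
    ∑ x ∈ bx c r, (|D (1, 0) (H436.green (dia N) w) x| +
      |D (0, 1) (H436.green (dia N) w) x|) ≤ 64000 * √(r * (2 * N + 2)) := by
  set G := H436.green (dia N) w with hG
  have hr' : (1:ℝ) ≤ r := by exact_mod_cast hr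
  have hN : (0:ℝ) ≤ N := Nat.cast_nonneg N
  by_cases hwc : w ∈ bx c (4 * r)
  · obtain ⟨J, hJ1, hJ2⟩ : ∃ J : ℕ, 2 * r ≤ 2 ^ J ∧ 2 ^ J ≤ 4 * r := by
      refine ⟨Nat.log 2 (2 * r) + 1, ?_, ?_⟩
      · exact (Nat.lt_pow_succ_log_self (by norm_num) _).le
      · rw [pow_succ]
        have := Nat.pow_log_le_self 2 (show 2 * r ≠ 0 by lia)
        lia
    have h1 := gradG_center hw J
    have h2 : ∑ x ∈ bx c r, (|D (1, 0) G x| + |D (0, 1) G x|) ≤
        ∑ x ∈ bx w (4 * 2 ^ J), (|D (1, 0) G x| + |D (0, 1) G x|) := by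
      refine sum_le_sum_of_subset_of_nonneg ?_ fun _ _ _ => by positivity
      intro x hx
      rw [mem_bx] at hx hwc ⊢
      push_cast at hwc ⊢
      have : 2 * (r:ℤ) ≤ 2 ^ J := by exact_mod_cast hJ1
      lia
    refine h2.trans (h1.trans ?_)
    have h3 : √((2:ℝ) ^ J * (2 * N + 2)) ≤ 2 * √(r * (2 * N + 2)) := by
      have e : 2 * √((r:ℝ) * (2 * N + 2)) = √(4 * (r * (2 * N + 2))) := by
        rw [Real.sqrt_mul (show (0:ℝ) ≤ 4 by norm_num), show √(4:ℝ) = 2 by
          rw [show (4:ℝ) = 2 ^ 2 by norm_num, Real.sqrt_sq (by norm_num)]]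
      rw [e]
      refine Real.sqrt_le_sqrt ?_
      have : (2:ℝ) ^ J ≤ 4 * r := by exact_mod_cast hJ2
      nlinarith
    linarith
  · have hx : ∀ x ∈ bx c (2 * r), x ∉ bx w (2 * r - 1) := by
      intro x hx hxw
      apply hwc
      rw [mem_bx] at hx hxw ⊢
      have e : ((2 * r - 1 : ℕ) : ℤ) = 2 * (r:ℤ) - 1 := by
        push_cast [Nat.cast_sub (show 1 ≤ 2 * r by lia)]; ring
      rw [e] at hxw
      push_cast at hx ⊢
      lia
    have hc := cacc_sub (h := G) (c := c) (n := r) (by lia) (by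
      intro x hx1
      by_cases hxΛ : x ∈ dia N
      · have hxw : x ≠ w := by
          rintro rfl
          exact hx x (bx_mono (by lia) hx1) (self_mem_bx _ _)
        rw [← lap_eq, hG, H436.lap_green hxΛ, if_neg hxw]; simp
      · rw [hG, H436.green_out hxΛ, mul_zero])
    have h1 : ∑ x ∈ bx c (2 * r), G x ^ 2 ≤ (5 * r) ^ 2 * (9 * ((2 * N + 2) / (2 * r))) := by
      calc _ ≤ ∑ x ∈ bx c (2 * r), 9 * ((2 * (N:ℝ) + 2) / (2 * r)) := by
            refine sum_le_sum fun x hx1 => ?_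
            have h1 := green_le_sqrt hw (show 1 ≤ 2 * r by lia) (hx x hx1)
            have h2 := H436.green_nonneg (dia N) w x
            push_cast at h1
            calc G x ^ 2 ≤ (3 * √((2 * N + 2) / (2 * r))) ^ 2 := pow_le_pow_left₀ h2 h1 2
              _ = _ := by rw [mul_pow, Real.sq_sqrt (by positivity)]; norm_num
        _ = (2 * ((2 * r : ℕ) : ℝ) + 1) ^ 2 * (9 * ((2 * N + 2) / (2 * r))) := by
            rw [sum_const, card_bx, nsmul_eq_mul]; push_cast; ring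
        _ ≤ _ := by
            refine mul_le_mul_of_nonneg_right ?_ (by positivity)
            refine pow_le_pow_left₀ (by positivity) ?_ 2
            push_cast; linarith
    have h2 : ((bx c r).card : ℝ) ≤ (3 * r) ^ 2 := by
      rw [card_bx]; push_cast
      exact pow_le_pow_left₀ (by positivity) (by linarith) 2
    have h3 := hc.trans (mul_le_mul_of_nonneg_left h1 (by positivity))
    have h4 := cs_sum _ (D (1, 0) G) (D (0, 1) G) h2 h3
    refine h4.trans ?_
    have e : 2 * ((3 * (r:ℝ)) ^ 2 * (32 / (r:ℝ) ^ 2 * ((5 * r) ^ 2 * (9 * ((2 * N + 2) / (2 * r)))))) =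
        64800 * (r * (2 * N + 2)) := by field_simp; ring
    rw [e]
    have e2 : √(64800 * ((r:ℝ) * (2 * N + 2))) ≤ √(64000 ^ 2 * (r * (2 * N + 2))) := by
      refine Real.sqrt_le_sqrt ?_
      have : 0 ≤ (r:ℝ) * (2 * N + 2) := by positivity
      nlinarith
    rw [Real.sqrt_mul (show (0:ℝ) ≤ 64000 ^ 2 by norm_num), Real.sqrt_sq (by norm_num)] at e2
    exact e2

/-- Riesz representation. -/
theorem riesz {Λ : Finset Site} {u : Site → ℝ} (hu : ∀ x ∉ Λ, u x = 0) (x : Site) :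
    u x = - ∑ w ∈ Λ, lap u w * H436.green Λ w x := by
  set v : Site → ℝ := fun y => u y + ∑ w ∈ Λ, lap u w * H436.green Λ w y with hv
  have hlap : ∀ y ∈ Λ, H436.lap v y = 0 := by
    intro y hy
    have e1 : H436.lap v y = H436.lap u y + H436.lap (fun y => ∑ w ∈ Λ, lap u w * H436.green Λ w y) y :=
      H436.lap_add _ _ _
    rw [e1, H436.lap_sum]
    have e2 : ∀ w ∈ Λ, H436.lap (fun y => lap u w * H436.green Λ w y) y =
        -(if y = w then lap u w else 0) := by
      intro w _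
      rw [H436.lap_mul, H436.lap_green hy]
      split_ifs <;> ring
    rw [sum_congr rfl e2, sum_neg_distrib, sum_ite_eq, if_pos hy, lap_eq]
    ring
  have hout : ∀ y ∉ Λ, v y = 0 := by
    intro y hy
    simp only [hv]
    rw [hu y hy, zero_add]
    exact sum_eq_zero fun w _ => by rw [H436.green_out hy, mul_zero]
  have h1 := H436.max_principle (Λ := Λ) (u := v) (fun y hy => (hlap y hy).ge)
    (fun y hy => (hout y hy).le) x
  have h2 := H436.min_principle (Λ := Λ) (u := v) (fun y hy => (hlap y hy).le)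
    (fun y hy => (hout y hy).ge) x
  have h3 : v x = 0 := le_antisymm h1 h2
  simp only [hv] at h3
  linarith

/-- `ℓ¹` bound of the gradient of a potential. -/
theorem grad_potential {N : ℕ} {u : Site → ℝ} (hu : ∀ x ∉ dia N, u x = 0) (c : Site) {r : ℕ}
    (hr : 1 ≤ r) :
    ∑ x ∈ bx c r, (|D (1, 0) u x| + |D (0, 1) u x|) ≤
      64000 * √(r * (2 * N + 2)) * ∑ w ∈ dia N, |lap u w| := by
  have hD : ∀ e x, |D e u x| ≤ ∑ w ∈ dia N, |lap u w| * |D e (H436.green (dia N) w) x| := by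
    intro e x
    have : D e u x = - ∑ w ∈ dia N, lap u w * D e (H436.green (dia N) w) x := by
      unfold D
      rw [riesz hu (x + e), riesz hu x, sub_neg_eq_add, neg_add_eq_sub, ← neg_sub,
        ← sum_sub_distrib]
      congr 1
      exact sum_congr rfl fun w _ => by ring
    rw [this, abs_neg]
    refine (abs_sum_le_sum_abs _ _).trans ?_
    exact sum_le_sum fun w _ => (abs_mul _ _).le
  calc _ ≤ ∑ x ∈ bx c r, ∑ w ∈ dia N, |lap u w| * (|D (1, 0) (H436.green (dia N) w) x| +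
        |D (0, 1) (H436.green (dia N) w) x|) := by
        refine sum_le_sum fun x _ => ?_
        have h1 := hD (1, 0) x
        have h2 := hD (0, 1) x
        have e : ∑ w ∈ dia N, |lap u w| * (|D (1, 0) (H436.green (dia N) w) x| +
          |D (0, 1) (H436.green (dia N) w) x|) =
          ∑ w ∈ dia N, |lap u w| * |D (1, 0) (H436.green (dia N) w) x| +
          ∑ w ∈ dia N, |lap u w| * |D (0, 1) (H436.green (dia N) w) x| := by
          rw [← sum_add_distrib]
          exact sum_congr rfl fun w _ => by ring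
        rw [e]
        exact add_le_add h1 h2
    _ = ∑ w ∈ dia N, |lap u w| * ∑ x ∈ bx c r, (|D (1, 0) (H436.green (dia N) w) x| +
        |D (0, 1) (H436.green (dia N) w) x|) := by
        rw [sum_comm]
        exact sum_congr rfl fun w _ => by rw [mul_sum]
    _ ≤ ∑ w ∈ dia N, |lap u w| * (64000 * √(r * (2 * N + 2))) :=
        sum_le_sum fun w hw => mul_le_mul_of_nonneg_left (gradG hw c hr) (abs_nonneg _)
    _ = _ := by rw [← sum_mul]; ring

end Vale.Agent.P144.H170
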