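import Vale.Agent.P144.H170.Ext

/-!
The limit of the `H`-function.
-/

namespace Vale.Agent.P144.H170

open Filter Topology Complex

section

variable {ι : Type*} {a : ι → ℝ}

/-- A function with convergent gradient that is bounded at every point has a limit. -/
theorem exists_of_grad {l : Ultrafilter ι} (ha : Tendsto a l (𝓝[>] 0)) {U : Set ℂ}
    {h : ι → Pt → ℝ} {H1 H2 : ℂ → ℝ}
    (h1 : CConv l a U (fun k x => (a k)⁻¹ * D (1, 0) (h k) x) H1)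
    (h2 : CConv l a U (fun k x => (a k)⁻¹ * D (0, 1) (h k) x) H2)
    (hb : ∀ z ∈ U, ∃ M, ∀ᶠ k in l, |h k (fl (a k) z)| ≤ M) : ∃ H : ℂ → ℝ, CConv l a U h H := by
  have ha0 : ∀ᶠ k in l, 0 < a k := ha.eventually self_mem_nhdsWithin
  have hex : ∀ z ∈ U, ∃ c, Tendsto (fun k => h k (fl (a k) z)) l (𝓝 c) := by
    intro z hz
    obtain ⟨M, hM⟩ := hb z hz
    obtain ⟨c, _, hc⟩ := ultra_lim (l := l) hM
    exact ⟨c, hc⟩
  choose! H hH using hex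
  refine ⟨H, fun z hz ε hε => ?_⟩
  obtain ⟨r1, hr1, k1⟩ := h1 z hz 1 one_pos
  obtain ⟨r2, hr2, k2⟩ := h2 z hz 1 one_pos
  set L := max (|H1 z| + 1) (|H2 z| + 1) with hL
  have hL0 : 0 < L := by positivity
  set r := min r1 r2 with hr
  have hr0 : 0 < r := by positivity
  set s := min (r / 2) (ε / (8 * L)) with hs
  have hs0 : 0 < s := by positivity
  have ha1 : ∀ᶠ k in l, a k < s / 2 :=
    (ha.mono_right nhdsWithin_le_nhds).eventually (gt_mem_nhds (by positivity))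
  have hc := (Metric.tendsto_nhds.1 (hH z hz)) (ε / 2) (by positivity)
  refine ⟨s, hs0, ?_⟩
  filter_upwards [k1, k2, ha0, ha1, hc] with k g1 g2 h0 h3 h4 x hx
  have b1 : ∀ w, ‖pt (a k) w - z‖ ≤ r → |D (1, 0) (h k) w - 0| ≤ a k * L := by
    intro w hw
    have h5 := g1 w (hw.trans (min_le_left _ _))
    rw [abs_le] at h5
    have h6 : |(a k)⁻¹ * D (1, 0) (h k) w| ≤ L := by
      refine le_trans ?_ (le_max_left _ _)
      rw [abs_le]
      have := abs_le.1 (le_refl |H1 z|)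
      constructor <;> linarith
    rw [abs_mul, abs_of_pos (inv_pos.2 h0)] at h6
    rw [sub_zero]
    calc |D (1, 0) (h k) w| = a k * ((a k)⁻¹ * |D (1, 0) (h k) w|) := by field_simp
      _ ≤ a k * L := mul_le_mul_of_nonneg_left h6 h0.le
  have b2 : ∀ w, ‖pt (a k) w - z‖ ≤ r → |D (0, 1) (h k) w - 0| ≤ a k * L := by
    intro w hw
    have h5 := g2 w (hw.trans (min_le_right _ _))
    rw [abs_le] at h5
    have h6 : |(a k)⁻¹ * D (0, 1) (h k) w| ≤ L := by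
      refine le_trans ?_ (le_max_right _ _)
      rw [abs_le]
      have := abs_le.1 (le_refl |H2 z|)
      constructor <;> linarith
    rw [abs_mul, abs_of_pos (inv_pos.2 h0)] at h6
    rw [sub_zero]
    calc |D (0, 1) (h k) w| = a k * ((a k)⁻¹ * |D (0, 1) (h k) w|) := by field_simp
      _ ≤ a k * L := mul_le_mul_of_nonneg_left h6 h0.le
  have hfl := pt_fl_norm h0 z
  have hsr : s ≤ r / 2 := min_le_left _ _
  have hsε : s ≤ ε / (8 * L) := min_le_right _ _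
  have h5 := incr h0 b1 b2 (x := fl (a k) z) (y := x) (hfl.trans (by linarith)) (hx.trans hsr)
  rw [zero_mul, zero_mul, sub_zero, sub_zero] at h5
  have h6 := pt_sub_norm' h0 x (fl (a k) z)
  have h7 : ‖pt (a k) x - pt (a k) (fl (a k) z)‖ ≤ 2 * s := by
    have := norm_sub_le_norm_sub_add_norm_sub (pt (a k) x) z (pt (a k) (fl (a k) z))
    rw [norm_sub_rev z] at this
    linarith
  have h8 : |h k x - h k (fl (a k) z)| ≤ ε / 2 := by
    calc |h k x - h k (fl (a k) z)| ≤ a k * L * (|((x.1:ℝ) - ((fl (a k) z).1:ℝ))| +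
          |((x.2:ℝ) - ((fl (a k) z).2:ℝ))|) := h5
      _ = L * (a k * (|((x.1:ℝ) - ((fl (a k) z).1:ℝ))| +
          |((x.2:ℝ) - ((fl (a k) z).2:ℝ))|)) := by ring
      _ ≤ L * (2 * (2 * s)) := mul_le_mul_of_nonneg_left (h6.trans (by linarith)) hL0.le
      _ ≤ L * (2 * (2 * (ε / (8 * L)))) := by
          refine mul_le_mul_of_nonneg_left ?_ hL0.le
          linarith
      _ = ε / 2 := by field_simp; norm_num
  rw [Real.dist_eq] at h4
  calc |h k x - H z| = |(h k x - h k (fl (a k) z)) + (h k (fl (a k) z) - H z)| := by ring_nf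
    _ ≤ _ := abs_add_le _ _
    _ ≤ ε := by linarith

end

section data

variable {ι κ κ' : Type*} [Fintype κ] [Fintype κ'] {r : κ → ι → Site} {v : κ' → ι → Site}
  {ζ : κ → ℂ} {ω : κ' → ℂ}

/-- The product of the differences to the marked points. -/
noncomputable def PP (ζ : κ → ℂ) (ω : κ' → ℂ) (z : ℂ) : ℂ := (∏ p, (z - ζ p)) * ∏ p, (z - ω p)

/-- The derivative of the (complex) `H`-function. -/
noncomputable def gq (ζ : κ → ℂ) (ω : κ' → ℂ) (q : ℂ → ℂ) (z : ℂ) : ℂ :=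
  (⟨-1 / 2, 1 / 2⟩ : ℂ) * (q z ^ 2 / PP ζ ω z)

/-- The relations of the (rescaled) `H`-function hold locally eventually in `U`. -/
def HOn (l : Filter ι) (a : ι → ℝ) (U : Set ℂ) (A B C E Hs Hf : ι → Pt → ℝ) : Prop :=
  ∀ z ∈ U, ∀ᶠ kx in nf l a z,
    Hs kx.1 kx.2 - Hf kx.1 kx.2 = a kx.1 * A kx.1 kx.2 ^ 2 ∧
    Hs kx.1 (kx.2 + (1, 0)) - Hf kx.1 kx.2 = a kx.1 * B kx.1 kx.2 ^ 2 ∧
    Hs kx.1 (kx.2 + (0, 1)) - Hf kx.1 kx.2 = a kx.1 * C kx.1 kx.2 ^ 2 ∧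
    Hs kx.1 (kx.2 + (1, 1)) - Hf kx.1 kx.2 = a kx.1 * E kx.1 kx.2 ^ 2

variable {l : Filter ι} {a : ι → ℝ} {U : Set ℂ} {A B C E Hs Hf : ι → Pt → ℝ} {q : ℂ → ℂ}

/-- Limits of the squares of the components. -/
theorem SLim.sq (ha : Tendsto a l (𝓝[>] 0))
    (hr : ∀ p, Tendsto (fun k => pt (a k) (r p k)) l (𝓝 (ζ p)))
    (hv : ∀ q, Tendsto (fun k => pt (a k) (v q k)) l (𝓝 (ω q)))
    (hs : SLim l a U r v A B C E q) {z : ℂ} (hz : z ∈ U) (hM : z ∉ Mk ζ ω) :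
    ∃ f : ℂ, f ^ 2 = q z ^ 2 / PP ζ ω z ∧
      Tendsto (fun kx : ι × Pt => A kx.1 kx.2 ^ 2) (nf l a z) (𝓝 (phA f ^ 2)) ∧
      Tendsto (fun kx : ι × Pt => B kx.1 kx.2 ^ 2) (nf l a z) (𝓝 (phB f ^ 2)) ∧
      Tendsto (fun kx : ι × Pt => C kx.1 kx.2 ^ 2) (nf l a z) (𝓝 (phC f ^ 2)) ∧
      Tendsto (fun kx : ι × Pt => E kx.1 kx.2 ^ 2) (nf l a z) (𝓝 (phE f ^ 2)) := by
  obtain ⟨S, S', hS⟩ := exists_pattern (notMem_Mk.1 hM).1 (notMem_Mk.1 hM).2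
  have e : ∀ g x : ℝ, g * g = 1 → (g * x) ^ 2 = x ^ 2 := fun g x h => by
    rw [mul_pow, pow_two g, h, one_mul]
  refine ⟨q z / RS S S' ζ ω z, ?_, ?_, ?_, ?_, ?_⟩
  · rw [div_pow, pow_two (RS S S' ζ ω z), RS_sq]; rfl
  · exact ((of_xlim ha hr hv hS (Or.inl rfl) _ _ (hs.A z hz)).pow 2).congr fun kx =>
      e _ _ (gs_sq _ _ _ _ _)
  · exact ((of_xlim ha hr hv hS (Or.inr rfl) _ _ (hs.B z hz)).pow 2).congr fun kx =>
      e _ _ (gs_sq _ _ _ _ _)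
  · exact ((of_xlim ha hr hv hS (Or.inl rfl) _ _ (hs.C z hz)).pow 2).congr fun kx =>
      e _ _ (gs_sq _ _ _ _ _)
  · exact ((of_xlim ha hr hv hS (Or.inr rfl) _ _ (hs.E z hz)).pow 2).congr fun kx =>
      e _ _ (gs_sq _ _ _ _ _)

theorem sub_sq1 (f : ℂ) : phB f ^ 2 - phA f ^ 2 = ((⟨-1 / 2, 1 / 2⟩ : ℂ) * f ^ 2).re := by
  rw [phB_apply, phA_apply]
  have h2 : √2 ^ 2 = 2 := Real.sq_sqrt (by norm_num)
  rw [div_pow, h2]
  simp only [mul_re, pow_two, mul_im]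
  ring

theorem sub_sq2 (f : ℂ) : phC f ^ 2 - phA f ^ 2 = -((⟨-1 / 2, 1 / 2⟩ : ℂ) * f ^ 2).im := by
  rw [phC_apply, phA_apply]
  have h2 : √2 ^ 2 = 2 := Real.sq_sqrt (by norm_num)
  rw [div_pow, h2]
  simp only [mul_re, pow_two, mul_im]
  ring

/-- Limits of the differences of `Hs`. -/
theorem grad_lim (ha : Tendsto a l (𝓝[>] 0))
    (hr : ∀ p, Tendsto (fun k => pt (a k) (r p k)) l (𝓝 (ζ p)))
    (hv : ∀ q, Tendsto (fun k => pt (a k) (v q k)) l (𝓝 (ω q)))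
    (hU : ∀ z ∈ U, z ∉ Mk ζ ω) (hs : SLim l a U r v A B C E q)
    (hH : HOn l a U A B C E Hs Hf) :
    CConv l a U (fun k x => (a k)⁻¹ * D (1, 0) (Hs k) x) (fun z => (gq ζ ω q z).re) ∧
    CConv l a U (fun k x => (a k)⁻¹ * D (0, 1) (Hs k) x) (fun z => -(gq ζ ω q z).im) := by
  rw [cconv_iff, cconv_iff]
  constructor
  · intro z hz
    obtain ⟨f, hf, cA, cB, cC, cE⟩ := hs.sq ha hr hv hz (hU z hz)
    have h1 := cB.sub cA
    rw [sub_sq1, hf] at h1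
    refine h1.congr' ?_
    filter_upwards [hH z hz, apos_nf ha z] with kx h2 h0
    obtain ⟨e1, e2, -, -⟩ := h2
    unfold D
    have : Hs kx.1 (kx.2 + (1, 0)) - Hs kx.1 kx.2 = a kx.1 * (B kx.1 kx.2 ^ 2 - A kx.1 kx.2 ^ 2) := by
      linear_combination e2 - e1
    rw [this]; field_simp
  · intro z hz
    obtain ⟨f, hf, cA, cB, cC, cE⟩ := hs.sq ha hr hv hz (hU z hz)
    have h1 := cC.sub cA
    rw [sub_sq2, hf] at h1
    refine h1.congr' ?_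
    filter_upwards [hH z hz, apos_nf ha z] with kx h2 h0
    obtain ⟨e1, -, e2, -⟩ := h2
    unfold D
    have : Hs kx.1 (kx.2 + (0, 1)) - Hs kx.1 kx.2 = a kx.1 * (C kx.1 kx.2 ^ 2 - A kx.1 kx.2 ^ 2) := by
      linear_combination e2 - e1
    rw [this]; field_simp

/-- **Limit of the `H`-function.** -/
theorem hlim_exists {l : Ultrafilter ι} (ha : Tendsto a l (𝓝[>] 0)) (hUo : IsOpen U)
    (hr : ∀ p, Tendsto (fun k => pt (a k) (r p k)) l (𝓝 (ζ p)))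
    (hv : ∀ q, Tendsto (fun k => pt (a k) (v q k)) l (𝓝 (ω q)))
    (hU : ∀ z ∈ U, z ∉ Mk ζ ω) (hs : SLim l a U r v A B C E q)
    (hH : HOn l a U A B C E Hs Hf)
    (hb : ∀ z ∈ U, ∃ M, ∀ᶠ k in l, |Hs k (fl (a k) z)| ≤ M) :
    ∃ h : ℂ → ℝ, CConv l a U Hs h ∧ CConv l a U Hf h ∧
      ∀ z ∈ U, HasStrictFDerivAt h ((gq ζ ω q z).re • reCLM + (-(gq ζ ω q z).im) • imCLM) z := by
  obtain ⟨g1, g2⟩ := grad_lim ha hr hv hU hs hH
  obtain ⟨h, hh⟩ := exists_of_grad ha g1 g2 hb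
  refine ⟨h, hh, ?_, fun z hz => hh.strict ha hUo g1 g2 hz⟩
  rw [cconv_iff] at hh ⊢
  intro z hz
  obtain ⟨f, hf, cA, cB, cC, cE⟩ := hs.sq ha hr hv hz (hU z hz)
  have h1 := (hh z hz).sub ((a_nf ha z).mul cA)
  rw [zero_mul, sub_zero] at h1
  refine h1.congr' ?_
  filter_upwards [hH z hz] with kx h2
  linear_combination h2.1

end data

end Vale.Agent.P144.H170
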