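import Mathlib.Analysis.SpecialFunctions.Pow.Deriv
import Mathlib.Tactic

/-!
Square roots with vertical cuts.
-/

namespace Vale.Agent.P144.H170

open Complex

/-- The square root with the cut `i [0, ∞)` (upwards), equal to `1` at `1`. -/
noncomputable def rtu (z : ℂ) : ℂ := exp (-(Real.pi / 4 * I)) * (I * z) ^ (1 / 2 : ℂ)

/-- The square root with the cut `-i [0, ∞)` (downwards), equal to `1` at `1`. -/
noncomputable def rtd (z : ℂ) : ℂ := exp (Real.pi / 4 * I) * (-I * z) ^ (1 / 2 : ℂ)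

theorem cpow_half_mul (z : ℂ) : z ^ (1 / 2 : ℂ) * z ^ (1 / 2 : ℂ) = z := by
  have := cpow_nat_inv_pow z (n := 2) (by norm_num)
  rw [pow_two] at this
  rw [one_div]
  exact_mod_cast this

theorem rtu_mul_self (z : ℂ) : rtu z * rtu z = z := by
  unfold rtu
  have e : exp (-(Real.pi / 4 * I)) * exp (-(Real.pi / 4 * I)) = -I := by
    rw [← exp_add, show -((Real.pi:ℂ) / 4 * I) + -(Real.pi / 4 * I) = -(Real.pi / 2 * I) by ring,
      exp_neg, exp_mul_I, cos_pi_div_two, sin_pi_div_two]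
    simp
  calc _ = (exp (-(Real.pi / 4 * I)) * exp (-(Real.pi / 4 * I))) *
        ((I * z) ^ (1 / 2 : ℂ) * (I * z) ^ (1 / 2 : ℂ)) := by ring
    _ = z := by
      rw [e, cpow_half_mul, ← mul_assoc, neg_mul, I_mul_I]; ring

theorem rtd_mul_self (z : ℂ) : rtd z * rtd z = z := by
  unfold rtd
  have e : exp (Real.pi / 4 * I) * exp (Real.pi / 4 * I) = I := by
    rw [← exp_add, show (Real.pi:ℂ) / 4 * I + Real.pi / 4 * I = Real.pi / 2 * I by ring,
      exp_mul_I, cos_pi_div_two, sin_pi_div_two]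
    simp
  calc _ = (exp (Real.pi / 4 * I) * exp (Real.pi / 4 * I)) *
        ((-I * z) ^ (1 / 2 : ℂ) * (-I * z) ^ (1 / 2 : ℂ)) := by ring
    _ = z := by
      rw [e, cpow_half_mul, ← mul_assoc, mul_neg, I_mul_I]; ring

theorem exp_log_half {z : ℂ} (hz : 0 < z.re) :
    rtu z = exp (log z / 2) ∧ rtd z = exp (log z / 2) := by
  have hz0 : z ≠ 0 := by rintro rfl; simp at hz
  have harg := abs_lt.1 (abs_arg_lt_pi_div_two_iff.2 (Or.inl hz))
  have hpi := Real.pi_pos
  have e1 : log (I * z) = log I + log z :=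
    (log_mul_eq_add_log_iff I_ne_zero hz0).2 (by
      rw [arg_I]; exact ⟨by linarith, by linarith⟩)
  have e2 : log (-I * z) = log (-I) + log z :=
    (log_mul_eq_add_log_iff (neg_ne_zero.2 I_ne_zero) hz0).2 (by
      rw [arg_neg_I]; exact ⟨by linarith, by linarith⟩)
  constructor
  · unfold rtu
    rw [cpow_def_of_ne_zero (mul_ne_zero I_ne_zero hz0), e1, log_I, ← exp_add]
    congr 1; ring
  · unfold rtd
    rw [cpow_def_of_ne_zero (mul_ne_zero (neg_ne_zero.2 I_ne_zero) hz0), e2, log_neg_I, ← exp_add]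
    congr 1; ring

theorem rtu_neg (z : ℂ) : rtu (-z) = -I * rtd z := by
  unfold rtu rtd
  rw [show I * -z = -I * z by ring, ← mul_assoc]
  congr 1
  have e : exp (Real.pi / 2 * I) = I := by
    rw [exp_mul_I, cos_pi_div_two, sin_pi_div_two]; simp
  have : exp (Real.pi / 4 * I) = exp (Real.pi / 2 * I) * exp (-(Real.pi / 4 * I)) := by
    rw [← exp_add]; congr 1; ring
  rw [this, e, ← mul_assoc, neg_mul, I_mul_I]; ring

theorem rtd_neg (z : ℂ) : rtd (-z) = I * rtu z := by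
  have := rtu_neg (-z)
  rw [neg_neg] at this
  rw [this, ← mul_assoc, mul_neg, I_mul_I]; ring

theorem rtd_eq_pos {z : ℂ} (hz : 0 < z.re) : rtd z = rtu z := by
  rw [(exp_log_half hz).1, (exp_log_half hz).2]

theorem rtd_eq_neg {z : ℂ} (hz : z.re < 0) : rtd z = - rtu z := by
  have h1 : 0 < (-z).re := by simpa using hz
  have h2 := rtd_eq_pos h1
  rw [rtu_neg, rtd_neg] at h2
  have h3 : I * (I * rtu z) = I * (-I * rtd z) := by rw [h2]
  rw [← mul_assoc, ← mul_assoc, mul_neg, I_mul_I] at h3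
  linear_combination (-1) * h3

/-- The sign of a real number. -/
noncomputable def sg (t : ℝ) : ℝ := if 0 < t then 1 else -1

theorem sg_sq (t : ℝ) : sg t * sg t = 1 := by unfold sg; split_ifs <;> norm_num

theorem rtu_eq_sg {z : ℂ} (hz : z.re ≠ 0) : rtu z = sg z.re * rtd z := by
  unfold sg
  rcases lt_or_gt_of_ne hz with h | h
  · rw [if_neg (not_lt.2 h.le), rtd_eq_neg h]; simp
  · rw [if_pos h, rtd_eq_pos h]; simp

theorem rtd_eq_sg {z : ℂ} (hz : z.re ≠ 0) : rtd z = sg z.re * rtu z := by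
  rw [rtu_eq_sg hz, ← mul_assoc, ← ofReal_mul, sg_sq]; simp

theorem norm_rtu (z : ℂ) : ‖rtu z‖ = √‖z‖ := by
  have h := congrArg norm (rtu_mul_self z)
  rw [norm_mul] at h
  rw [← h, Real.sqrt_mul_self (norm_nonneg _)]

theorem norm_rtd (z : ℂ) : ‖rtd z‖ = √‖z‖ := by
  have h := congrArg norm (rtd_mul_self z)
  rw [norm_mul] at h
  rw [← h, Real.sqrt_mul_self (norm_nonneg _)]

theorem rtu_ne {z : ℂ} (hz : z ≠ 0) : rtu z ≠ 0 := by
  rw [← norm_pos_iff, norm_rtu]; exact Real.sqrt_pos.2 (norm_pos_iff.2 hz)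

theorem rtd_ne {z : ℂ} (hz : z ≠ 0) : rtd z ≠ 0 := by
  rw [← norm_pos_iff, norm_rtd]; exact Real.sqrt_pos.2 (norm_pos_iff.2 hz)

theorem rtu_diff {z : ℂ} (hz : z.re ≠ 0 ∨ z.im < 0) : DifferentiableAt ℂ rtu z := by
  unfold rtu
  refine DifferentiableAt.const_mul ?_ _
  refine DifferentiableAt.cpow_const (by fun_prop) ?_
  rw [mem_slitPlane_iff]
  simp only [mul_re, I_re, I_im, mul_im]
  rcases hz with h | h
  · right; simpa using h
  · left; simpa using h

theorem rtd_diff {z : ℂ} (hz : z.re ≠ 0 ∨ 0 < z.im) : DifferentiableAt ℂ rtd z := by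
  unfold rtd
  refine DifferentiableAt.const_mul ?_ _
  refine DifferentiableAt.cpow_const (by fun_prop) ?_
  rw [mem_slitPlane_iff]
  simp only [mul_re, I_re, I_im, mul_im, neg_re, neg_im]
  rcases hz with h | h
  · right; simpa using h
  · left; simpa using h

end Vale.Agent.P144.H170
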