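import Vale.Agent.P144.H170.Clean
import Vale.Agent.P144.H170.Root
import Vale.Agent.P144.U.AL.Fin1

/-!
Limits of discrete spinors with sign anomalies along vertical cuts.
-/

namespace Vale.Agent.P144.H170

open Filter Topology Complex

section nf

variable {ι : Type*} {l : Filter ι} {a : ι → ℝ}

/-- The filter of pairs (index, lattice point close to `z`). -/
noncomputable def nf (l : Filter ι) (a : ι → ℝ) (z : ℂ) : Filter (ι × Pt) :=
  (l ×ˢ ⊤) ⊓ comap (fun kx => pt (a kx.1) kx.2) (𝓝 z)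

theorem ev_nf {z : ℂ} {P : ι → Pt → Prop} : (∀ᶠ kx in nf l a z, P kx.1 kx.2) ↔
    ∃ r > 0, ∀ᶠ k in l, ∀ x, ‖pt (a k) x - z‖ ≤ r → P k x := by
  constructor
  · intro h
    rw [nf, Filter.eventually_inf] at h
    obtain ⟨s, hs, t, ht, hst⟩ := h
    rw [mem_prod_top] at hs
    obtain ⟨V, hV, hVt⟩ := ht
    obtain ⟨r, hr, hrV⟩ := Metric.mem_nhds_iff.1 hV
    refine ⟨r / 2, by positivity, ?_⟩
    filter_upwards [hs] with k hk x hx
    refine hst (k, x) ⟨hk x, hVt (hrV ?_)⟩
    rw [Metric.mem_ball, dist_eq_norm]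
    exact lt_of_le_of_lt hx (by linarith)
  · rintro ⟨r, hr, h⟩
    rw [nf, Filter.eventually_inf]
    refine ⟨{kx | ∀ x, ‖pt (a kx.1) x - z‖ ≤ r → P kx.1 x}, ?_,
      {kx | ‖pt (a kx.1) kx.2 - z‖ ≤ r}, ?_, fun kx hkx => hkx.1 kx.2 hkx.2⟩
    · rw [mem_prod_top]
      filter_upwards [h] with k hk _
      exact hk
    · refine ⟨Metric.ball z r, Metric.ball_mem_nhds z hr, fun kx hkx => ?_⟩
      have : pt (a kx.1) kx.2 ∈ Metric.ball z r := hkx
      rw [Metric.mem_ball, dist_eq_norm] at this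
      exact this.le
where
  mem_prod_top {s : Set (ι × Pt)} : s ∈ l ×ˢ (⊤ : Filter Pt) ↔ ∀ᶠ k in l, ∀ x, (k, x) ∈ s := by
    rw [Filter.mem_prod_top]; rfl

theorem ev_nf_of {z : ℂ} {P : ι → Prop} (h : ∀ᶠ k in l, P k) : ∀ᶠ kx in nf l a z, P kx.1 :=
  ev_nf.2 ⟨1, one_pos, by filter_upwards [h] with k hk _ _; exact hk⟩

theorem tendsto_fst_nf (z : ℂ) : Tendsto Prod.fst (nf l a z) l := fun s hs =>
  ev_nf_of (P := fun k => k ∈ s) hs

theorem tendsto_pt_nf (z : ℂ) : Tendsto (fun kx : ι × Pt => pt (a kx.1) kx.2) (nf l a z) (𝓝 z) :=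
  tendsto_comap.mono_left inf_le_right

theorem nf_neBot [NeBot l] (ha : Tendsto a l (𝓝[>] 0)) (z : ℂ) : NeBot (nf l a z) := by
  rw [← Filter.not_eventually_false_iff_neBot]
  intro h
  rw [ev_nf (P := fun _ _ => False)] at h
  obtain ⟨r, hr, h⟩ := h
  have ha0 : ∀ᶠ k in l, 0 < a k := ha.eventually self_mem_nhdsWithin
  have ha1 : ∀ᶠ k in l, a k < r / 2 :=
    (ha.mono_right nhdsWithin_le_nhds).eventually (gt_mem_nhds (by positivity))
  obtain ⟨k, h1, h2, h3⟩ := (h.and (ha0.and ha1)).exists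
  exact h1 _ ((pt_fl_norm h2 z).trans (by linarith))
where
  Filter.not_eventually_false_iff_neBot {α : Type _} {f : Filter α} :
      (¬ ∀ᶠ _ in f, False) ↔ NeBot f := by
    rw [Filter.eventually_false_iff_eq_bot, Filter.neBot_iff]

theorem cconv_iff {U : Set ℂ} {h : ι → Pt → ℝ} {H : ℂ → ℝ} : CConv l a U h H ↔
    ∀ z ∈ U, Tendsto (fun kx : ι × Pt => h kx.1 kx.2) (nf l a z) (𝓝 (H z)) := by
  constructor
  · intro hc z hz
    rw [Metric.tendsto_nhds]
    intro ε hε
    obtain ⟨r, hr, hk⟩ := hc z hz (ε / 2) (by positivity)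
    refine (ev_nf (P := fun k x => dist (h k x) (H z) < ε)).2 ⟨r, hr, ?_⟩
    filter_upwards [hk] with k h1 x hx
    rw [Real.dist_eq]
    exact lt_of_le_of_lt (h1 x hx) (by linarith)
  · intro hc z hz ε hε
    have := (Metric.tendsto_nhds.1 (hc z hz)) ε hε
    obtain ⟨r, hr, hk⟩ := ev_nf (P := fun k x => dist (h k x) (H z) < ε).1 this
    refine ⟨r, hr, ?_⟩
    filter_upwards [hk] with k h1 x hx
    have := h1 x hx
    rw [Real.dist_eq] at this
    exact this.le

theorem a_nf (ha : Tendsto a l (𝓝[>] 0)) (z : ℂ) :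
    Tendsto (fun kx : ι × Pt => a kx.1) (nf l a z) (𝓝 0) :=
  (ha.mono_right nhdsWithin_le_nhds).comp (tendsto_fst_nf z)

theorem apos_nf (ha : Tendsto a l (𝓝[>] 0)) (z : ℂ) : ∀ᶠ kx in nf l a z, 0 < a kx.1 :=
  ev_nf_of (ha.eventually self_mem_nhdsWithin)

end nf

/-- A position in the face `x`. -/
noncomputable def pos (a : ℝ) (x : Pt) (s t : ℝ) : ℂ := ⟨a * (x.1 + s), a * (x.2 + t)⟩

theorem pos_eq (a : ℝ) (x : Pt) (s t : ℝ) : pos a x s t = pt a x + a * (⟨s, t⟩ : ℂ) := by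
  apply Complex.ext <;> simp [pos, pt] <;> ring

section data

variable {ι κ κ' : Type*} [Fintype κ] [Fintype κ']

/-- The sign of the relation between `x` and `x + (0, 1)` for disorders `r`. -/
noncomputable def tauF (r : κ → Site) (x : Pt) : ℝ := ∏ p, AL.cut1 (r p) (x.1, x.2 + 1)

/-- The sign of the relation between `x` and `x + (1, 0)` for inserted spins `v`. -/
noncomputable def theF (v : κ' → Site) (x : Pt) : ℝ := ∏ q, chi (AL.sw x.1 x.2) (v q)

/-- The relations with signs. -/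
def Rel (t th A B C E : Pt → ℝ) (x : Pt) : Prop :=
  C x = √2 * A (x + (0, 1)) - t x * B (x + (0, 1)) ∧
  E x = √2 * B (x + (0, 1)) - t x * A (x + (0, 1)) ∧
  B x = th x * (√2 * A (x + (1, 0)) - C (x + (1, 0))) ∧
  E x = -(th x * (√2 * C (x + (1, 0)) - A (x + (1, 0))))

/-- The relations hold locally eventually in `U`. -/
def RelOn (l : Filter ι) (a : ι → ℝ) (U : Set ℂ) (r : κ → ι → Site) (v : κ' → ι → Site)
    (A B C E : ι → Pt → ℝ) : Prop :=
  ∀ z ∈ U, ∀ᶠ kx in nf l a z, Rel (tauF fun p => r p kx.1) (theF fun q => v q kx.1)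
    (A kx.1) (B kx.1) (C kx.1) (E kx.1) kx.2

open Classical in
/-- The gauge function for the pattern `S`, `S'` at horizontal position `t`. -/
noncomputable def gs (S : κ → Prop) (S' : κ' → Prop) (r : κ → Site) (v : κ' → Site) (t : ℝ) : ℝ :=
  (∏ p, if S p then sg (t - (r p).1 - 1 / 2) else 1) * ∏ q, if S' q then sg (t - (v q).1) else 1

open Classical in
theorem gs_sq (S : κ → Prop) (S' : κ' → Prop) (r : κ → Site) (v : κ' → Site) (t : ℝ) :
    gs S S' r v t * gs S S' r v t = 1 := by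
  unfold gs
  have h1 : (∏ p, if S p then sg (t - (r p).1 - 1 / 2) else 1) *
      (∏ p, if S p then sg (t - (r p).1 - 1 / 2) else 1) = 1 := by
    rw [← Finset.prod_mul_distrib]
    refine Finset.prod_eq_one fun p _ => ?_
    split_ifs
    · exact sg_sq _
    · norm_num
  have h2 : (∏ q, if S' q then sg (t - (v q).1) else 1) *
      (∏ q, if S' q then sg (t - (v q).1) else 1) = 1 := by
    rw [← Finset.prod_mul_distrib]
    refine Finset.prod_eq_one fun p _ => ?_
    split_ifs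
    · exact sg_sq _
    · norm_num
  rw [mul_mul_mul_comm, h1, h2, one_mul]

theorem sg_pos {t : ℝ} (h : 0 < t) : sg t = 1 := by unfold sg; rw [if_pos h]

theorem sg_neg {t : ℝ} (h : t ≤ 0) : sg t = -1 := by unfold sg; rw [if_neg (not_lt.2 h)]

theorem sgF (m n : ℤ) : sg ((m:ℝ) + 1 / 4 - n - 1 / 2) * sg ((m:ℝ) + 3 / 4 - n - 1 / 2) =
    if m = n then -1 else 1 := by
  rcases lt_trichotomy m n with h | h | h
  · have h' : (m:ℝ) + 1 ≤ n := by exact_mod_cast h
    rw [if_neg (by lia), sg_neg (by linarith), sg_neg (by linarith)]; norm_num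
  · subst h
    rw [if_pos rfl, sg_neg (by linarith), sg_pos (by linarith)]; norm_num
  · have h' : (n:ℝ) + 1 ≤ m := by exact_mod_cast h
    rw [if_neg (by lia), sg_pos (by linarith), sg_pos (by linarith)]; norm_num

theorem sgF' (m n : ℤ) : sg ((m:ℝ) + 3 / 4 - n - 1 / 2) * sg ((m:ℝ) + 5 / 4 - n - 1 / 2) = 1 := by
  rcases lt_or_ge m n with h | h
  · have h' : (m:ℝ) + 1 ≤ n := by exact_mod_cast h
    rw [sg_neg (by linarith), sg_neg (by linarith)]; norm_num
  · have h' : (n:ℝ) ≤ m := by exact_mod_cast h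
    rw [sg_pos (by linarith), sg_pos (by linarith)]; norm_num

theorem sgV (m n : ℤ) : sg ((m:ℝ) + 1 / 4 - n) * sg ((m:ℝ) + 3 / 4 - n) = 1 := by
  rcases lt_or_ge m n with h | h
  · have h' : (m:ℝ) + 1 ≤ n := by exact_mod_cast h
    rw [sg_neg (by linarith), sg_neg (by linarith)]; norm_num
  · have h' : (n:ℝ) ≤ m := by exact_mod_cast h
    rw [sg_pos (by linarith), sg_pos (by linarith)]; norm_num

theorem sgV' (m n : ℤ) : sg ((m:ℝ) + 3 / 4 - n) * sg ((m:ℝ) + 5 / 4 - n) =
    if n = m + 1 then -1 else 1 := by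
  rcases lt_trichotomy n (m + 1) with h | h | h
  · have h' : (n:ℝ) + 1 ≤ m + 1 := by exact_mod_cast h
    rw [if_neg (by lia), sg_pos (by linarith), sg_pos (by linarith)]; norm_num
  · subst h
    push_cast
    rw [if_pos rfl, sg_neg (by linarith), sg_pos (by linarith)]; norm_num
  · have h' : (m:ℝ) + 1 + 1 ≤ n := by exact_mod_cast h
    rw [if_neg (by lia), sg_neg (by linarith), sg_neg (by linarith)]; norm_num

/-- The region in which the pattern `S`, `S'` describes the cuts that are met. -/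
def VS (S : κ → Prop) (S' : κ' → Prop) (ζ : κ → ℂ) (ω : κ' → ℂ) : Set ℂ :=
  {z | (∀ p, (S p → 0 < (z - ζ p).im) ∧ (¬ S p → (z - ζ p).re ≠ 0 ∨ (z - ζ p).im < 0)) ∧
    ∀ q, (S' q → (z - ω q).im < 0) ∧ (¬ S' q → (z - ω q).re ≠ 0 ∨ 0 < (z - ω q).im)}

theorem VS_open (S : κ → Prop) (S' : κ' → Prop) (ζ : κ → ℂ) (ω : κ' → ℂ) :
    IsOpen (VS S S' ζ ω) := by
  have h1 : ∀ w : ℂ, IsOpen {z : ℂ | 0 < (z - w).im} := fun w =>
    isOpen_lt continuous_const (by fun_prop)
  have h2 : ∀ w : ℂ, IsOpen {z : ℂ | (z - w).im < 0} := fun w =>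
    isOpen_lt (by fun_prop) continuous_const
  have h3 : ∀ w : ℂ, IsOpen {z : ℂ | (z - w).re ≠ 0} := fun w =>
    isOpen_ne_fun (by fun_prop) continuous_const
  have e : VS S S' ζ ω = (⋂ p, {z | (S p → 0 < (z - ζ p).im) ∧
      (¬ S p → (z - ζ p).re ≠ 0 ∨ (z - ζ p).im < 0)}) ∩
      ⋂ q, {z | (S' q → (z - ω q).im < 0) ∧ (¬ S' q → (z - ω q).re ≠ 0 ∨ 0 < (z - ω q).im)} := by
    ext z; simp only [VS, Set.mem_ofPred_eq, Set.mem_inter_iff, Set.mem_iInter]
  rw [e]
  refine IsOpen.inter (isOpen_iInter_of_finite fun p => ?_) (isOpen_iInter_of_finite fun q => ?_)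
  · by_cases h : S p
    · simp only [h, true_imp_iff, not_true_eq_false, false_imp_iff, and_true]
      exact h1 _
    · simp only [h, false_imp_iff, not_false_eq_true, true_imp_iff, true_and]
      exact (h3 _).union (h2 _)
  · by_cases h : S' q
    · simp only [h, true_imp_iff, not_true_eq_false, false_imp_iff, and_true]
      exact h2 _
    · simp only [h, false_imp_iff, not_false_eq_true, true_imp_iff, true_and]
      exact (h3 _).union (h1 _)

omit [Fintype κ] [Fintype κ'] in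
/-- Every point different from the marked points has a pattern. -/
theorem exists_pattern {ζ : κ → ℂ} {ω : κ' → ℂ} {z : ℂ} (hz : ∀ p, z ≠ ζ p) (hz' : ∀ q, z ≠ ω q) :
    ∃ S S', z ∈ VS S S' ζ ω := by
  refine ⟨fun p => (z - ζ p).re = 0 ∧ 0 < (z - ζ p).im, fun q => (z - ω q).re = 0 ∧
    (z - ω q).im < 0, ?_, ?_⟩
  · intro p
    refine ⟨fun h => h.2, fun h => ?_⟩
    by_contra hc
    push Not at hc
    rcases hc.2.eq_or_lt with h0 | h0
    · exact hz p (sub_eq_zero.1 (Complex.ext hc.1 h0.symm))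
    · exact h ⟨hc.1, h0⟩
  · intro q
    refine ⟨fun h => h.2, fun h => ?_⟩
    by_contra hc
    push Not at hc
    rcases hc.2.eq_or_lt with h0 | h0
    · exact hz' q (sub_eq_zero.1 (Complex.ext hc.1 h0))
    · exact h ⟨hc.1, h0⟩

section near

variable {l : Filter ι} {a : ι → ℝ} (ha : Tendsto a l (𝓝[>] 0))

include ha

theorem re_nf {y : ι → Site} {w z : ℂ} (hy : Tendsto (fun k => pt (a k) (y k)) l (𝓝 w)) (m : ℝ) :
    Tendsto (fun kx : ι × Pt => a kx.1 * (kx.2.1 - (y kx.1).1 + m)) (nf l a z)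
      (𝓝 (z - w).re) := by
  have h1 := (continuous_re.tendsto _).comp ((tendsto_pt_nf (l := l) (a := a) z).sub
    (hy.comp (tendsto_fst_nf z)))
  have h2 := (a_nf ha z).mul_const m
  rw [zero_mul] at h2
  have h3 := h1.add h2
  rw [add_zero] at h3
  refine h3.congr fun kx => ?_
  simp only [Function.comp_apply, sub_re, pt]
  ring

theorem im_nf {y : ι → Site} {w z : ℂ} (hy : Tendsto (fun k => pt (a k) (y k)) l (𝓝 w)) (m : ℝ) :
    Tendsto (fun kx : ι × Pt => a kx.1 * (kx.2.2 - (y kx.1).2 + m)) (nf l a z)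
      (𝓝 (z - w).im) := by
  have h1 := (continuous_im.tendsto _).comp ((tendsto_pt_nf (l := l) (a := a) z).sub
    (hy.comp (tendsto_fst_nf z)))
  have h2 := (a_nf ha z).mul_const m
  rw [zero_mul] at h2
  have h3 := h1.add h2
  rw [add_zero] at h3
  refine h3.congr fun kx => ?_
  simp only [Function.comp_apply, sub_im, pt]
  ring

theorem near_re {y : ι → Site} {w z : ℂ} (hy : Tendsto (fun k => pt (a k) (y k)) l (𝓝 w))
    (h : (z - w).re ≠ 0) (m : ℤ) : ∀ᶠ kx in nf l a z, kx.2.1 + m ≠ (y kx.1).1 := by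
  have h1 := (re_nf ha hy m (z := z)).eventually_ne h
  filter_upwards [h1] with kx h2 h3
  apply h2
  rw [← h3]; push_cast; ring

theorem near_pos {y : ι → Site} {w z : ℂ} (hy : Tendsto (fun k => pt (a k) (y k)) l (𝓝 w))
    (h : 0 < (z - w).im) (m : ℤ) : ∀ᶠ kx in nf l a z, (y kx.1).2 < kx.2.2 + m := by
  have h1 := (im_nf ha hy m (z := z)).eventually (lt_mem_nhds h)
  filter_upwards [h1, apos_nf ha z] with kx h2 h3
  have h4 : 0 < (kx.2.2 - (y kx.1).2 + m : ℝ) := by
    by_contra hc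
    push Not at hc
    nlinarith
  have h5 : (0:ℝ) < ((kx.2.2 - (y kx.1).2 + m : ℤ) : ℝ) := by push_cast; exact h4
  have h6 : 0 < kx.2.2 - (y kx.1).2 + m := by exact_mod_cast h5
  lia

theorem near_neg {y : ι → Site} {w z : ℂ} (hy : Tendsto (fun k => pt (a k) (y k)) l (𝓝 w))
    (h : (z - w).im < 0) (m : ℤ) : ∀ᶠ kx in nf l a z, kx.2.2 + m < (y kx.1).2 := by
  have h1 := (im_nf ha hy m (z := z)).eventually (gt_mem_nhds h)
  filter_upwards [h1, apos_nf ha z] with kx h2 h3
  have h4 : (kx.2.2 - (y kx.1).2 + m : ℝ) < 0 := by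
    by_contra hc
    push Not at hc
    nlinarith
  have h5 : ((kx.2.2 - (y kx.1).2 + m : ℤ) : ℝ) < 0 := by push_cast; exact h4
  have h6 : kx.2.2 - (y kx.1).2 + m < 0 := by exact_mod_cast h5
  lia

variable {r : κ → ι → Site} {v : κ' → ι → Site} {ζ : κ → ℂ} {ω : κ' → ℂ}
  (hr : ∀ p, Tendsto (fun k => pt (a k) (r p k)) l (𝓝 (ζ p)))
  (hv : ∀ q, Tendsto (fun k => pt (a k) (v q k)) l (𝓝 (ω q)))
  {S : κ → Prop} {S' : κ' → Prop}

include hr hv

/-- The signs of the relations in terms of the gauge function. -/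
theorem gauge_signs {z : ℂ} (hz : z ∈ VS S S' ζ ω) : ∀ᶠ kx in nf l a z,
    tauF (fun p => r p kx.1) kx.2 = gs S S' (fun p => r p kx.1) (fun q => v q kx.1)
      ((kx.2.1:ℝ) + 1 / 4) * gs S S' (fun p => r p kx.1) (fun q => v q kx.1)
      ((kx.2.1:ℝ) + 3 / 4) ∧
    theF (fun q => v q kx.1) kx.2 = gs S S' (fun p => r p kx.1) (fun q => v q kx.1)
      ((kx.2.1:ℝ) + 3 / 4) * gs S S' (fun p => r p kx.1) (fun q => v q kx.1)
      ((kx.2.1:ℝ) + 5 / 4) := by
  classical
  obtain ⟨h1, h2⟩ := hz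
  have k1 : ∀ᶠ kx in nf l a z, ∀ p, AL.cut1 (r p kx.1) (kx.2.1, kx.2.2 + 1) =
      if S p then (if kx.2.1 = (r p kx.1).1 then -1 else 1) else 1 := by
    rw [eventually_all]
    intro p
    by_cases hS : S p
    · filter_upwards [near_pos ha (hr p) ((h1 p).1 hS) 1] with kx h3
      rw [if_pos hS]
      unfold AL.cut1
      by_cases h4 : kx.2.1 = (r p kx.1).1
      · rw [if_pos ⟨h4, h3⟩, if_pos h4]
      · rw [if_neg fun h => h4 h.1, if_neg h4]
    · rcases (h1 p).2 hS with h3 | h3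
      · filter_upwards [near_re ha (hr p) h3 0] with kx h4
        rw [if_neg hS]
        unfold AL.cut1
        rw [if_neg fun h => h4 (by simpa using h.1)]
      · filter_upwards [near_neg ha (hr p) h3 1] with kx h4
        rw [if_neg hS]
        unfold AL.cut1
        rw [if_neg fun h => absurd h.2 (not_lt.2 h4.le)]
  have k2 : ∀ᶠ kx in nf l a z, ∀ q, chi (AL.sw kx.2.1 kx.2.2) (v q kx.1) =
      if S' q then (if (v q kx.1).1 = kx.2.1 + 1 then -1 else 1) else 1 := by
    rw [eventually_all]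
    intro q
    by_cases hS : S' q
    · filter_upwards [near_neg ha (hv q) ((h2 q).1 hS) 0] with kx h3
      rw [if_pos hS]
      unfold chi AL.sw
      by_cases h4 : (v q kx.1).1 = kx.2.1 + 1
      · rw [if_pos ⟨h4, by simpa using h3⟩, if_pos h4]
      · rw [if_neg fun h => h4 h.1, if_neg h4]
    · rcases (h2 q).2 hS with h3 | h3
      · filter_upwards [near_re ha (hv q) h3 1] with kx h4
        rw [if_neg hS]
        unfold chi AL.sw
        rw [if_neg fun h => h4 h.1.symm]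
      · filter_upwards [near_pos ha (hv q) h3 0] with kx h4
        rw [if_neg hS]
        unfold chi AL.sw
        rw [if_neg fun h => absurd h.2 (not_lt.2 (by simpa using h4.le))]
  filter_upwards [k1, k2] with kx h3 h4
  have mul4 : ∀ x y z w : ℝ, x * y * (z * w) = (x * z) * (y * w) := fun x y z w => by ring
  constructor
  · unfold tauF gs
    rw [mul4, ← Finset.prod_mul_distrib, ← Finset.prod_mul_distrib]
    have e2 : (∏ q, (if S' q then sg ((kx.2.1:ℝ) + 1 / 4 - (v q kx.1).1) else 1) *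
        (if S' q then sg ((kx.2.1:ℝ) + 3 / 4 - (v q kx.1).1) else 1)) = 1 := by
      refine Finset.prod_eq_one fun q _ => ?_
      split_ifs
      · exact sgV _ _
      · norm_num
    rw [e2, mul_one]
    refine Finset.prod_congr rfl fun p _ => ?_
    rw [h3 p]
    split_ifs with h5 h6
    · rw [sgF, if_pos h6]
    · rw [sgF, if_neg h6]
    · norm_num
  · unfold theF gs
    rw [mul4, ← Finset.prod_mul_distrib, ← Finset.prod_mul_distrib]
    have e2 : (∏ p, (if S p then sg ((kx.2.1:ℝ) + 3 / 4 - (r p kx.1).1 - 1 / 2) else 1) *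
        (if S p then sg ((kx.2.1:ℝ) + 5 / 4 - (r p kx.1).1 - 1 / 2) else 1)) = 1 := by
      refine Finset.prod_eq_one fun q _ => ?_
      split_ifs
      · exact sgF' _ _
      · norm_num
    rw [e2, one_mul]
    refine Finset.prod_congr rfl fun q _ => ?_
    rw [h4 q]
    split_ifs with h5 h6
    · rw [sgV', if_pos h6]
    · rw [sgV', if_neg h6]
    · norm_num

end near

end data

end Vale.Agent.P144.H170
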