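import Vale.Agent.P144.H170.Glue

/-!
When the source and the disorder of the spinor merge at one point, the limit vanishes.
-/

namespace Vale.Agent.P144.H170

open Filter Topology Complex Metric

variable {ι : Type*} {l : Filter ι} {a : ι → ℝ}
  {r : Unit → ι → Site} {v : Unit → ι → Site} {z0 : ℂ}
  {A B C E Hs Hf : ι → Pt → ℝ} {q : ℂ → ℂ} {h : ℂ → ℝ}

theorem mem_Mk_unit {z : ℂ} : z ∈ Mk (fun _ : Unit => z0) (fun _ : Unit => z0) ↔ z = z0 := by
  unfold Mk
  simp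

theorem gq_unit (z : ℂ) : gq (fun _ : Unit => z0) (fun _ : Unit => z0) q z =
    (⟨-1 / 2, 1 / 2⟩ : ℂ) * (q z ^ 2 / (z - z0) ^ 2) := by
  unfold gq PP
  simp [pow_two]

theorem F2_unit (z : ℂ) : F2 (fun _ : Unit => z0) (fun _ : Unit => z0) q z =
    q z ^ 2 / (z - z0) ^ 2 := by
  unfold F2 PP
  simp [pow_two]

theorem merge_zero_at (hz0 : z0 ∈ Dia)
    (hG : GLim l a r v (fun _ : Unit => z0) (fun _ : Unit => z0) A B C E Hs Hf q h) :
    q z0 = 0 := by
  by_contra hne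
  obtain ⟨M1, hM1, up⟩ := hG.up
  obtain ⟨M2, hM2, lo⟩ := hG.lo
  have hm : 0 < ‖q z0‖ / 2 := by positivity
  -- a ball where everything is fine
  have hcont : ContinuousAt q z0 :=
    (hG.diff.differentiableAt (Dia_open'.mem_nhds hz0)).continuousAt
  have h1 : ∀ᶠ z in 𝓝 z0, z ∈ Dia ∧ ‖q z0‖ / 2 ≤ ‖q z‖ := by
    have e1 : ∀ᶠ z in 𝓝 z0, z ∈ Dia := Dia_open'.mem_nhds hz0
    have e2 : ∀ᶠ z in 𝓝 z0, ‖q z0‖ / 2 < ‖q z‖ :=
      (hcont.norm).eventually (lt_mem_nhds (by linarith [norm_pos_iff.2 hne]))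
    filter_upwards [e1, e2] with z k1 k2
    exact ⟨k1, k2.le⟩
  obtain ⟨δ, hδ, hball⟩ := Metric.eventually_nhds_iff.1 h1
  set g : ℝ → ℝ := fun ρ => (M1 + M2) * ((Real.log (16 / (ρ / 2) ^ 2) + 1) / (4 * Real.log 2)) + 1
    with hg
  have hlog2 : 0 < Real.log 2 := Real.log_pos (by norm_num)
  have hcc : 1 / 2 ≤ ‖(⟨-1 / 2, 1 / 2⟩ : ℂ)‖ := by
    have := abs_re_le_norm (⟨-1 / 2, 1 / 2⟩ : ℂ)
    have e : |((⟨-1 / 2, 1 / 2⟩ : ℂ)).re| = 1 / 2 := by
      show |(-1 / 2 : ℝ)| = 1 / 2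
      rw [abs_of_neg (by norm_num)]; norm_num
    linarith [this, e]
  -- the main inequality
  have key : ∀ ρ : ℝ, 0 < ρ → ρ < min (δ / 2) 1 → (‖q z0‖ / 2) ^ 2 ≤ 32 * (ρ * g ρ) := by
    intro ρ hρ hρδ
    have hρ1 : ρ < δ / 2 := hρδ.trans_le (min_le_left _ _)
    have hρ2 : ρ < 1 := hρδ.trans_le (min_le_right _ _)
    set z : ℂ := z0 + (ρ : ℂ) with hz
    have hzz : ‖z - z0‖ = ρ := by
      rw [hz, add_sub_cancel_left, norm_real, Real.norm_of_nonneg hρ.le]
    have hsub : ∀ w ∈ ball z (ρ / 2), w ∈ Dia \ Mk (fun _ : Unit => z0) (fun _ : Unit => z0) ∧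
        ρ / 2 ≤ ‖w - z0‖ := by
      intro w hw
      rw [mem_ball, dist_eq_norm] at hw
      have t1 : ‖z - z0‖ ≤ ‖w - z0‖ + ‖w - z‖ := by
        have : z - z0 = (w - z0) - (w - z) := by ring
        rw [this]; exact norm_sub_le _ _
      have t2 : ‖w - z0‖ ≤ ‖w - z‖ + ‖z - z0‖ := by
        have : w - z0 = (w - z) + (z - z0) := by ring
        rw [this]; exact norm_add_le _ _
      have hlo : ρ / 2 ≤ ‖w - z0‖ := by linarith
      refine ⟨⟨(hball (by rw [dist_eq_norm]; linarith)).1, ?_⟩, hlo⟩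
      rw [mem_Mk_unit]
      intro hw0
      rw [hw0, sub_self, norm_zero] at hlo
      linarith
    have hgb : ∀ w, ρ / 2 ≤ ‖w - z0‖ →
        gb w z0 ≤ (Real.log (16 / (ρ / 2) ^ 2) + 1) / (4 * Real.log 2) :=
      fun w hw => gb_le (by positivity) hw
    have hGG : 0 ≤ (Real.log (16 / (ρ / 2) ^ 2) + 1) / (4 * Real.log 2) := by
      have : 0 ≤ Real.log (16 / (ρ / 2) ^ 2) := by
        refine Real.log_nonneg ?_
        rw [le_div_iff₀ (by positivity)]
        nlinarith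
      positivity
    have hgpos : 0 < g ρ := by
      simp only [hg]
      positivity
    have hbd : ∀ w ∈ ball z (ρ / 2), |h w| ≤ g ρ := by
      intro w hw
      obtain ⟨k1, k2⟩ := hsub w hw
      have u := up w k1
      have l' := lo w k1
      simp only [Finset.univ_unique, Finset.sum_singleton] at u l'
      have b := hgb w k2
      rw [abs_le]
      have b1 : M1 * gb w z0 ≤ M1 * ((Real.log (16 / (ρ / 2) ^ 2) + 1) / (4 * Real.log 2)) :=
        mul_le_mul_of_nonneg_left b hM1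
      have b2 : M2 * gb w z0 ≤ M2 * ((Real.log (16 / (ρ / 2) ^ 2) + 1) / (4 * Real.log 2)) :=
        mul_le_mul_of_nonneg_left b hM2
      have c1 : 0 ≤ M1 * ((Real.log (16 / (ρ / 2) ^ 2) + 1) / (4 * Real.log 2)) :=
        mul_nonneg hM1 hGG
      have c2 : 0 ≤ M2 * ((Real.log (16 / (ρ / 2) ^ 2) + 1) / (4 * Real.log 2)) :=
        mul_nonneg hM2 hGG
      simp only [hg]
      constructor
      · linarith
      · linarith
    have hdiff : DifferentiableOn ℂ (gq (fun _ : Unit => z0) (fun _ : Unit => z0) q)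
        (ball z (ρ / 2)) := by
      have e : DifferentiableOn ℂ (fun w => (⟨-1 / 2, 1 / 2⟩ : ℂ) * (q w ^ 2 / (w - z0) ^ 2))
          (ball z (ρ / 2)) := by
        have q1 : DifferentiableOn ℂ q (ball z (ρ / 2)) :=
          hG.diff.mono fun w hw => (hsub w hw).1.1
        refine DifferentiableOn.const_mul (DifferentiableOn.div (q1.pow 2) ?_ ?_) _
        · exact ((differentiable_id.sub_const z0).pow 2).differentiableOn
        · intro w hw
          refine pow_ne_zero 2 ?_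
          intro h0
          have := (hsub w hw).2
          rw [h0, norm_zero] at this
          linarith
      exact e.congr fun w _ => gq_unit w
    have hgr := grad_bound (z₀ := z) (d := ρ / 2) (m := g ρ) (by positivity) hgpos hdiff
      (fun w hw => hG.hd w (hsub w hw).1) hbd
    have hzd : dist z z0 < δ := by rw [dist_eq_norm, hzz]; linarith
    have hqz := (hball hzd).2
    rw [gq_unit, norm_mul, norm_div, norm_pow, norm_pow, hzz] at hgr
    have i1 : (‖q z0‖ / 2) ^ 2 ≤ ‖q z‖ ^ 2 := pow_le_pow_left₀ (by positivity) hqz 2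
    have i2 : 1 / 2 * (‖q z‖ ^ 2 / ρ ^ 2) ≤ 8 * g ρ / (ρ / 2) :=
      (mul_le_mul_of_nonneg_right hcc (by positivity)).trans hgr
    have i3 : ‖q z‖ ^ 2 ≤ 32 * (ρ * g ρ) := by
      have e : 1 / 2 * (‖q z‖ ^ 2 / ρ ^ 2) * (2 * ρ ^ 2) = ‖q z‖ ^ 2 := by field_simp
      have e' : 8 * g ρ / (ρ / 2) * (2 * ρ ^ 2) = 32 * (ρ * g ρ) := by field_simp; ring
      rw [← e, ← e']
      exact mul_le_mul_of_nonneg_right i2 (by positivity)
    linarith
  -- the limit
  have hlim : Tendsto (fun ρ : ℝ => 32 * (ρ * g ρ)) (𝓝[>] 0) (𝓝 0) := by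
    have t1 : Tendsto (fun ρ : ℝ => Real.log ρ * ρ) (𝓝[>] 0) (𝓝 0) := by
      have := tendsto_log_mul_rpow_nhdsGT_zero (r := 1) one_pos
      simpa only [Real.rpow_one] using this
    have t2 : Tendsto (fun ρ : ℝ => ρ) (𝓝[>] 0) (𝓝 0) := nhdsWithin_le_nhds
    have t3 : Tendsto (fun ρ : ℝ => 32 * ((M1 + M2) / (4 * Real.log 2) *
        ((Real.log 64 + 1) * ρ - 2 * (Real.log ρ * ρ)) + ρ)) (𝓝[>] 0)
        (𝓝 (32 * ((M1 + M2) / (4 * Real.log 2) * ((Real.log 64 + 1) * 0 - 2 * 0) + 0))) :=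
      ((((t2.const_mul _).sub (t1.const_mul 2)).const_mul _).add t2).const_mul 32
    have e0 : 32 * ((M1 + M2) / (4 * Real.log 2) * ((Real.log 64 + 1) * 0 - 2 * 0) + 0) = 0 := by
      ring
    rw [e0] at t3
    refine t3.congr' ?_
    filter_upwards [self_mem_nhdsWithin] with ρ hρ
    have hρ : 0 < ρ := hρ
    have e1 : Real.log (16 / (ρ / 2) ^ 2) = Real.log 64 - 2 * Real.log ρ := by
      have : 16 / (ρ / 2) ^ 2 = 64 / ρ ^ 2 := by field_simp; norm_num
      rw [this, Real.log_div (by norm_num) (by positivity), Real.log_pow]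
      norm_num
    simp only [hg]
    rw [e1]
    field_simp
    ring
  have hev : ∀ᶠ ρ in 𝓝[>] (0:ℝ), (‖q z0‖ / 2) ^ 2 ≤ 32 * (ρ * g ρ) := by
    have : Set.Ioo (0:ℝ) (min (δ / 2) 1) ∈ 𝓝[>] (0:ℝ) :=
      Ioo_mem_nhdsGT (by positivity)
    filter_upwards [this] with ρ hρ
    exact key ρ hρ.1 hρ.2
  have := ge_of_tendsto hlim hev
  have hp : 0 < (‖q z0‖ / 2) ^ 2 := by positivity
  linarith

/-- **The merged spinor vanishes.** -/
theorem merge_zero (hz0 : z0 ∈ Dia)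
    (hG : GLim l a r v (fun _ : Unit => z0) (fun _ : Unit => z0) A B C E Hs Hf q h) :
    ∀ z ∈ Dia, q z = 0 := by
  have h0 := merge_zero_at hz0 hG
  have hnh : (Dia : Set ℂ) ∈ 𝓝 z0 := Dia_open'.mem_nhds hz0
  set p : ℂ → ℂ := dslope q z0 with hp
  have hpd : DifferentiableOn ℂ p Dia := (Complex.differentiableOn_dslope hnh).2 hG.diff
  have hpq : ∀ z, z ≠ z0 → q z = (z - z0) * p z := by
    intro z hz
    rw [hp, dslope_of_ne _ hz, slope_def_field, h0, sub_zero]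
    field_simp [sub_ne_zero.2 hz]
  have hF : ∀ z, z ≠ z0 → F2 (fun _ : Unit => z0) (fun _ : Unit => z0) q z = p z ^ 2 := by
    intro z hz
    have hz' : z - z0 ≠ 0 := sub_ne_zero.2 hz
    rw [F2_unit, hpq z hz]
    field_simp
  have hb := hG.bdc
  obtain ⟨l1, l2, l3, l4⟩ := hb.lims
  have hn0 : |z0.re| + |z0.im| < 1 := hz0
  have hne : ∀ b : ℂ, |b.re| + |b.im| = 1 → ∀ᶠ z in 𝓝[Dia] b, z ≠ z0 := by
    intro b hb1
    refine nhdsWithin_le_nhds ?_
    refine isOpen_ne.mem_nhds ?_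
    rintro rfl
    linarith
  have hunq := H365.hom_unique (M := ∅) (q := p) (F := fun z => p z ^ 2) (by simp) hpd
    (fun z _ _ => by simp) (by simp) ?_ ?_ ?_ ?_ ?_
  · intro z hz
    by_cases hzz : z = z0
    · rw [hzz]; exact h0
    · rw [hpq z hzz, hunq z hz, mul_zero]
  · obtain ⟨δ, hδ, K, hK⟩ := hb.bdd
    refine ⟨min δ (1 - (|z0.re| + |z0.im|)), lt_min hδ (by linarith), K, fun z hz hz' => ?_⟩
    have m1 := min_le_left δ (1 - (|z0.re| + |z0.im|))
    have m2 := min_le_right δ (1 - (|z0.re| + |z0.im|))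
    have hzz : z ≠ z0 := by
      rintro rfl
      linarith
    have := hK z hz (by linarith)
    rwa [hF z hzz] at this
  · intro b b1 b2 b3
    refine (l1 b b1 b2 b3).congr' ?_
    filter_upwards [hne b (by rw [abs_of_pos b1, abs_of_pos b2]; exact b3)] with z hz
    rw [hF z hz]
  · intro b b1 b2 b3
    refine (l2 b b1 b2 b3).congr' ?_
    filter_upwards [hne b (by rw [abs_of_neg b1, abs_of_pos b2]; exact b3)] with z hz
    rw [hF z hz]
  · intro b b1 b2 b3
    refine (l3 b b1 b2 b3).congr' ?_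
    filter_upwards [hne b (by rw [abs_of_neg b1, abs_of_neg b2]; linarith)] with z hz
    rw [hF z hz]
  · intro b b1 b2 b3
    refine (l4 b b1 b2 b3).congr' ?_
    filter_upwards [hne b (by rw [abs_of_pos b1, abs_of_neg b2]; exact b3)] with z hz
    rw [hF z hz]

end Vale.Agent.P144.H170
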