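import Vale.Agent.P144.H170.HLim

/-!
Behaviour of limits at the sides of the diamond: odd reflection of one component.
-/

namespace Vale.Agent.P144.H170

open Filter Topology Complex

section refl

variable {ι : Type*} {l : Filter ι} {a : ι → ℝ}

theorem tendsto_nf {z w : ℂ} {φ : ι → Pt → Pt}
    (h : Tendsto (fun kx : ι × Pt => pt (a kx.1) (φ kx.1 kx.2)) (nf l a z) (𝓝 w)) :
    Tendsto (fun kx : ι × Pt => (kx.1, φ kx.1 kx.2)) (nf l a z) (nf l a w) := by
  unfold nf
  rw [tendsto_inf]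
  refine ⟨?_, ?_⟩
  · exact (tendsto_fst_nf z).prodMk tendsto_top
  · rw [tendsto_comap_iff]
    exact h

theorem tendsto_shift (ha : Tendsto a l (𝓝[>] 0)) (z : ℂ) (e : Pt) :
    Tendsto (fun kx : ι × Pt => (kx.1, kx.2 + e)) (nf l a z) (nf l a z) := by
  refine tendsto_nf (φ := fun _ x => x + e) ?_
  have h1 : Tendsto (fun kx : ι × Pt => ((a kx.1 : ℝ) : ℂ)) (nf l a z) (𝓝 0) := by
    have := (continuous_ofReal.tendsto 0).comp (a_nf ha z)
    rw [ofReal_zero] at this
    exact this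
  have h2 := (tendsto_pt_nf (l := l) (a := a) z).add (h1.mul_const (⟨e.1, e.2⟩ : ℂ))
  rw [zero_mul, add_zero] at h2
  refine h2.congr fun kx => ?_
  apply Complex.ext <;> simp [pt] <;> ring

/-- The reflection in the line `x + y = m`. -/
def rfl' (m : ℤ) (x : Pt) : Pt := (m - x.2, m - x.1)

/-- The odd reflection. -/
def oddR (m : ℤ) (h : Pt → ℝ) (x : Pt) : ℝ := if x.1 + x.2 ≤ m then h x else - h (rfl' m x)

theorem lap_oddR {m : ℤ} {h : Pt → ℝ} {x : Pt}
    (h1 : ∀ y : Pt, |y.1 - x.1| ≤ 1 → |y.2 - x.2| ≤ 1 → y.1 + y.2 < m → lap h y = 0)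
    (h2 : ∀ y : Pt, |y.1 - x.1| ≤ 1 → |y.2 - x.2| ≤ 1 → m ≤ y.1 + y.2 → h y = 0)
    (h3 : ∀ y : Pt, |y.1 - (rfl' m x).1| ≤ 1 → |y.2 - (rfl' m x).2| ≤ 1 → y.1 + y.2 < m →
      lap h y = 0)
    (h4 : ∀ y : Pt, |y.1 - (rfl' m x).1| ≤ 1 → |y.2 - (rfl' m x).2| ≤ 1 → m ≤ y.1 + y.2 →
      h y = 0) : lap (oddR m h) x = 0 := by
  obtain ⟨i, j⟩ := x
  simp only [rfl'] at h3 h4
  rcases lt_trichotomy (i + j) m with hlt | heq | hgt
  · have h5 := h1 (i, j) (by simp) (by simp) hlt
    unfold lap oddR at *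
    simp only [Prod.mk_add_mk, Prod.mk_sub_mk, add_zero, sub_zero] at h5 ⊢
    rw [if_pos (by lia), if_pos (by lia), if_pos (by lia), if_pos (by lia), if_pos (by lia)]
    exact h5
  · have h5 := h2 (i, j) (by simp) (by simp) heq.ge
    unfold lap oddR rfl'
    simp only [Prod.mk_add_mk, Prod.mk_sub_mk, add_zero, sub_zero]
    rw [if_neg (by lia), if_pos (by lia), if_neg (by lia), if_pos (by lia), if_pos (by lia), h5]
    have e1 : m - j = i := by lia
    have e2 : m - (i + 1) = j - 1 := by lia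
    have e3 : m - (j + 1) = i - 1 := by lia
    have e4 : m - i = j := by lia
    rw [e1, e2, e3, e4]
    ring
  · have key : ∀ y : Pt, |y.1 - i| + |y.2 - j| ≤ 1 → oddR m h y = - h (rfl' m y) := by
      rintro ⟨y1, y2⟩ hy
      simp only at hy
      unfold oddR rfl'
      simp only
      by_cases hc : y1 + y2 ≤ m
      · have hm : m ≤ y1 + y2 := by
          rcases abs_cases (y1 - i) with ⟨k1, _⟩ | ⟨k1, _⟩ <;>
            rcases abs_cases (y2 - j) with ⟨k2, _⟩ | ⟨k2, _⟩ <;> lia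
        have b1 : |y1 - i| ≤ 1 := by have := abs_nonneg (y2 - j); lia
        have b2 : |y2 - j| ≤ 1 := by have := abs_nonneg (y1 - i); lia
        rw [if_pos hc, h2 (y1, y2) b1 b2 hm, h4 (m - y2, m - y1) ?_ ?_ (by simp only; lia)]
        · ring
        · simp only
          rw [show m - y2 - (m - j) = -(y2 - j) by ring, abs_neg]; exact b2
        · simp only
          rw [show m - y1 - (m - i) = -(y1 - i) by ring, abs_neg]; exact b1
      · rw [if_neg hc]
    have h5 := h3 (m - j, m - i) (by simp) (by simp) (by simp only; lia)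
    unfold lap at h5 ⊢
    rw [key _ (by simp), key _ (by simp), key _ (by simp), key _ (by simp), key _ (by simp)]
    unfold rfl'
    simp only [Prod.mk_add_mk, Prod.mk_sub_mk, add_zero, sub_zero] at h5 ⊢
    have e1 : m - (i + 1) = m - i - 1 := by ring
    have e2 : m - (i - 1) = m - i + 1 := by ring
    have e3 : m - (j + 1) = m - j - 1 := by ring
    have e4 : m - (j - 1) = m - j + 1 := by ring
    rw [e1, e2, e3, e4]
    linarith

theorem tendsto_rfl {N : ι → ℤ}
    (hN : Tendsto (fun k => a k * (N k : ℝ)) l (𝓝 1)) {p : ℂ} (hp : p.re + p.im = 1) :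
    Tendsto (fun kx : ι × Pt => (kx.1, rfl' (N kx.1) kx.2)) (nf l a p) (nf l a p) := by
  refine tendsto_nf (φ := fun k x => rfl' (N k) x) ?_
  have h1 := hN.comp (tendsto_fst_nf (l := l) (a := a) p)
  have h2 := (continuous_re.tendsto p).comp (tendsto_pt_nf (l := l) (a := a) p)
  have h3 := (continuous_im.tendsto p).comp (tendsto_pt_nf (l := l) (a := a) p)
  have h4 := (h1.sub h3)
  have h5 := (h1.sub h2)
  have e1 : (1:ℝ) - p.im = p.re := by linarith
  have e2 : (1:ℝ) - p.re = p.im := by linarith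
  rw [e1] at h4
  rw [e2] at h5
  have h6 := ((continuous_ofReal.tendsto _).comp h4).add
    (((continuous_ofReal.tendsto _).comp h5).mul_const I)
  rw [re_add_im] at h6
  refine h6.congr fun kx => ?_
  apply Complex.ext <;> simp [pt, rfl'] <;> ring

/-- Limits near the side `x + y = 1` are bounded by the distance to the side. -/
theorem side_NE [NeBot l] (ha : Tendsto a l (𝓝[>] 0)) {N : ι → ℤ}
    (hN : Tendsto (fun k => a k * (N k : ℝ)) l (𝓝 1)) {p : ℂ} (hp : p.re + p.im = 1)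
    {h : ι → Pt → ℝ}
    (h1 : ∀ᶠ kx in nf l a p, kx.2.1 + kx.2.2 < N kx.1 → lap (h kx.1) kx.2 = 0)
    (h2 : ∀ᶠ kx in nf l a p, N kx.1 ≤ kx.2.1 + kx.2.2 → h kx.1 kx.2 = 0)
    (h3 : ∃ r > 0, ∃ M, L2ball l a p r M h) :
    ∃ r > 0, ∃ L, 0 ≤ L ∧ ∀ z, ‖z - p‖ < r → z.re + z.im < 1 → ∀ w,
      Tendsto (fun kx : ι × Pt => h kx.1 kx.2) (nf l a z) (𝓝 w) →
      |w| ≤ L * (1 - z.re - z.im) := by
  have ha0 : ∀ᶠ k in l, 0 < a k := ha.eventually self_mem_nhdsWithin
  -- harmonicity of the reflected field near p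
  have hR := tendsto_rfl hN hp
  obtain ⟨r1, hr1, k1⟩ := (ev_nf (P := fun k x => x.1 + x.2 < N k → lap (h k) x = 0)).1 h1
  obtain ⟨r2, hr2, k2⟩ := (ev_nf (P := fun k x => N k ≤ x.1 + x.2 → h k x = 0)).1 h2
  set r3 := min r1 r2 with hr3
  have hr3p : 0 < r3 := by positivity
  have ha1 : ∀ᶠ k in l, a k < r3 / 4 :=
    (ha.mono_right nhdsWithin_le_nhds).eventually (gt_mem_nhds (by positivity))
  have hharm : ∀ᶠ kx in nf l a p, lap (oddR (N kx.1) (h kx.1)) kx.2 = 0 := by
    have e1 : ∀ᶠ kx in nf l a p, ‖pt (a kx.1) kx.2 - p‖ ≤ r3 / 2 :=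
      (ev_nf (P := fun k x => ‖pt (a k) x - p‖ ≤ r3 / 2)).2
        ⟨r3 / 2, by positivity, Eventually.of_forall fun k x hx => hx⟩
    have e2 := hR.eventually e1
    have e3 := ev_nf_of (l := l) (a := a) (z := p) (k1.and (k2.and (ha0.and ha1)))
    filter_upwards [e1, e2, e3] with kx g1 g2 g3
    obtain ⟨g4, g5, g6, g7⟩ := g3
    refine lap_oddR ?_ ?_ ?_ ?_
    · intro y hy1 hy2 hy
      exact g4 y ((pt_near g6 g1 hy1 hy2 g7.le).trans (min_le_left _ _)) hy
    · intro y hy1 hy2 hy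
      exact g5 y ((pt_near g6 g1 hy1 hy2 g7.le).trans (min_le_right _ _)) hy
    · intro y hy1 hy2 hy
      exact g4 y ((pt_near g6 g2 hy1 hy2 g7.le).trans (min_le_left _ _)) hy
    · intro y hy1 hy2 hy
      exact g5 y ((pt_near g6 g2 hy1 hy2 g7.le).trans (min_le_right _ _)) hy
  obtain ⟨r4, hr4, k4⟩ := (ev_nf (P := fun k x => lap (oddR (N k) (h k)) x = 0)).1 hharm
  -- ℓ² bound
  obtain ⟨r5, hr5, M, hM⟩ := h3
  have hl2 : L2ball l a p (r5 / 2) (2 * M) (fun k => oddR (N k) (h k)) := by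
    have e1 : ∀ᶠ k in l, |a k * (N k : ℝ) - 1| < r5 / 4 := by
      have := (Metric.tendsto_nhds.1 hN) (r5 / 4) (by positivity)
      filter_upwards [this] with k hk
      rwa [Real.dist_eq] at hk
    filter_upwards [hM, e1, ha0] with k g1 g2 g0 S hS
    have s1 : a k ^ 2 * ∑ x ∈ S.filter (fun x => x.1 + x.2 ≤ N k), h k x ^ 2 ≤ M :=
      g1 _ fun x hx => (hS x (Finset.mem_filter.1 hx).1).trans (by linarith)
    have s2 : a k ^ 2 * ∑ x ∈ (S.filter (fun x => ¬ x.1 + x.2 ≤ N k)).image (rfl' (N k)),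
        h k x ^ 2 ≤ M := by
      refine g1 _ fun x hx => ?_
      obtain ⟨y, hy, rfl⟩ := Finset.mem_image.1 hx
      have hy' := hS y (Finset.mem_filter.1 hy).1
      have e3 : pt (a k) (rfl' (N k) y) - p = ((a k * (N k : ℝ) - 1 : ℝ) : ℂ) * (⟨1, 1⟩ : ℂ) +
          (⟨-(pt (a k) y - p).im, -(pt (a k) y - p).re⟩ : ℂ) := by
        apply Complex.ext
        · simp only [pt, rfl', sub_re, add_re, mul_re, ofReal_re, ofReal_im, sub_im]
          push_cast
          linear_combination (-1) * hp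
        · simp only [pt, rfl', sub_im, add_im, mul_im, ofReal_re, ofReal_im, sub_re]
          push_cast
          linear_combination (-1) * hp
      have e4 : ‖(⟨-(pt (a k) y - p).im, -(pt (a k) y - p).re⟩ : ℂ)‖ = ‖pt (a k) y - p‖ := by
        have : ‖(⟨-(pt (a k) y - p).im, -(pt (a k) y - p).re⟩ : ℂ)‖ ^ 2 = ‖pt (a k) y - p‖ ^ 2 := by
          rw [← normSq_eq_norm_sq, ← normSq_eq_norm_sq, normSq_apply, normSq_apply]; ring
        exact (pow_left_inj₀ (norm_nonneg _) (norm_nonneg _) (by norm_num)).1 this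
      have e5 : ‖(⟨1, 1⟩ : ℂ)‖ ≤ 2 := by
        refine (norm_le_abs_re_add_abs_im _).trans ?_
        norm_num
      rw [e3]
      refine (norm_add_le _ _).trans ?_
      rw [e4, norm_mul, norm_real, Real.norm_eq_abs]
      nlinarith [norm_nonneg (⟨1, 1⟩ : ℂ), abs_nonneg (a k * (N k : ℝ) - 1)]
    have inj : ∀ x ∈ S.filter (fun x => ¬ x.1 + x.2 ≤ N k), ∀ y ∈ S.filter
        (fun x => ¬ x.1 + x.2 ≤ N k), rfl' (N k) x = rfl' (N k) y → x = y := by
      intro x _ y _ hxy
      unfold rfl' at hxy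
      rw [Prod.mk.injEq] at hxy
      ext <;> lia
    rw [Finset.sum_image inj] at s2
    have e6 : ∑ x ∈ S, oddR (N k) (h k) x ^ 2 =
        ∑ x ∈ S.filter (fun x => x.1 + x.2 ≤ N k), h k x ^ 2 +
        ∑ x ∈ S.filter (fun x => ¬ x.1 + x.2 ≤ N k), h k (rfl' (N k) x) ^ 2 := by
      rw [← Finset.sum_filter_add_sum_filter_not S (fun x => x.1 + x.2 ≤ N k)]
      congr 1
      · refine Finset.sum_congr rfl fun x hx => ?_
        unfold oddR; rw [if_pos (Finset.mem_filter.1 hx).2]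
      · refine Finset.sum_congr rfl fun x hx => ?_
        unfold oddR; rw [if_neg (Finset.mem_filter.1 hx).2, neg_sq]
    rw [e6, mul_add]
    linarith
  -- Lipschitz bound
  have hloc : LocL2 l a (Metric.ball p (min r4 (r5 / 2) / 2)) (fun k => oddR (N k) (h k)) := by
    intro z hz
    rw [Metric.mem_ball, dist_eq_norm] at hz
    refine ⟨min r4 (r5 / 2) / 2, by positivity, 2 * M, ?_⟩
    filter_upwards [k4, hl2] with k g1 g2
    have b1 := min_le_left r4 (r5 / 2)
    have b2 := min_le_right r4 (r5 / 2)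
    have tri : ∀ x, ‖pt (a k) x - z‖ ≤ min r4 (r5 / 2) / 2 → ‖pt (a k) x - p‖ ≤ min r4 (r5 / 2) := by
      intro x hx
      have := norm_sub_le_norm_sub_add_norm_sub (pt (a k) x) z p
      linarith
    exact ⟨fun x hx => g1 x ((tri x hx).trans b1), fun S hS => g2 S fun x hx =>
      (tri x (hS x hx)).trans b2⟩
  obtain ⟨r6, hr6, L, hL, k6⟩ := (hloc.locB ha).lip ha (z := p)
    (Metric.mem_ball_self (by positivity))
  set s := min r6 r2 with hs
  have hs0 : 0 < s := by positivity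
  -- the bound
  have hbd : ∀ᶠ k in l, ∀ x, ‖pt (a k) x - p‖ ≤ s / 8 → x.1 + x.2 ≤ N k →
      |h k x| ≤ L * (a k * ((N k : ℝ) - x.1 - x.2)) := by
    have e1 : ∀ᶠ k in l, |a k * (N k : ℝ) - 1| < s / 8 := by
      have := (Metric.tendsto_nhds.1 hN) (s / 8) (by positivity)
      filter_upwards [this] with k hk
      rwa [Real.dist_eq] at hk
    filter_upwards [k6, k2, e1, ha0] with k g1 g2 g3 g0 x hx hlev
    set y : Pt := (N k - x.2, x.2) with hy
    have e2 : pt (a k) y - pt (a k) x = ((a k * ((N k : ℝ) - x.1 - x.2) : ℝ) : ℂ) := by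
      apply Complex.ext
      · simp only [pt, hy, sub_re, ofReal_re]; push_cast; ring
      · simp only [pt, hy, sub_im, ofReal_im]; ring
    have hnn : 0 ≤ a k * ((N k : ℝ) - x.1 - x.2) := by
      refine mul_nonneg g0.le ?_
      have : ((x.1 + x.2 : ℤ) : ℝ) ≤ N k := by exact_mod_cast hlev
      push_cast at this
      linarith
    have e3 : ‖pt (a k) y - pt (a k) x‖ = a k * ((N k : ℝ) - x.1 - x.2) := by
      rw [e2, norm_real, Real.norm_of_nonneg hnn]
    have e4 : a k * ((N k : ℝ) - x.1 - x.2) ≤ s / 8 + 2 * (s / 8) := by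
      have f1 := (abs_re_le_norm _).trans hx
      have f2 := (abs_im_le_norm _).trans hx
      simp only [pt, sub_re, sub_im] at f1 f2
      rw [abs_le] at f1 f2
      rw [abs_lt] at g3
      nlinarith
    have hy1 : ‖pt (a k) y - p‖ ≤ s := by
      have := norm_sub_le_norm_sub_add_norm_sub (pt (a k) y) (pt (a k) x) p
      linarith
    have b1 := min_le_left r6 r2
    have b2 := min_le_right r6 r2
    have h5 := g1 y x (hy1.trans b1) (hx.trans (by linarith))
    have hy0 : h k y = 0 := g2 y (hy1.trans b2) (by simp only [hy]; lia)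
    have o1 : oddR (N k) (h k) y = 0 := by
      unfold oddR
      rw [if_pos (by simp only [hy]; lia), hy0]
    have o2 : oddR (N k) (h k) x = h k x := by unfold oddR; rw [if_pos hlev]
    rw [o1, o2, sub_zero, norm_sub_rev, e3] at h5
    exact h5
  refine ⟨s / 8, by positivity, L, hL, fun z hz hz1 w hw => ?_⟩
  have := nf_neBot ha z
  have c1 : Tendsto (fun kx : ι × Pt => L * (a kx.1 * ((N kx.1 : ℝ) - kx.2.1 - kx.2.2)))
      (nf l a z) (𝓝 (L * (1 - z.re - z.im))) := by
    refine Tendsto.const_mul L ?_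
    have f1 := hN.comp (tendsto_fst_nf (l := l) (a := a) z)
    have f2 := (continuous_re.tendsto z).comp (tendsto_pt_nf (l := l) (a := a) z)
    have f3 := (continuous_im.tendsto z).comp (tendsto_pt_nf (l := l) (a := a) z)
    refine ((f1.sub f2).sub f3).congr fun kx => ?_
    simp only [Function.comp_apply, pt]
    ring
  refine le_of_tendsto_of_tendsto hw.abs c1 ?_
  have c2 : ∀ᶠ kx in nf l a z, kx.2.1 + kx.2.2 ≤ N kx.1 := by
    have c3 : Tendsto (fun kx : ι × Pt => a kx.1 * ((N kx.1 : ℝ) - kx.2.1 - kx.2.2))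
        (nf l a z) (𝓝 (1 - z.re - z.im)) := by
      have f1 := hN.comp (tendsto_fst_nf (l := l) (a := a) z)
      have f2 := (continuous_re.tendsto z).comp (tendsto_pt_nf (l := l) (a := a) z)
      have f3 := (continuous_im.tendsto z).comp (tendsto_pt_nf (l := l) (a := a) z)
      refine ((f1.sub f2).sub f3).congr fun kx => ?_
      simp only [Function.comp_apply, pt]
      ring
    filter_upwards [c3.eventually (lt_mem_nhds (show 0 < 1 - z.re - z.im by linarith)),
      apos_nf ha z] with kx g1 g0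
    by_contra hc
    push Not at hc
    have : ((N kx.1 : ℤ) : ℝ) < ((kx.2.1 + kx.2.2 : ℤ) : ℝ) := by exact_mod_cast hc
    push_cast at this
    nlinarith
  have c4 : ∀ᶠ kx in nf l a z, ∀ x, x = kx.2 → ‖pt (a kx.1) x - p‖ ≤ s / 8 := by
    have := (tendsto_pt_nf (l := l) (a := a) z).eventually
      (Metric.ball_mem_nhds z (show 0 < s / 8 - ‖z - p‖ by linarith))
    filter_upwards [this] with kx g1 x hx
    rw [dist_eq_norm] at g1
    have := norm_sub_le_norm_sub_add_norm_sub (pt (a kx.1) kx.2) z p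
    rw [hx]
    linarith
  filter_upwards [c2, c4, ev_nf_of (l := l) (a := a) (z := z) hbd] with kx g1 g2 g3
  exact g3 kx.2 (g2 _ rfl) g1

end refl

end Vale.Agent.P144.H170
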