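import Vale.Agent.P144.H170.Corner

/-!
Limits of spinors at the four sides of the diamond.
-/

namespace Vale.Agent.P144.H170

open Filter Topology Complex

section sides

variable {ι : Type*} {l : Filter ι} {a : ι → ℝ}

/-- A property that holds near `p` holds near `p` in a whole neighbourhood of bounded size. -/
theorem ev_near (ha : Tendsto a l (𝓝[>] 0)) {p : ℂ} {P : ι → Pt → Prop}
    (h : ∀ᶠ kx in nf l a p, P kx.1 kx.2) (m : ℕ) :
    ∀ᶠ kx in nf l a p, ∀ y : Pt, |y.1 - kx.2.1| ≤ m → |y.2 - kx.2.2| ≤ m → P kx.1 y := by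
  obtain ⟨r, hr, hk⟩ := ev_nf.1 h
  refine (ev_nf (P := fun k x => ∀ y : Pt, |y.1 - x.1| ≤ m → |y.2 - x.2| ≤ m → P k y)).2
    ⟨r / 2, by positivity, ?_⟩
  have ha0 : ∀ᶠ k in l, 0 < a k := ha.eventually self_mem_nhdsWithin
  have ha1 : ∀ᶠ k in l, a k < r / (4 * (m + 1)) :=
    (ha.mono_right nhdsWithin_le_nhds).eventually (gt_mem_nhds (by positivity))
  filter_upwards [hk, ha0, ha1] with k h1 h2 h3 x hx y hy1 hy2
  refine h1 y ?_
  have h4 := pt_sub_norm h2 y x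
  have h5 : |(y.1 - x.1 : ℝ)| ≤ m := by
    have : ((|y.1 - x.1| : ℤ) : ℝ) ≤ m := by exact_mod_cast hy1
    push_cast at this; exact this
  have h6 : |(y.2 - x.2 : ℝ)| ≤ m := by
    have : ((|y.2 - x.2| : ℤ) : ℝ) ≤ m := by exact_mod_cast hy2
    push_cast at this; exact this
  have h7 := norm_sub_le_norm_sub_add_norm_sub (pt (a k) y) (pt (a k) x) p
  have h8 : a k * (4 * (m + 1)) < r := by
    rwa [lt_div_iff₀ (by positivity)] at h3
  have h9 : a k * (|(y.1 - x.1 : ℝ)| + |(y.2 - x.2 : ℝ)|) ≤ a k * (m + m) :=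
    mul_le_mul_of_nonneg_left (add_le_add h5 h6) h2.le
  nlinarith

/-- Reflections (with a shift) on the lattice and in the plane. -/
def fp (s₁ s₂ c₁ c₂ : ℤ) (x : Pt) : Pt := (s₁ * x.1 + c₁, s₂ * x.2 + c₂)

noncomputable def RC (s₁ s₂ : ℤ) (z : ℂ) : ℂ := ⟨s₁ * z.re, s₂ * z.im⟩

theorem fp_norm {s₁ s₂ : ℤ} (h1 : s₁ = 1 ∨ s₁ = -1) (h2 : s₂ = 1 ∨ s₂ = -1) (c₁ c₂ : ℤ) {a : ℝ}
    (ha : 0 < a) (x : Pt) (z : ℂ) :
    ‖pt a (fp s₁ s₂ c₁ c₂ x) - RC s₁ s₂ z‖ ≤ ‖pt a x - z‖ + a * (|(c₁:ℝ)| + |(c₂:ℝ)|) := by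
  have e : pt a (fp s₁ s₂ c₁ c₂ x) - RC s₁ s₂ z = RC s₁ s₂ (pt a x - z) + (⟨a * c₁, a * c₂⟩ : ℂ) := by
    apply Complex.ext
    · simp only [pt, fp, RC, sub_re, add_re]; push_cast; ring
    · simp only [pt, fp, RC, sub_im, add_im]; push_cast; ring
  have e2 : ‖RC s₁ s₂ (pt a x - z)‖ = ‖pt a x - z‖ := by
    have : ‖RC s₁ s₂ (pt a x - z)‖ ^ 2 = ‖pt a x - z‖ ^ 2 := by
      rw [← normSq_eq_norm_sq, ← normSq_eq_norm_sq, normSq_apply, normSq_apply]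
      unfold RC
      rcases h1 with rfl | rfl <;> rcases h2 with rfl | rfl <;> push_cast <;> ring
    exact (pow_left_inj₀ (norm_nonneg _) (norm_nonneg _) (by norm_num)).1 this
  rw [e]
  refine (norm_add_le _ _).trans ?_
  rw [e2]
  refine add_le_add le_rfl ((norm_le_abs_re_add_abs_im _).trans ?_)
  simp only
  rw [abs_mul, abs_mul, abs_of_pos ha]
  linarith

theorem RC_RC {s₁ s₂ : ℤ} (h1 : s₁ = 1 ∨ s₁ = -1) (h2 : s₂ = 1 ∨ s₂ = -1) (z : ℂ) :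
    RC s₁ s₂ (RC s₁ s₂ z) = z := by
  unfold RC
  apply Complex.ext
  · rcases h1 with rfl | rfl <;> simp
  · rcases h2 with rfl | rfl <;> simp

theorem tendsto_fp {s₁ s₂ : ℤ} (h1 : s₁ = 1 ∨ s₁ = -1) (h2 : s₂ = 1 ∨ s₂ = -1) (c₁ c₂ : ℤ)
    (ha : Tendsto a l (𝓝[>] 0)) (z : ℂ) :
    Tendsto (fun kx : ι × Pt => (kx.1, fp s₁ s₂ c₁ c₂ kx.2)) (nf l a z) (nf l a (RC s₁ s₂ z)) := by
  refine tendsto_nf (φ := fun _ x => fp s₁ s₂ c₁ c₂ x) ?_
  rw [tendsto_iff_norm_sub_tendsto_zero]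
  have t1 : Tendsto (fun kx : ι × Pt => ‖pt (a kx.1) kx.2 - z‖ + a kx.1 * (|(c₁:ℝ)| + |(c₂:ℝ)|))
      (nf l a z) (𝓝 0) := by
    have := (tendsto_iff_norm_sub_tendsto_zero.1 (tendsto_pt_nf (l := l) (a := a) z)).add
      ((a_nf ha z).mul_const (|(c₁:ℝ)| + |(c₂:ℝ)|))
    rwa [zero_mul, add_zero] at this
  refine squeeze_zero' (Eventually.of_forall fun _ => norm_nonneg _) ?_ t1
  filter_upwards [apos_nf ha z] with kx h0
  exact fp_norm h1 h2 c₁ c₂ h0 kx.2 z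

theorem fp_inj {s₁ s₂ : ℤ} (h1 : s₁ = 1 ∨ s₁ = -1) (h2 : s₂ = 1 ∨ s₂ = -1) (c₁ c₂ : ℤ) :
    Function.Injective (fp s₁ s₂ c₁ c₂) := by
  intro x y hxy
  unfold fp at hxy
  rw [Prod.mk.injEq] at hxy
  rcases h1 with rfl | rfl <;> rcases h2 with rfl | rfl <;> ext <;> lia

/-- Transfer of `ℓ²` bounds. -/
theorem L2ball.fp (ha : Tendsto a l (𝓝[>] 0)) {h h' : ι → Pt → ℝ} {s₁ s₂ : ℤ}
    (h1 : s₁ = 1 ∨ s₁ = -1) (h2 : s₂ = 1 ∨ s₂ = -1) (c₁ c₂ : ℤ)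
    (hh : ∀ k x, h' k x ^ 2 = h k (fp s₁ s₂ c₁ c₂ x) ^ 2) {p : ℂ} {r M : ℝ} (hr : 0 < r)
    (hM : L2ball l a (RC s₁ s₂ p) r M h) : L2ball l a p (r / 2) M h' := by
  have ha0 : ∀ᶠ k in l, 0 < a k := ha.eventually self_mem_nhdsWithin
  have ha1 : ∀ᶠ k in l, a k < r / (2 * (|(c₁:ℝ)| + |(c₂:ℝ)| + 1)) :=
    (ha.mono_right nhdsWithin_le_nhds).eventually (gt_mem_nhds (by positivity))
  filter_upwards [hM, ha0, ha1] with k g1 g2 g3 S hS
  have e : ∑ x ∈ S, h' k x ^ 2 = ∑ x ∈ S.image (H170.fp s₁ s₂ c₁ c₂), h k x ^ 2 := by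
    rw [Finset.sum_image fun x _ y _ hxy => fp_inj h1 h2 c₁ c₂ hxy]
    exact Finset.sum_congr rfl fun x _ => hh k x
  rw [e]
  refine g1 _ fun y hy => ?_
  obtain ⟨x, hx, rfl⟩ := Finset.mem_image.1 hy
  have g4 := fp_norm h1 h2 c₁ c₂ g2 x p
  have g5 := hS x hx
  have g6 : a k * (2 * (|(c₁:ℝ)| + |(c₂:ℝ)| + 1)) < r := by
    rwa [lt_div_iff₀ (by positivity)] at g3
  nlinarith

/-- The fields satisfy the relations without anomalies near `p`. -/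
def BRn (l : Filter ι) (a : ι → ℝ) (N : ι → ℕ) (A B C E : ι → Pt → ℝ) (p : ℂ) : Prop :=
  ∀ᶠ kx in nf l a p, BR (fun x y => |x| + |y| ≤ N kx.1) (A kx.1) (B kx.1) (C kx.1) (E kx.1)
    kx.2.1 kx.2.2

variable {N : ι → ℕ} {A B C E : ι → Pt → ℝ}

theorem U2_NE [NeBot l] (ha : Tendsto a l (𝓝[>] 0))
    (hN : Tendsto (fun k => a k * ((N k : ℝ) + 1)) l (𝓝 1)) {p : ℂ} (hp1 : 0 < p.re)
    (hp2 : 0 < p.im) (hp : p.re + p.im = 1) (hb : BRn l a N A B C E p)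
    (h2 : ∃ r > 0, ∃ M, L2ball l a p r M E) :
    ∃ r > 0, ∃ L, 0 ≤ L ∧ ∀ z, ‖z - p‖ < r → z.re + z.im < 1 → ∀ w,
      Tendsto (fun kx : ι × Pt => E kx.1 kx.2) (nf l a z) (𝓝 w) →
      |w| ≤ L * (1 - z.re - z.im) := by
  have hpos : ∀ᶠ kx in nf l a p, 4 < kx.2.1 ∧ 4 < kx.2.2 := by
    have t1 := (continuous_re.tendsto p).comp (tendsto_pt_nf (l := l) (a := a) p)
    have t2 := (continuous_im.tendsto p).comp (tendsto_pt_nf (l := l) (a := a) p)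
    have t3 := (a_nf ha p).const_mul 4
    rw [mul_zero] at t3
    filter_upwards [t3.eventually_lt t1 hp1, t3.eventually_lt t2 hp2, apos_nf ha p] with
      kx g1 g2 g3
    simp only [Function.comp_apply, pt] at g1 g2
    constructor
    · have : (4:ℝ) < kx.2.1 := by
        by_contra hc; push Not at hc; nlinarith
      exact_mod_cast this
    · have : (4:ℝ) < kx.2.2 := by
        by_contra hc; push Not at hc; nlinarith
      exact_mod_cast this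
  have hb' : ∀ᶠ kx in nf l a p, BR (fun x y => x + y ≤ N kx.1) (A kx.1) (B kx.1) (C kx.1)
      (E kx.1) kx.2.1 kx.2.2 := by
    filter_upwards [hb, hpos] with kx g1 g2
    obtain ⟨g2, g3⟩ := g2
    have e1 : |kx.2.1| = kx.2.1 := abs_of_pos (by lia)
    have e2 : |kx.2.2| = kx.2.2 := abs_of_pos (by lia)
    have e3 : |kx.2.1 + 1| = kx.2.1 + 1 := abs_of_pos (by lia)
    have e4 : |kx.2.2 + 1| = kx.2.2 + 1 := abs_of_pos (by lia)
    exact g1.congr (by rw [e1, e2]) (by rw [e3, e2]) (by rw [e1, e4]) (by rw [e3, e4])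
  have hnear := ev_near ha (P := fun k x => BR (fun x y => x + y ≤ N k) (A k) (B k) (C k)
      (E k) x.1 x.2) hb' 2
  obtain ⟨r, hr, M, hM⟩ := h2
  have hN' : Tendsto (fun k => a k * (((N k : ℤ) + 1 : ℤ) : ℝ)) l (𝓝 1) := by
    push_cast; exact hN
  have k1 : ∀ᶠ kx in nf l a p, kx.2.1 + kx.2.2 < (N kx.1 : ℤ) + 1 →
      lap ((fun k x => E k (x + (-1, -1))) kx.1) kx.2 = 0 := by
    filter_upwards [hnear] with kx g1 g2
    rw [lap_shift]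
    obtain ⟨k, x, y⟩ := kx
    simp only at g1 g2 ⊢
    exact BR.harmE (N := N k) (i := x) (j := y) (fun i' j' h1 h2 => g1 (i', j') h1 h2) (by lia)
  have k2 : ∀ᶠ kx in nf l a p, (N kx.1 : ℤ) + 1 ≤ kx.2.1 + kx.2.2 →
      (fun k x => E k (x + (-1, -1))) kx.1 kx.2 = 0 := by
    filter_upwards [hnear] with kx g1 g2
    obtain ⟨k, x, y⟩ := kx
    simp only at g1 g2 ⊢
    have := (g1 (x - 1, y - 1) (by simp) (by simp)).zE
    exact this (by simp only; lia)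
  have k3 : ∃ r > 0, ∃ M, L2ball l a p r M (fun k x => E k (x + (-1, -1))) := by
    refine ⟨r / 2, by positivity, M, ?_⟩
    refine L2ball.fp ha (s₁ := 1) (s₂ := 1) (Or.inl rfl) (Or.inl rfl) (-1) (-1) ?_ hr ?_ (h := E)
    · intro k x
      congr 2
      simp [fp, Prod.ext_iff]
    · have : RC 1 1 p = p := by apply Complex.ext <;> simp [RC]
      rw [this]; exact hM
  obtain ⟨s, hs, L, hL, hmain⟩ := side_NE (N := fun k => (N k : ℤ) + 1)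
    (h := fun k x => E k (x + (-1, -1))) ha hN' hp k1 k2 k3
  exact ⟨s, hs, L, hL, fun z hz hz1 w hw => hmain z hz hz1 w
    (hw.comp (tendsto_shift ha z (-1, -1)))⟩

/-- Reflection of `BRn` in the vertical axis. -/
theorem BRn.refx (ha : Tendsto a l (𝓝[>] 0)) {p : ℂ} (hb : BRn l a N A B C E (RC (-1) 1 p)) :
    BRn l a N (fun k x => B k (-x.1 - 1, x.2)) (fun k x => A k (-x.1 - 1, x.2))
      (fun k x => E k (-x.1 - 1, x.2)) (fun k x => C k (-x.1 - 1, x.2)) p := by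
  have t1 := (tendsto_fp (s₁ := -1) (s₂ := 1) (Or.inr rfl) (Or.inl rfl) (-1) 0 ha p).eventually hb
  have t2 := (tendsto_fp (s₁ := -1) (s₂ := 1) (Or.inr rfl) (Or.inl rfl) (-2) 0 ha p).eventually hb
  filter_upwards [t1, t2] with kx g1 g2
  simp only [fp] at g1 g2
  have e1 : (-1) * kx.2.1 + -1 = -kx.2.1 - 1 := by ring
  have e2 : (-1) * kx.2.1 + -2 = -kx.2.1 - 2 := by ring
  have e3 : 1 * kx.2.2 + 0 = kx.2.2 := by ring
  rw [e1, e3] at g1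
  rw [e2, e3] at g2
  refine (g1.refx g2).congr ?_ ?_ ?_ ?_ <;> simp only [abs_neg]

/-- Reflection of `BRn` in the horizontal axis. -/
theorem BRn.refy (ha : Tendsto a l (𝓝[>] 0)) {p : ℂ} (hb : BRn l a N A B C E (RC 1 (-1) p)) :
    BRn l a N (fun k x => C k (x.1, -x.2 - 1)) (fun k x => -E k (x.1, -x.2 - 1))
      (fun k x => A k (x.1, -x.2 - 1)) (fun k x => -B k (x.1, -x.2 - 1)) p := by
  have t1 := (tendsto_fp (s₁ := 1) (s₂ := -1) (Or.inl rfl) (Or.inr rfl) 0 (-1) ha p).eventually hb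
  have t2 := (tendsto_fp (s₁ := 1) (s₂ := -1) (Or.inl rfl) (Or.inr rfl) 0 (-2) ha p).eventually hb
  filter_upwards [t1, t2] with kx g1 g2
  simp only [fp] at g1 g2
  have e1 : (-1) * kx.2.2 + -1 = -kx.2.2 - 1 := by ring
  have e2 : (-1) * kx.2.2 + -2 = -kx.2.2 - 2 := by ring
  have e3 : 1 * kx.2.1 + 0 = kx.2.1 := by ring
  rw [e1, e3] at g1
  rw [e2, e3] at g2
  refine (g1.refy g2).congr ?_ ?_ ?_ ?_ <;> simp only [abs_neg]

theorem RC_norm {s₁ s₂ : ℤ} (h1 : s₁ = 1 ∨ s₁ = -1) (h2 : s₂ = 1 ∨ s₂ = -1) (z w : ℂ) :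
    ‖RC s₁ s₂ z - RC s₁ s₂ w‖ = ‖z - w‖ := by
  have : ‖RC s₁ s₂ z - RC s₁ s₂ w‖ ^ 2 = ‖z - w‖ ^ 2 := by
    rw [← normSq_eq_norm_sq, ← normSq_eq_norm_sq, normSq_apply, normSq_apply]
    unfold RC
    rcases h1 with rfl | rfl <;> rcases h2 with rfl | rfl <;>
      simp only [sub_re, sub_im] <;> push_cast <;> ring
  exact (pow_left_inj₀ (norm_nonneg _) (norm_nonneg _) (by norm_num)).1 this

theorem U2_NW [NeBot l] (ha : Tendsto a l (𝓝[>] 0))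
    (hN : Tendsto (fun k => a k * ((N k : ℝ) + 1)) l (𝓝 1)) {p : ℂ} (hp1 : p.re < 0)
    (hp2 : 0 < p.im) (hp : -p.re + p.im = 1) (hb : BRn l a N A B C E p)
    (h2 : ∃ r > 0, ∃ M, L2ball l a p r M C) :
    ∃ r > 0, ∃ L, 0 ≤ L ∧ ∀ z, ‖z - p‖ < r → -z.re + z.im < 1 → ∀ w,
      Tendsto (fun kx : ι × Pt => C kx.1 kx.2) (nf l a z) (𝓝 w) →
      |w| ≤ L * (1 + z.re - z.im) := by
  have hR : RC (-1) 1 (RC (-1) 1 p) = p := RC_RC (Or.inr rfl) (Or.inl rfl) p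
  obtain ⟨r, hr, M, hM⟩ := h2
  obtain ⟨s, hs, L, hL, hmain⟩ := U2_NE (p := RC (-1) 1 p) ha hN (by simp [RC]; exact hp1)
    (by simp [RC]; exact hp2) (by simp [RC]; exact hp)
    (BRn.refx ha (by rw [hR]; exact hb)) ⟨r / 2, by positivity, M,
      L2ball.fp ha (s₁ := -1) (s₂ := 1) (Or.inr rfl) (Or.inl rfl) (-1) 0 (h := C)
        (fun k x => by congr 2; simp [fp, Prod.ext_iff]; ring) hr (by rw [hR]; exact hM)⟩
  refine ⟨s, hs, L, hL, fun z hz hz1 w hw => ?_⟩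
  have hz2 := RC_RC (Or.inr rfl) (Or.inl rfl) z (s₁ := -1) (s₂ := 1)
  have := hmain (RC (-1) 1 z) (by rw [RC_norm (Or.inr rfl) (Or.inl rfl)]; exact hz)
    (by simp [RC]; linarith) w ?_
  · simp only [RC] at this
    push_cast at this
    calc |w| ≤ _ := this
      _ = _ := by ring
  · have t1 := tendsto_fp (s₁ := -1) (s₂ := 1) (Or.inr rfl) (Or.inl rfl) (-1) 0 ha (RC (-1) 1 z)
    rw [hz2] at t1
    refine (hw.comp t1).congr fun kx => ?_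
    simp only [Function.comp_apply]
    congr 1
    simp [fp, Prod.ext_iff]; ring

theorem U2_SE [NeBot l] (ha : Tendsto a l (𝓝[>] 0))
    (hN : Tendsto (fun k => a k * ((N k : ℝ) + 1)) l (𝓝 1)) {p : ℂ} (hp1 : 0 < p.re)
    (hp2 : p.im < 0) (hp : p.re - p.im = 1) (hb : BRn l a N A B C E p)
    (h2 : ∃ r > 0, ∃ M, L2ball l a p r M B) :
    ∃ r > 0, ∃ L, 0 ≤ L ∧ ∀ z, ‖z - p‖ < r → z.re - z.im < 1 → ∀ w,
      Tendsto (fun kx : ι × Pt => B kx.1 kx.2) (nf l a z) (𝓝 w) →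
      |w| ≤ L * (1 - z.re + z.im) := by
  have hR : RC 1 (-1) (RC 1 (-1) p) = p := RC_RC (Or.inl rfl) (Or.inr rfl) p
  obtain ⟨r, hr, M, hM⟩ := h2
  obtain ⟨s, hs, L, hL, hmain⟩ := U2_NE (p := RC 1 (-1) p) ha hN (by simp [RC]; exact hp1)
    (by simp [RC]; exact hp2) (by simp [RC]; linarith)
    (BRn.refy ha (by rw [hR]; exact hb)) ⟨r / 2, by positivity, M,
      L2ball.fp ha (s₁ := 1) (s₂ := -1) (Or.inl rfl) (Or.inr rfl) 0 (-1) (h := B)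
        (fun k x => by rw [neg_sq]; congr 2; simp [fp, Prod.ext_iff]; ring) hr
        (by rw [hR]; exact hM)⟩
  refine ⟨s, hs, L, hL, fun z hz hz1 w hw => ?_⟩
  have hz2 := RC_RC (Or.inl rfl) (Or.inr rfl) z (s₁ := 1) (s₂ := -1)
  have := hmain (RC 1 (-1) z) (by rw [RC_norm (Or.inl rfl) (Or.inr rfl)]; exact hz)
    (by simp [RC]; linarith) (-w) ?_
  · simp only [RC] at this
    push_cast at this
    rw [abs_neg] at this
    calc |w| ≤ _ := this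
      _ = _ := by ring
  · have t1 := tendsto_fp (s₁ := 1) (s₂ := -1) (Or.inl rfl) (Or.inr rfl) 0 (-1) ha (RC 1 (-1) z)
    rw [hz2] at t1
    refine (hw.comp t1).neg.congr fun kx => ?_
    simp only [Function.comp_apply]
    congr 2
    simp [fp, Prod.ext_iff]; ring

theorem U2_SW [NeBot l] (ha : Tendsto a l (𝓝[>] 0))
    (hN : Tendsto (fun k => a k * ((N k : ℝ) + 1)) l (𝓝 1)) {p : ℂ} (hp1 : p.re < 0)
    (hp2 : p.im < 0) (hp : -p.re - p.im = 1) (hb : BRn l a N A B C E p)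
    (h2 : ∃ r > 0, ∃ M, L2ball l a p r M A) :
    ∃ r > 0, ∃ L, 0 ≤ L ∧ ∀ z, ‖z - p‖ < r → -z.re - z.im < 1 → ∀ w,
      Tendsto (fun kx : ι × Pt => A kx.1 kx.2) (nf l a z) (𝓝 w) →
      |w| ≤ L * (1 + z.re + z.im) := by
  have hR : RC 1 (-1) (RC 1 (-1) p) = p := RC_RC (Or.inl rfl) (Or.inr rfl) p
  obtain ⟨r, hr, M, hM⟩ := h2
  obtain ⟨s, hs, L, hL, hmain⟩ := U2_NW (p := RC 1 (-1) p) ha hN (by simp [RC]; exact hp1)
    (by simp [RC]; exact hp2) (by simp [RC]; linarith)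
    (BRn.refy ha (by rw [hR]; exact hb)) ⟨r / 2, by positivity, M,
      L2ball.fp ha (s₁ := 1) (s₂ := -1) (Or.inl rfl) (Or.inr rfl) 0 (-1) (h := A)
        (fun k x => by congr 2; simp [fp, Prod.ext_iff]; ring) hr (by rw [hR]; exact hM)⟩
  refine ⟨s, hs, L, hL, fun z hz hz1 w hw => ?_⟩
  have hz2 := RC_RC (Or.inl rfl) (Or.inr rfl) z (s₁ := 1) (s₂ := -1)
  have := hmain (RC 1 (-1) z) (by rw [RC_norm (Or.inl rfl) (Or.inr rfl)]; exact hz)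
    (by simp [RC]; linarith) w ?_
  · simp only [RC] at this
    push_cast at this
    calc |w| ≤ _ := this
      _ = _ := by ring
  · have t1 := tendsto_fp (s₁ := 1) (s₂ := -1) (Or.inl rfl) (Or.inr rfl) 0 (-1) ha (RC 1 (-1) z)
    rw [hz2] at t1
    refine (hw.comp t1).congr fun kx => ?_
    simp only [Function.comp_apply]
    congr 1
    simp [fp, Prod.ext_iff]; ring

end sides

end Vale.Agent.P144.H170
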