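import Vale.Agent.P144.H170.XjLim
import Vale.Agent.P144.H365.Coef2

/-!
The behaviour of spinors at the marked points.
-/

namespace Vale.Agent.P144.H170

open Filter Topology Complex Metric

section gen

variable {ι : Type*} {l : Filter ι} {a : ι → ℝ}

/-- Translation by base points. -/
theorem tendsto_base {b : ι → Site} {c : ℂ} (hb : Tendsto (fun k => pt (a k) (b k)) l (𝓝 c))
    (z : ℂ) :
    Tendsto (fun kx : ι × Pt => (kx.1, b kx.1 + kx.2)) (nf l a z) (nf l a (c + z)) := by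
  refine tendsto_nf (φ := fun k x => b k + x) ?_
  have h2 := (hb.comp (tendsto_fst_nf z)).add (tendsto_pt_nf (l := l) (a := a) z)
  refine h2.congr fun kx => ?_
  apply Complex.ext <;> simp [pt] <;> ring

/-- Gauge transformation of the relations. -/
theorem Rel.gauge {t th t' th' A B C E : Pt → ℝ} {x : Pt} (h : Rel t th A B C E x) {G : ℝ → ℝ}
    (hG : ∀ s, G s * G s = 1)
    (h1 : t' x = t x * (G ((x.1:ℝ) + 1 / 4) * G ((x.1:ℝ) + 3 / 4)))
    (h2 : th' x = th x * (G ((x.1:ℝ) + 3 / 4) * G ((x.1:ℝ) + 5 / 4))) :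
    Rel t' th' (fun x => G ((x.1:ℝ) + 1 / 4) * A x) (fun x => G ((x.1:ℝ) + 3 / 4) * B x)
      (fun x => G ((x.1:ℝ) + 1 / 4) * C x) (fun x => G ((x.1:ℝ) + 3 / 4) * E x) x := by
  obtain ⟨k1, k2, k3, k4⟩ := h
  have g1 := hG ((x.1:ℝ) + 1 / 4)
  have g3 := hG ((x.1:ℝ) + 3 / 4)
  have g5 := hG ((x.1:ℝ) + 5 / 4)
  have e5 : (((x + ((1:ℤ), (0:ℤ))).1 : ℤ) : ℝ) + 1 / 4 = (x.1:ℝ) + 5 / 4 := by
    simp only [Prod.fst_add]; push_cast; ring
  have e6 : (((x + ((0:ℤ), (1:ℤ))).1 : ℤ) : ℝ) = (x.1:ℝ) := by simp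
  unfold Rel
  simp only [e5, e6]
  rw [h1, h2]
  refine ⟨?_, ?_, ?_, ?_⟩
  · rw [k1]; linear_combination (t x * G ((x.1:ℝ) + 1 / 4) * B (x + (0, 1))) * g3
  · rw [k2]; linear_combination (t x * G ((x.1:ℝ) + 3 / 4) * A (x + (0, 1))) * g1
  · rw [k3]; linear_combination (-(G ((x.1:ℝ) + 3 / 4) * th x *
      (√2 * A (x + (1, 0)) - C (x + (1, 0))))) * g5
  · rw [k4]; linear_combination (G ((x.1:ℝ) + 3 / 4) * th x *
      (√2 * C (x + (1, 0)) - A (x + (1, 0)))) * g5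

/-- Translation of the relations. -/
theorem Rel.trans {t th A B C E : Pt → ℝ} {b y : Pt} (h : Rel t th A B C E (b + y)) :
    Rel (fun y => t (b + y)) (fun y => th (b + y)) (fun y => A (b + y)) (fun y => B (b + y))
      (fun y => C (b + y)) (fun y => E (b + y)) y := by
  unfold Rel at *
  simp only [← add_assoc]
  exact h

/-- Convergence of a gauged component. -/
theorem alim_aux {β : Type*} {F : Filter β} {φ : ℂ →L[ℝ] ℝ} {X G : β → ℝ} {D ρ : β → ℂ}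
    {w d : ℂ} {c : ℝ} (hX : Tendsto (fun b => X b - φ (w / ((G b : ℂ) * D b * ρ b))) F (𝓝 0))
    (hG : ∀ b, G b * G b = 1) (hD : Tendsto D F (𝓝 d)) (hd : d ≠ 0)
    (hρ : Tendsto (fun b => ‖ρ b‖) F (𝓝 c)) (hc : c ≠ 0) :
    Tendsto (fun b => G b * X b - φ ((w / d) / ρ b)) F (𝓝 0) := by
  have hGn : ∀ b, |G b| = 1 := by
    intro b
    rcases mul_self_eq_one_iff.1 (hG b) with h | h <;> rw [h] <;> simp
  have h1 : Tendsto (fun b => G b * (X b - φ (w / ((G b : ℂ) * D b * ρ b)))) F (𝓝 0) := by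
    rw [tendsto_zero_iff_norm_tendsto_zero] at hX ⊢
    refine hX.congr fun b => ?_
    rw [norm_mul, Real.norm_eq_abs (G b), hGn, one_mul]
  have h2 : Tendsto (fun b => (w / D b - w / d) / ρ b) F (𝓝 0) := by
    rw [tendsto_zero_iff_norm_tendsto_zero]
    have h3 := (((tendsto_const_nhds (x := w)).div hD hd).sub_const (w / d)).norm.div hρ hc
    rw [sub_self, norm_zero, zero_div] at h3
    refine h3.congr fun b => ?_
    simp only [Pi.div_apply, norm_div]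
  have h4 := (φ.continuous.tendsto 0).comp h2
  rw [map_zero] at h4
  have h5 := h1.add h4
  rw [add_zero] at h5
  refine h5.congr fun b => ?_
  have hg0 : (G b : ℂ) ≠ 0 := by
    intro h
    rw [ofReal_eq_zero] at h
    have := hG b
    rw [h] at this
    norm_num at this
  have e1 : G b * φ (w / ((G b : ℂ) * D b * ρ b)) = φ ((w / D b) / ρ b) := by
    have : G b * φ (w / ((G b : ℂ) * D b * ρ b)) = φ (G b • (w / ((G b : ℂ) * D b * ρ b))) := by
      rw [map_smul, smul_eq_mul]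
    rw [this, real_smul]
    congr 1
    have hgg : (G b : ℂ) * (G b : ℂ) = 1 := by exact_mod_cast hG b
    have e2 : (G b : ℂ) * (w / ((G b : ℂ) * D b * ρ b)) = w / (D b * ρ b) := by
      rw [mul_assoc, ← mul_div_assoc, mul_div_mul_left _ _ hg0]
    rw [e2, div_div]
  simp only [Function.comp_apply]
  rw [mul_sub, e1, sub_div, map_sub]
  ring

end gen

section spin

variable {ι κ κ' : Type*} [Fintype κ] [Fintype κ'] [DecidableEq κ'] {l : Filter ι} {a : ι → ℝ}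
  {r : κ → ι → Site} {v : κ' → ι → Site} {ζ : κ → ℂ} {ω : κ' → ℂ} (q0 : κ')
  (S : κ → Prop) (S' : {q // q ≠ q0} → Prop)

theorem theF_erase (v : κ' → Site) (x : Pt) :
    theF v x = chi (AL.sw x.1 x.2) (v q0) * theF (fun q : {q // q ≠ q0} => v q) x :=
  Fintype.prod_eq_mul_prod_subtype_ne (fun q => chi (AL.sw x.1 x.2) (v q)) q0

theorem RR_erase (a : ℝ) (r : κ → Site) (v : κ' → Site) (w : ℂ) :
    RR a r v w = RR a r (fun q : {q // q ≠ q0} => v q) w * rtd (w - pt a (v q0)) := by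
  unfold RR
  rw [Fintype.prod_eq_mul_prod_subtype_ne (fun q => rtd (w - pt a (v q))) q0]
  ring

theorem chi_ep (b y : Pt) : chi (AL.sw (b + y).1 (b + y).2) b = H365.ep y := by
  unfold chi AL.sw H365.ep
  simp only [Prod.fst_add, Prod.snd_add]
  congr 1
  refine propext ⟨fun h => ⟨by lia, by lia⟩, fun h => ⟨by lia, by lia⟩⟩

/-- The gauge sign of the points different from `q0`. -/
noncomputable def GV (r : κ → Site) (v : κ' → Site) (t : ℝ) : ℝ :=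
  gs S S' r (fun q : {q // q ≠ q0} => v q) t

theorem GV_sq (r : κ → Site) (v : κ' → Site) (t : ℝ) : GV q0 S S' r v t * GV q0 S S' r v t = 1 :=
  gs_sq _ _ _ _ _

/-- A component of the spinor in the local gauge and coordinates at `v q0`. -/
noncomputable def gX (r : κ → ι → Site) (v : κ' → ι → Site) (s : ℝ) (X : ι → Pt → ℝ) (k : ι)
    (y : Pt) : ℝ :=
  GV q0 S S' (fun p => r p k) (fun q => v q k) (((v q0 k + y).1 : ℝ) + s) * X k (v q0 k + y)

variable (ha : Tendsto a l (𝓝[>] 0))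
    (hr : ∀ p, Tendsto (fun k => pt (a k) (r p k)) l (𝓝 (ζ p)))
    (hv : ∀ q, Tendsto (fun k => pt (a k) (v q k)) l (𝓝 (ω q)))

include ha hr hv

/-- The relations of the gauged spinor close to an inserted spin. -/
theorem rel_spin {U : Set ℂ} {A B C E : ι → Pt → ℝ} (hrel : RelOn l a U r v A B C E) {z : ℂ}
    (hz : ω q0 + z ∈ U) (hz' : ω q0 + z ∈ VS S S' ζ fun q => ω q) :
    ∀ᶠ ky in nf l a z, H365.RelO (gX q0 S S' r v (1 / 4) A ky.1) (gX q0 S S' r v (3 / 4) B ky.1)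
      (gX q0 S S' r v (1 / 4) C ky.1) (gX q0 S S' r v (3 / 4) E ky.1) ky.2 := by
  have h1 := (tendsto_base (hv q0) z).eventually (hrel _ hz)
  have h2 := (tendsto_base (hv q0) z).eventually
    (gauge_signs ha hr (fun q : {q // q ≠ q0} => hv q) hz')
  filter_upwards [h1, h2] with ky k1 k2
  obtain ⟨k, y⟩ := ky
  simp only at k1 k2 ⊢
  have hG := GV_sq q0 S S' (fun p => r p k) (fun q => v q k)
  have k3 := k1.gauge (t' := fun _ => 1) (th' := fun x => chi (AL.sw x.1 x.2) (v q0 k)) hG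
    (by
      rw [k2.1]
      have g1 := hG (((v q0 k + y).1 : ℝ) + 1 / 4)
      have g3 := hG (((v q0 k + y).1 : ℝ) + 3 / 4)
      unfold GV at g1 g3 ⊢
      linear_combination (-1) * g1 - gs S S' (fun p => r p k) (fun q : {q // q ≠ q0} => v q k)
        (((v q0 k + y).1 : ℝ) + 1 / 4) * gs S S' (fun p => r p k) (fun q : {q // q ≠ q0} => v q k)
        (((v q0 k + y).1 : ℝ) + 1 / 4) * g3)
    (by
      rw [theF_erase q0, k2.2]
      have g5 := hG (((v q0 k + y).1 : ℝ) + 5 / 4)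
      have g3 := hG (((v q0 k + y).1 : ℝ) + 3 / 4)
      unfold GV at g5 g3 ⊢
      linear_combination (-chi (AL.sw (v q0 k + y).1 (v q0 k + y).2) (v q0 k)) * g5 -
        chi (AL.sw (v q0 k + y).1 (v q0 k + y).2) (v q0 k) *
        gs S S' (fun p => r p k) (fun q : {q // q ≠ q0} => v q k)
        (((v q0 k + y).1 : ℝ) + 5 / 4) * gs S S' (fun p => r p k) (fun q : {q // q ≠ q0} => v q k)
        (((v q0 k + y).1 : ℝ) + 5 / 4) * g3)
  have k4 := k3.trans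
  unfold H365.RelO
  have e1 : (fun y => chi (AL.sw (v q0 k + y).1 (v q0 k + y).2) (v q0 k)) = H365.ep := by
    funext y; exact chi_ep _ _
  rw [e1] at k4
  exact k4

/-- The local function that encodes the limit. -/
noncomputable def gloc (q : ℂ → ℂ) (z : ℂ) : ℂ :=
  q (ω q0 + z) / RS S S' ζ (fun q => ω q) (ω q0 + z)

theorem comp_spin {U : Set ℂ} {q : ℂ → ℂ} {X : ι → Pt → ℝ} {φ : ℂ →L[ℝ] ℝ} {s t : ℝ}
    (hs : s = 1 / 4 ∨ s = 3 / 4) (hX : XLim l a U r v φ s t X q) {z : ℂ} (hz0 : z ≠ 0)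
    (hz : ω q0 + z ∈ U) (hz' : ω q0 + z ∈ VS S S' ζ fun q => ω q) :
    Tendsto (fun ky : ι × Pt => gX q0 S S' r v s X ky.1 ky.2 -
      φ (gloc (ζ := ζ) (ω := ω) q0 S S' q z / rtd (pos (a ky.1) ky.2 s t))) (nf l a z) (𝓝 0) := by
  have h1 := (hX _ hz).comp (tendsto_base (hv q0) z)
  have h2 := (RS_lim ha hr (fun q : {q // q ≠ q0} => hv q) hz' s t).comp (tendsto_base (hv q0) z)
  have h3 := ((continuous_norm.tendsto _).comp (pos_nf ha z s t)).sqrt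
  refine alim_aux (c := √‖z‖) (φ := φ) ?_ (fun b => GV_sq q0 S S' _ _ _) h2 (RS_ne hz') ?_
    (Real.sqrt_ne_zero'.2 (norm_pos_iff.2 hz0))
  · refine h1.congr' ?_
    filter_upwards [apos_nf ha z] with ky h0
    simp only [Function.comp_apply]
    congr 3
    rw [RR_erase q0, RR_eq S S' h0 _ _ _ hs t]
    congr 2
    rw [pos_eq, pos_eq]
    apply Complex.ext <;> simp [pt] <;> ring
  · refine h3.congr fun ky => ?_
    simp only [Function.comp_apply]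
    rw [norm_rtd]

theorem near_spin {U : Set ℂ} {A B C E : ι → Pt → ℝ} (hrel : RelOn l a U r v A B C E) {R : ℝ}
    (hR : ∀ z : ℂ, ‖z‖ ≤ R → ω q0 + z ∈ U ∩ VS S S' ζ fun q => ω q) :
    ∀ᶠ k in l, ∀ x : Pt, ‖pt (a k) x‖ ≤ R → ∀ y : Pt, |y.1 - x.1| ≤ 2 → |y.2 - x.2| ≤ 2 →
      H365.RelO (gX q0 S S' r v (1 / 4) A k) (gX q0 S S' r v (3 / 4) B k)
      (gX q0 S S' r v (1 / 4) C k) (gX q0 S S' r v (3 / 4) E k) y := by
  have h1 := compact_ev (l := l) (a := a) (isCompact_closedBall (0:ℂ) R)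
    (P := fun k x => ∀ y : Pt, |y.1 - x.1| ≤ (2:ℕ) → |y.2 - x.2| ≤ (2:ℕ) →
      H365.RelO (gX q0 S S' r v (1 / 4) A k) (gX q0 S S' r v (3 / 4) B k)
      (gX q0 S S' r v (1 / 4) C k) (gX q0 S S' r v (3 / 4) E k) y) fun z hz => by
    rw [mem_closedBall, dist_zero_right] at hz
    exact ev_near ha (P := fun k y => H365.RelO (gX q0 S S' r v (1 / 4) A k)
      (gX q0 S S' r v (3 / 4) B k)
      (gX q0 S S' r v (1 / 4) C k) (gX q0 S S' r v (3 / 4) E k) y)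
      (rel_spin q0 S S' ha hr hv hrel (hR z hz).1 (hR z hz).2) 2
  filter_upwards [h1] with k h2 x hx y hy1 hy2
  exact h2 x (by rwa [mem_closedBall, dist_zero_right]) y (by exact_mod_cast hy1)
    (by exact_mod_cast hy2)

end spin

section slap

variable {A B C E : Site → ℝ} {x : Site}

theorem slapA_zero (h : ∀ y : Pt, |y.1 - x.1| ≤ 2 → |y.2 - x.2| ≤ 2 → H365.RelO A B C E y)
    (hx : x ≠ (0, 0)) : H365.slap A x = 0 := by
  obtain ⟨i, j⟩ := x
  rw [H365.slap_A (h _ (by simp) (by simp)) (h _ (by simp) (by simp)) (h _ (by simp) (by simp))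
    (h _ (by simp) (by simp))]
  have : H365.ep (i - 1, j - 1) = H365.ep (i - 1, j) := by
    unfold H365.ep
    simp only
    congr 1
    refine propext ⟨fun h => ⟨h.1, ?_⟩, fun h => ⟨h.1, by lia⟩⟩
    by_contra hc
    exact hx (Prod.ext (by simp only; lia) (by simp only; lia))
  rw [this, sub_self, zero_mul]

theorem slapE_eq (h : ∀ y : Pt, |y.1 - -x.1| ≤ 2 → |y.2 - -x.2| ≤ 2 → H365.RelO A B C E y) :
    H365.slap (H365.Em E) x = H365.sgn x.1 *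
      ((H365.ep (-x.1 - 1, -x.2 - 1) - H365.ep (-x.1 - 1, -x.2 - 1 + 1)) *
        A (-x.1 - 1 + 1, -x.2 - 1 + 1)) := by
  rw [H365.slap_Em]
  congr 1
  have key : ∀ m n : ℤ, |m - -x.1| ≤ 2 → |n - -x.2| ≤ 2 → H365.RelO A B C E (m, n) :=
    fun m n h1 h2 => h (m, n) h1 h2
  exact H365.slap_E (key _ _ (by rw [abs_le]; lia) (by rw [abs_le]; lia))
    (key _ _ (by rw [abs_le]; lia) (by rw [abs_le]; lia))
    (key _ _ (by rw [abs_le]; lia) (by rw [abs_le]; lia))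
    (key _ _ (by rw [abs_le]; lia) (by rw [abs_le]; lia))
    (key _ _ (by rw [abs_le]; lia) (by rw [abs_le]; lia))

theorem slapE_zero (h : ∀ y : Pt, |y.1 - -x.1| ≤ 2 → |y.2 - -x.2| ≤ 2 → H365.RelO A B C E y)
    (hx : x ≠ (0, 0)) : H365.slap (H365.Em E) x = 0 := by
  rw [slapE_eq h]
  have : H365.ep (-x.1 - 1, -x.2 - 1) = H365.ep (-x.1 - 1, -x.2 - 1 + 1) := by
    unfold H365.ep
    simp only
    congr 1
    refine propext ⟨fun h => ⟨h.1, ?_⟩, fun h => ⟨h.1, by lia⟩⟩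
    by_contra hc
    exact hx (Prod.ext (by simp only; lia) (by simp only; lia))
  rw [this, sub_self, zero_mul, mul_zero]

theorem slapE_tip (h : ∀ y : Pt, |y.1 - -0| ≤ 2 → |y.2 - -0| ≤ 2 → H365.RelO A B C E y) :
    H365.slap (H365.Em E) (0, 0) = -2 * A (0, 0) := by
  rw [slapE_eq (x := (0, 0)) h]
  unfold H365.ep H365.sgn
  norm_num

end slap

section spin2

variable {ι κ κ' : Type*} [Fintype κ] [Fintype κ'] [DecidableEq κ'] {l : Filter ι} {a : ι → ℝ}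
  {r : κ → ι → Site} {v : κ' → ι → Site} {ζ : κ → ℂ} {ω : κ' → ℂ} (q0 : κ')
  (S : κ → Prop) (S' : {q // q ≠ q0} → Prop)
  (ha : Tendsto a l (𝓝[>] 0))
  (hr : ∀ p, Tendsto (fun k => pt (a k) (r p k)) l (𝓝 (ζ p)))
  (hv : ∀ q, Tendsto (fun k => pt (a k) (v q k)) l (𝓝 (ω q)))

include ha hr hv

theorem alim_A {U : Set ℂ} {q : ℂ → ℂ} {A : ι → Pt → ℝ}
    (hX : XLim l a U r v phA (1 / 4) (1 / 4) (fun k x => (√(a k))⁻¹ * A k x) q) {R : ℝ}
    (hR : ∀ z : ℂ, z ≠ 0 → ‖z‖ < R → ω q0 + z ∈ U ∩ VS S S' ζ fun q => ω q) :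
    H365.ALim l a R (gX q0 S S' r v (1 / 4) A) (gloc (ζ := ζ) (ω := ω) q0 S S' q) := by
  intro z hz0 hzR
  have h1 := comp_spin q0 S S' ha hr hv (Or.inl rfl) hX hz0 (hR z hz0 hzR).1 (hR z hz0 hzR).2
  refine h1.congr fun ky => ?_
  unfold gX
  rw [phA_apply]
  ring

theorem alim_E {U : Set ℂ} {q : ℂ → ℂ} {E : ι → Pt → ℝ}
    (hX : XLim l a U r v phE (3 / 4) (3 / 4) (fun k x => (√(a k))⁻¹ * E k x) q) {R : ℝ}
    (hR : ∀ z : ℂ, z ≠ 0 → ‖z‖ < R → ω q0 + z ∈ U ∩ VS S S' ζ fun q => ω q) :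
    H365.ALim l a R (fun k => H365.Em (gX q0 S S' r v (3 / 4) E k))
      fun z => gloc (ζ := ζ) (ω := ω) q0 S S' q (-z) := by
  intro z hz0 hzR
  have hz0' : -z ≠ 0 := neg_ne_zero.2 hz0
  have hzR' : ‖-z‖ < R := by rwa [norm_neg]
  have h1 := comp_spin q0 S S' ha hr hv (Or.inr rfl) hX hz0' (hR _ hz0' hzR').1 (hR _ hz0' hzR').2
  have hm : Tendsto (fun kx : ι × Pt => (kx.1, ((-kx.2.1 - 1, -kx.2.2 - 1) : Pt))) (nf l a z)
      (nf l a (-z)) := by
    refine tendsto_nf (φ := fun _ x => (-x.1 - 1, -x.2 - 1)) ?_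
    have e1 : Tendsto (fun kx : ι × Pt => ((a kx.1 : ℝ) : ℂ)) (nf l a z) (𝓝 0) := by
      have := (continuous_ofReal.tendsto 0).comp (a_nf ha z)
      rw [ofReal_zero] at this
      exact this
    have e2 := ((tendsto_pt_nf (l := l) (a := a) z).neg).sub (e1.mul_const (⟨1, 1⟩ : ℂ))
    rw [zero_mul, sub_zero] at e2
    refine e2.congr fun kx => ?_
    apply Complex.ext <;> simp [pt] <;> ring
  have h2 := h1.comp hm
  rw [tendsto_zero_iff_norm_tendsto_zero] at h2 ⊢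
  refine h2.congr' ?_
  filter_upwards [apos_nf ha z] with ky h0
  obtain ⟨k, y⟩ := ky
  simp only [Function.comp_apply]
  have e1 : pos (a k) (-y.1 - 1, -y.2 - 1) (3 / 4) (3 / 4) = -pos (a k) y (1 / 4) (1 / 4) := by
    apply Complex.ext <;> simp [pos] <;> ring
  have hre : (pos (a k) y (1 / 4) (1 / 4)).re = a k * (y.1 + 1 / 4) := rfl
  have hne : (pos (a k) y (1 / 4) (1 / 4)).re ≠ 0 := by
    rw [hre]
    refine mul_ne_zero (ne_of_gt h0) ?_
    have := (quarter_ne y.1 0 (Or.inl rfl : (1 / 4 : ℝ) = 1 / 4 ∨ (1 / 4 : ℝ) = 3 / 4)).2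
    simpa using this
  have e2 := rtd_eq_sg hne
  rw [hre, H365.sg_sgn h0] at e2
  have hs := H365.sgn_sq y.1
  have hs' : (H365.sgn y.1 : ℂ) * (H365.sgn y.1 : ℂ) = 1 := by exact_mod_cast hs
  have hinv : (H365.sgn y.1 : ℂ)⁻¹ = H365.sgn y.1 := inv_eq_of_mul_eq_one_left hs'
  set g := gloc (ζ := ζ) (ω := ω) q0 S S' q (-z) with hg
  have e3 : phE (g / rtd (pos (a k) (-y.1 - 1, -y.2 - 1) (3 / 4) (3 / 4))) =
      H365.sgn y.1 * (g / rtd (pos (a k) y (1 / 4) (1 / 4))).re := by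
    rw [e1, rtd_neg, phE_apply, e2]
    have e4 : -(g / (I * rtu (pos (a k) y (1 / 4) (1 / 4)))).im =
        (g / rtu (pos (a k) y (1 / 4) (1 / 4))).re := by
      have : g / (I * rtu (pos (a k) y (1 / 4) (1 / 4))) =
          -I * (g / rtu (pos (a k) y (1 / 4) (1 / 4))) := by
        rw [div_mul_eq_div_div_swap, div_eq_mul_inv _ I, inv_I]; ring
      rw [this, mul_im]
      simp
    rw [e4, div_mul_eq_div_div, div_eq_mul_inv _ (H365.sgn y.1 : ℂ), hinv]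
    have : g * (H365.sgn y.1 : ℂ) / rtu (pos (a k) y (1 / 4) (1 / 4)) =
        (H365.sgn y.1 : ℂ) * (g / rtu (pos (a k) y (1 / 4) (1 / 4))) := by ring
    rw [this, re_ofReal_mul, ← mul_assoc, hs, one_mul]
  rw [e3]
  have e5 : (√(a k))⁻¹ * H365.Em (gX q0 S S' r v (3 / 4) E k) y -
      (g / rtd (pos (a k) y (1 / 4) (1 / 4))).re = H365.sgn y.1 *
      (gX q0 S S' r v (3 / 4) (fun k x => (√(a k))⁻¹ * E k x) k (-y.1 - 1, -y.2 - 1) -
      H365.sgn y.1 * (g / rtd (pos (a k) y (1 / 4) (1 / 4))).re) := by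
    unfold H365.Em gX
    linear_combination ((g / rtd (pos (a k) y (1 / 4) (1 / 4))).re) * hs
  rw [e5, norm_mul]
  have : ‖H365.sgn y.1‖ = 1 := by unfold H365.sgn; split_ifs <;> simp
  rw [this, one_mul]

end spin2

section tip

variable {ι κ κ' : Type*} [Fintype κ] [Fintype κ'] [DecidableEq κ'] {a : ι → ℝ}
  {r : κ → ι → Site} {v : κ' → ι → Site} {ζ : κ → ℂ} {ω : κ' → ℂ} (q0 : κ')
  (S : κ → Prop) (S' : {q // q ≠ q0} → Prop)

omit [Fintype κ] [Fintype κ'] [DecidableEq κ'] in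
theorem exists_patR (hq1 : ∀ p, ω q0 ≠ ζ p) (hq2 : ∀ q ≠ q0, ω q0 ≠ ω q) :
    ∃ S, ∃ S' : {q // q ≠ q0} → Prop, ω q0 ∈ VS S S' ζ fun q => ω q :=
  exists_pattern hq1 fun q => hq2 q q.2

variable {q0 S S'}

omit [Fintype κ] [Fintype κ'] [DecidableEq κ'] in
theorem not_Mk {z : ℂ} (hz : z ≠ 0) (h : ω q0 + z ∈ VS S S' ζ fun q => ω q) :
    ω q0 + z ∉ Mk ζ ω := by
  obtain ⟨h1, h2⟩ := VS_ne h
  rintro (⟨p, hp⟩ | ⟨q, hq⟩)
  · exact h1 p hp.symm
  · by_cases hqq : q = q0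
    · subst hqq
      apply hz
      linear_combination hq.symm
    · exact h2 ⟨q, hqq⟩ hq.symm

theorem exists_R [Finite κ] [Finite κ'] {U : Set ℂ} (hU : IsOpen U) (h0 : ω q0 ∈ U)
    (hS : ω q0 ∈ VS S S' ζ fun q => ω q) :
    ∃ R > 0, ∀ z : ℂ, ‖z‖ ≤ R → ω q0 + z ∈ U ∩ VS S S' ζ fun q => ω q := by
  obtain ⟨R, hR, h⟩ := Metric.isOpen_iff.1 (hU.inter (VS_open S S' ζ fun q => ω q)) (ω q0) ⟨h0, hS⟩
  refine ⟨R / 2, by positivity, fun z hz => h ?_⟩
  rw [mem_ball, dist_eq_norm, add_sub_cancel_left]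
  linarith

theorem gloc_diff {U : Set ℂ} (hU : IsOpen U) {q : ℂ → ℂ} (hq : DifferentiableOn ℂ q U) {R : ℝ}
    (hR : ∀ z : ℂ, ‖z‖ ≤ R → ω q0 + z ∈ U ∩ VS S S' ζ fun q => ω q) :
    DifferentiableOn ℂ (gloc (ζ := ζ) (ω := ω) q0 S S' q) (ball 0 R) := by
  intro z hz
  rw [mem_ball, dist_zero_right] at hz
  obtain ⟨h1, h2⟩ := hR z hz.le
  have e1 : DifferentiableAt ℂ (fun z => q (ω q0 + z)) z :=
    DifferentiableAt.comp (g := q) (f := fun z => ω q0 + z) z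
      (hq.differentiableAt (hU.mem_nhds h1)) (by fun_prop)
  have e2 : DifferentiableAt ℂ (fun z => RS S S' ζ (fun q => ω q) (ω q0 + z)) z :=
    DifferentiableAt.comp (g := RS S S' ζ fun q => ω q) (f := fun z => ω q0 + z) z
      (RS_diff h2) (by fun_prop)
  exact (e1.div e2 (RS_ne h2)).differentiableWithinAt

section lims

variable {l : Ultrafilter ι} (ha : Tendsto a l (𝓝[>] 0))
  (hr : ∀ p, Tendsto (fun k => pt (a k) (r p k)) l (𝓝 (ζ p)))
  (hv : ∀ q, Tendsto (fun k => pt (a k) (v q k)) l (𝓝 (ω q)))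

include ha hr hv

/-- The value at an inserted spin. -/
theorem tip_spin {U : Set ℂ} (hU : IsOpen U) (h0 : ω q0 ∈ U) (hS : ω q0 ∈ VS S S' ζ fun q => ω q)
    {A B C E : ι → Pt → ℝ} (hrel : RelOn l a U r v A B C E) {q : ℂ → ℂ}
    (hX : XLim l a (U \ Mk ζ ω) r v phA (1 / 4) (1 / 4) (fun k x => (√(a k))⁻¹ * A k x) q)
    (hq : DifferentiableOn ℂ q U) :
    Tendsto (fun k => gX q0 S S' r v (1 / 4) A k (0, 0)) l
      (𝓝 (√(2 * Real.pi) / 2 * (H365.c0 * gloc (ζ := ζ) (ω := ω) q0 S S' q 0).re)) := by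
  obtain ⟨R, hR, hRU⟩ := exists_R hU h0 hS
  have hRU' : ∀ z : ℂ, z ≠ 0 → ‖z‖ < R → ω q0 + z ∈ (U \ Mk ζ ω) ∩ VS S S' ζ fun q => ω q :=
    fun z hz hz' => ⟨⟨(hRU z hz'.le).1, not_Mk hz (hRU z hz'.le).2⟩, (hRU z hz'.le).2⟩
  refine H365.T1 ha hR (alim_A q0 S S' ha hr hv hX hRU') (gloc_diff hU hq hRU) ?_
  filter_upwards [near_spin q0 S S' ha hr hv hrel hRU] with k hk x hx hx0
  exact slapA_zero (hk x hx.le) hx0

/-- The difference of the values at an inserted spin. -/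
theorem tip_T5 {U : Set ℂ} (hU : IsOpen U) (h0 : ω q0 ∈ U) (hS : ω q0 ∈ VS S S' ζ fun q => ω q)
    {A B C E : ι → Pt → ℝ} (hrel : RelOn l a U r v A B C E) {q : ℂ → ℂ}
    (hX : XLim l a (U \ Mk ζ ω) r v phA (1 / 4) (1 / 4) (fun k x => (√(a k))⁻¹ * A k x) q)
    (hE : XLim l a (U \ Mk ζ ω) r v phE (3 / 4) (3 / 4) (fun k x => (√(a k))⁻¹ * E k x) q)
    (hq : DifferentiableOn ℂ q U) :
    Tendsto (fun k => (a k)⁻¹ * (H365.Em (gX q0 S S' r v (3 / 4) E k) (0, 0) -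
      gX q0 S S' r v (1 / 4) A k (0, 0))) l
      (𝓝 (-(√(Real.pi / 2) / 2 *
        ((1 + I) * (H365.c0 * deriv (gloc (ζ := ζ) (ω := ω) q0 S S' q) 0)).re))) := by
  obtain ⟨R, hR, hRU⟩ := exists_R hU h0 hS
  have hRU' : ∀ z : ℂ, z ≠ 0 → ‖z‖ < R → ω q0 + z ∈ (U \ Mk ζ ω) ∩ VS S S' ζ fun q => ω q :=
    fun z hz hz' => ⟨⟨(hRU z hz'.le).1, not_Mk hz (hRU z hz'.le).2⟩, (hRU z hz'.le).2⟩
  have hneg : ∀ (k : ι) (x : Pt), ‖pt (a k) (-x)‖ = ‖pt (a k) x‖ := by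
    intro k x
    rw [← norm_neg]
    congr 1
    apply Complex.ext <;> simp [pt]
  refine H365.T5u ha hR (alim_A q0 S S' ha hr hv hX hRU') (alim_E q0 S S' ha hr hv hE hRU')
    (gloc_diff hU hq hRU) ?_ ?_ ?_
  · filter_upwards [near_spin q0 S S' ha hr hv hrel hRU] with k hk x hx hx0
    exact slapA_zero (hk x hx.le) hx0
  · filter_upwards [near_spin q0 S S' ha hr hv hrel hRU] with k hk x hx hx0
    exact slapE_zero (hk (-x) (by rw [hneg]; exact hx.le)) hx0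
  · filter_upwards [near_spin q0 S S' ha hr hv hrel hRU] with k hk
    refine slapE_tip (fun y hy1 hy2 => hk (0, 0) ?_ y ?_ ?_)
    · have : pt (a k) (0, 0) = 0 := by apply Complex.ext <;> simp [pt]
      rw [this, norm_zero]; exact hR.le
    · simpa using hy1
    · simpa using hy2

end lims

end tip

section dual

/-- Duality of the relations. -/
theorem Rel.dual {t A B C E : Pt → ℝ} {x : Pt} (h1 : Rel t (fun _ => 1) A B C E (x + (0, 1)))
    (h2 : Rel t (fun _ => 1) A B C E (x + (1, 0))) (ht : t (x + (1, 0)) * t (x + (1, 0)) = 1) :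
    Rel (fun _ => 1) (fun y => t (y + (1, 0))) (fun y => E y) (fun y => -C (y + (1, 0)))
      (fun y => B (y + (0, 1))) (fun y => -A (y + (1, 1))) x := by
  obtain ⟨-, -, k3, k4⟩ := h1
  obtain ⟨m1, m2, -, -⟩ := h2
  have e1 : x + (0, 1) + ((1:ℤ), (0:ℤ)) = x + (1, 1) := by ext <;> simp
  have e2 : x + (1, 0) + ((0:ℤ), (1:ℤ)) = x + (1, 1) := by ext <;> simp
  have h := sqrt2_sq
  rw [e1] at k3 k4
  rw [e2] at m1 m2
  unfold Rel
  simp only [e1, e2]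
  refine ⟨?_, ?_, ?_, ?_⟩
  · rw [k3, k4]; linear_combination (C (x + (1, 1))) * h
  · rw [k4]; ring
  · rw [m1, m2]
    linear_combination (-(t (x + (1, 0)) * B (x + (1, 1)))) * h + (√2 * A (x + (1, 1))) * ht
  · rw [m2]; linear_combination (A (x + (1, 1))) * ht

end dual

section dis

variable {ι κ κ' : Type*} [Fintype κ] [Fintype κ'] [DecidableEq κ] {l : Filter ι} {a : ι → ℝ}
  {r : κ → ι → Site} {v : κ' → ι → Site} {ζ : κ → ℂ} {ω : κ' → ℂ} (p0 : κ)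
  (S : {p // p ≠ p0} → Prop) (S' : κ' → Prop)

theorem tauF_erase (r : κ → Site) (x : Pt) :
    tauF r x = AL.cut1 (r p0) (x.1, x.2 + 1) * tauF (fun p : {p // p ≠ p0} => r p) x :=
  Fintype.prod_eq_mul_prod_subtype_ne (fun p => AL.cut1 (r p) (x.1, x.2 + 1)) p0

theorem RR_eraseF (a : ℝ) (r : κ → Site) (v : κ' → Site) (w : ℂ) :
    RR a r v w = RR a (fun p : {p // p ≠ p0} => r p) v w * rtu (w - cF a (r p0)) := by
  unfold RR
  rw [Fintype.prod_eq_mul_prod_subtype_ne (fun p => rtu (w - cF a (r p))) p0]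
  ring

/-- The gauge sign close to the disorder `p0`. -/
noncomputable def GF (r : κ → Site) (v : κ' → Site) (t : ℝ) : ℝ :=
  gs S S' (fun p : {p // p ≠ p0} => r p) v t * sg (t - (r p0).1 - 1 / 2)

theorem GF_sq (r : κ → Site) (v : κ' → Site) (t : ℝ) : GF p0 S S' r v t * GF p0 S S' r v t = 1 := by
  unfold GF
  have h1 := gs_sq S S' (fun p : {p // p ≠ p0} => r p) v t
  have h2 := sg_sq (t - (r p0).1 - 1 / 2)
  rw [mul_mul_mul_comm, h1, h2, one_mul]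

/-- The sign of the vertical relations with the cut of `p0` turned down. -/
noncomputable def tdn (b x : Pt) : ℝ := if x.1 = b.1 ∧ x.2 < b.2 then -1 else 1

theorem tdn_sq (b x : Pt) : tdn b x * tdn b x = 1 := by unfold tdn; split_ifs <;> norm_num

theorem cut_tdn (b x : Pt) : AL.cut1 b (x.1, x.2 + 1) *
    (sg ((x.1:ℝ) + 1 / 4 - b.1 - 1 / 2) * sg ((x.1:ℝ) + 3 / 4 - b.1 - 1 / 2)) = tdn b x := by
  rw [sgF]
  unfold AL.cut1 tdn
  simp only
  by_cases h1 : x.1 = b.1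
  · by_cases h2 : b.2 < x.2 + 1
    · rw [if_pos ⟨h1, h2⟩, if_pos h1, if_neg fun h => by lia]; norm_num
    · rw [if_neg fun h => h2 h.2, if_pos h1, if_pos ⟨h1, by lia⟩]; norm_num
  · rw [if_neg fun h => h1 h.1, if_neg h1, if_neg fun h => h1 h.1]; norm_num

theorem tdn_ep (b y : Pt) : tdn b (b + y + (1, 0)) = H365.ep y := by
  unfold tdn H365.ep
  simp only [Prod.fst_add, Prod.snd_add]
  congr 1
  refine propext ⟨fun h => ⟨by lia, by lia⟩, fun h => ⟨by lia, by lia⟩⟩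

/-- A component of the spinor in the local gauge and coordinates at `r p0`. -/
noncomputable def fX (r : κ → ι → Site) (v : κ' → ι → Site) (s : ℝ) (X : ι → Pt → ℝ) (k : ι)
    (x : Pt) : ℝ :=
  GF p0 S S' (fun p => r p k) (fun q => v q k) ((x.1 : ℝ) + s) * X k x

variable (ha : Tendsto a l (𝓝[>] 0))
    (hr : ∀ p, Tendsto (fun k => pt (a k) (r p k)) l (𝓝 (ζ p)))
    (hv : ∀ q, Tendsto (fun k => pt (a k) (v q k)) l (𝓝 (ω q)))

include ha hr hv

/-- The relations of the gauged spinor close to a disorder. -/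
theorem rel_dis {U : Set ℂ} {A B C E : ι → Pt → ℝ} (hrel : RelOn l a U r v A B C E) {w : ℂ}
    (hz : w ∈ U) (hz' : w ∈ VS S S' (fun p => ζ p) ω) :
    ∀ᶠ kx in nf l a w, Rel (tdn (r p0 kx.1)) (fun _ => 1) (fX p0 S S' r v (1 / 4) A kx.1)
      (fX p0 S S' r v (3 / 4) B kx.1)
      (fX p0 S S' r v (1 / 4) C kx.1) (fX p0 S S' r v (3 / 4) E kx.1) kx.2 := by
  have h1 := hrel _ hz
  have h2 := gauge_signs ha (fun p : {p // p ≠ p0} => hr p) hv hz'
  filter_upwards [h1, h2] with kx k1 k2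
  obtain ⟨k, x⟩ := kx
  simp only at k1 k2 ⊢
  have hG := GF_sq p0 S S' (fun p => r p k) (fun q => v q k)
  refine k1.gauge (t' := tdn (r p0 k)) (th' := fun _ => 1) hG ?_ ?_
  · rw [tauF_erase p0, k2.1, ← cut_tdn]
    unfold GF
    have g1 := gs_sq S S' (fun p : {p // p ≠ p0} => r p k) (fun q => v q k) ((x.1:ℝ) + 1 / 4)
    have g3 := gs_sq S S' (fun p : {p // p ≠ p0} => r p k) (fun q => v q k) ((x.1:ℝ) + 3 / 4)
    set G1 := gs S S' (fun p : {p // p ≠ p0} => r p k) (fun q => v q k) ((x.1:ℝ) + 1 / 4)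
    set G3 := gs S S' (fun p : {p // p ≠ p0} => r p k) (fun q => v q k) ((x.1:ℝ) + 3 / 4)
    set c := AL.cut1 (r p0 k) (x.1, x.2 + 1)
    set s1 := sg ((x.1:ℝ) + 1 / 4 - (r p0 k).1 - 1 / 2)
    set s3 := sg ((x.1:ℝ) + 3 / 4 - (r p0 k).1 - 1 / 2)
    linear_combination (-(c * s1 * s3)) * g1 - (c * s1 * s3 * G1 * G1) * g3
  · rw [k2.2]
    unfold GF
    have g5 := gs_sq S S' (fun p : {p // p ≠ p0} => r p k) (fun q => v q k) ((x.1:ℝ) + 5 / 4)
    have g3 := gs_sq S S' (fun p : {p // p ≠ p0} => r p k) (fun q => v q k) ((x.1:ℝ) + 3 / 4)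
    have s := sgF' x.1 (r p0 k).1
    set G5 := gs S S' (fun p : {p // p ≠ p0} => r p k) (fun q => v q k) ((x.1:ℝ) + 5 / 4)
    set G3 := gs S S' (fun p : {p // p ≠ p0} => r p k) (fun q => v q k) ((x.1:ℝ) + 3 / 4)
    set s5 := sg ((x.1:ℝ) + 5 / 4 - (r p0 k).1 - 1 / 2)
    set s3 := sg ((x.1:ℝ) + 3 / 4 - (r p0 k).1 - 1 / 2)
    linear_combination (-1) * s - (s3 * s5) * g5 - (s3 * s5 * G5 * G5) * g3

/-- The dual fields at the disorder `p0`. -/
theorem rel_dual {U : Set ℂ} {A B C E : ι → Pt → ℝ} (hrel : RelOn l a U r v A B C E) {z : ℂ}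
    (hz : ζ p0 + z ∈ U) (hz' : ζ p0 + z ∈ VS S S' (fun p => ζ p) ω) :
    ∀ᶠ ky in nf l a z, H365.RelO (fun y => fX p0 S S' r v (3 / 4) E ky.1 (r p0 ky.1 + y))
      (fun y => -fX p0 S S' r v (1 / 4) C ky.1 (r p0 ky.1 + y + (1, 0)))
      (fun y => fX p0 S S' r v (3 / 4) B ky.1 (r p0 ky.1 + y + (0, 1)))
      (fun y => -fX p0 S S' r v (1 / 4) A ky.1 (r p0 ky.1 + y + (1, 1))) ky.2 := by
  have h1 := ev_near ha (P := fun k x => Rel (tdn (r p0 k)) (fun _ => 1) (fX p0 S S' r v (1 / 4) A k)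
      (fX p0 S S' r v (3 / 4) B k)
      (fX p0 S S' r v (1 / 4) C k) (fX p0 S S' r v (3 / 4) E k) x)
      (rel_dis p0 S S' ha hr hv hrel hz hz') 1
  have h2 := (tendsto_base (hr p0) z).eventually h1
  filter_upwards [h2] with ky k1
  obtain ⟨k, y⟩ := ky
  simp only at k1 ⊢
  have k2 := (k1 (r p0 k + y + (0, 1)) (by simp) (by simp)).dual
    (k1 (r p0 k + y + (1, 0)) (by simp) (by simp)) (tdn_sq _ _)
  have k3 := k2.trans
  unfold H365.RelO
  have e1 : (fun y => tdn (r p0 k) (r p0 k + y + (1, 0))) = H365.ep := by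
    funext y; exact tdn_ep _ _
  rw [e1] at k3
  exact k3

/-- The local function that encodes the limit. -/
noncomputable def glocF (q : ℂ → ℂ) (z : ℂ) : ℂ :=
  I * (q (ζ p0 + z) / RS S S' (fun p => ζ p) ω (ζ p0 + z))

theorem alim_dis {U : Set ℂ} {q : ℂ → ℂ} {E : ι → Pt → ℝ}
    (hX : XLim l a U r v phE (3 / 4) (3 / 4) (fun k x => (√(a k))⁻¹ * E k x) q) {R : ℝ}
    (hR : ∀ z : ℂ, z ≠ 0 → ‖z‖ < R → ζ p0 + z ∈ U ∩ VS S S' (fun p => ζ p) ω) :
    H365.ALim l a R (fun k y => fX p0 S S' r v (3 / 4) E k (r p0 k + y))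
      (glocF (ζ := ζ) (ω := ω) p0 S S' q) := by
  intro z hz0 hzR
  obtain ⟨hz, hz'⟩ := hR z hz0 hzR
  have h1 := (hX _ hz).comp (tendsto_base (hr p0) z)
  have h2 := (RS_lim ha (fun p : {p // p ≠ p0} => hr p) hv hz' (3 / 4) (3 / 4)).comp
    (tendsto_base (hr p0) z)
  have h3 := ((continuous_norm.tendsto _).comp (pos_nf ha z (1 / 4) (1 / 4))).sqrt
  have key := alim_aux (c := √‖z‖) (φ := phE) (X := fun ky : ι × Pt => (√(a ky.1))⁻¹ *
      E ky.1 (r p0 ky.1 + ky.2))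
      (G := fun ky : ι × Pt => GF p0 S S' (fun p => r p ky.1) (fun q => v q ky.1)
      (((r p0 ky.1 + ky.2).1 : ℝ) + 3 / 4)) (w := q (ζ p0 + z))
      (ρ := fun ky : ι × Pt => rtd (pos (a ky.1) ky.2 (1 / 4) (1 / 4)))
      (F := nf l a z) ?_ (fun b => GF_sq p0 S S' _ _ _) h2 (RS_ne hz') ?_
    (Real.sqrt_ne_zero'.2 (norm_pos_iff.2 hz0))
  · refine key.congr fun ky => ?_
    unfold fX glocF
    rw [phE_apply, mul_div_assoc, mul_re, I_re, I_im]
    ring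
  · refine h1.congr' ?_
    filter_upwards [apos_nf ha z] with ky h0
    obtain ⟨k, y⟩ := ky
    simp only [Function.comp_apply]
    congr 3
    rw [RR_eraseF p0, RR_eq S S' h0 _ _ _ (Or.inr rfl) (3 / 4)]
    have e0 : pos (a k) (r p0 k + y) (3 / 4) (3 / 4) - cF (a k) (r p0 k) =
        pos (a k) y (1 / 4) (1 / 4) := by
      apply Complex.ext <;> simp [pos, cF] <;> ring
    have hre : (pos (a k) y (1 / 4) (1 / 4)).re = a k * ((y.1:ℝ) + 1 / 4) := rfl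
    have hne : (pos (a k) y (1 / 4) (1 / 4)).re ≠ 0 := by
      rw [hre]
      refine mul_ne_zero (ne_of_gt h0) ?_
      have := (quarter_ne y.1 0 (Or.inl rfl : (1 / 4 : ℝ) = 1 / 4 ∨ (1 / 4 : ℝ) = 3 / 4)).2
      simpa using this
    have e2 := rtu_eq_sg hne
    rw [hre, sg_mul_pos h0] at e2
    have e3 : (((r p0 k + y).1 : ℤ) : ℝ) + 3 / 4 - (r p0 k).1 - 1 / 2 = (y.1:ℝ) + 1 / 4 := by
      simp only [Prod.fst_add]; push_cast; ring
    rw [e0, e2]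
    unfold GF
    rw [e3]
    push_cast
    ring
  · refine h3.congr fun ky => ?_
    simp only [Function.comp_apply]
    rw [norm_rtd]

theorem near_dis {U : Set ℂ} {A B C E : ι → Pt → ℝ} (hrel : RelOn l a U r v A B C E) {R : ℝ}
    (hR : ∀ z : ℂ, ‖z‖ ≤ R → ζ p0 + z ∈ U ∩ VS S S' (fun p => ζ p) ω) :
    ∀ᶠ k in l, ∀ x : Pt, ‖pt (a k) x‖ ≤ R → ∀ y : Pt, |y.1 - x.1| ≤ 2 → |y.2 - x.2| ≤ 2 →
      H365.RelO (fun y => fX p0 S S' r v (3 / 4) E k (r p0 k + y))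
      (fun y => -fX p0 S S' r v (1 / 4) C k (r p0 k + y + (1, 0)))
      (fun y => fX p0 S S' r v (3 / 4) B k (r p0 k + y + (0, 1)))
      (fun y => -fX p0 S S' r v (1 / 4) A k (r p0 k + y + (1, 1))) y := by
  have h1 := compact_ev (l := l) (a := a) (isCompact_closedBall (0:ℂ) R)
    (P := fun k x => ∀ y : Pt, |y.1 - x.1| ≤ (2:ℕ) → |y.2 - x.2| ≤ (2:ℕ) →
      H365.RelO (fun y => fX p0 S S' r v (3 / 4) E k (r p0 k + y))
      (fun y => -fX p0 S S' r v (1 / 4) C k (r p0 k + y + (1, 0)))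
      (fun y => fX p0 S S' r v (3 / 4) B k (r p0 k + y + (0, 1)))
      (fun y => -fX p0 S S' r v (1 / 4) A k (r p0 k + y + (1, 1))) y) fun z hz => by
    rw [mem_closedBall, dist_zero_right] at hz
    exact ev_near ha (P := fun k y => H365.RelO
      (fun y => fX p0 S S' r v (3 / 4) E k (r p0 k + y))
      (fun y => -fX p0 S S' r v (1 / 4) C k (r p0 k + y + (1, 0)))
      (fun y => fX p0 S S' r v (3 / 4) B k (r p0 k + y + (0, 1)))
      (fun y => -fX p0 S S' r v (1 / 4) A k (r p0 k + y + (1, 1))) y)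
      (rel_dual p0 S S' ha hr hv hrel (hR z hz).1 (hR z hz).2) 2
  filter_upwards [h1] with k h2 x hx y hy1 hy2
  exact h2 x (by rwa [mem_closedBall, dist_zero_right]) y (by exact_mod_cast hy1)
    (by exact_mod_cast hy2)

end dis

section tipd

variable {ι κ κ' : Type*} [Fintype κ] [Fintype κ'] [DecidableEq κ] {a : ι → ℝ}
  {r : κ → ι → Site} {v : κ' → ι → Site} {ζ : κ → ℂ} {ω : κ' → ℂ} (p0 : κ)
  (S : {p // p ≠ p0} → Prop) (S' : κ' → Prop)

omit [Fintype κ] [Fintype κ'] [DecidableEq κ] in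
theorem exists_patF (hp1 : ∀ p ≠ p0, ζ p0 ≠ ζ p) (hp2 : ∀ q, ζ p0 ≠ ω q) :
    ∃ S : {p // p ≠ p0} → Prop, ∃ S', ζ p0 ∈ VS S S' (fun p => ζ p) ω :=
  exists_pattern (fun p => hp1 p p.2) hp2

variable {p0 S S'}

omit [Fintype κ] [Fintype κ'] [DecidableEq κ] in
theorem not_MkF {z : ℂ} (hz : z ≠ 0) (h : ζ p0 + z ∈ VS S S' (fun p => ζ p) ω) :
    ζ p0 + z ∉ Mk ζ ω := by
  obtain ⟨h1, h2⟩ := VS_ne h
  rintro (⟨p, hp⟩ | ⟨q, hq⟩)
  · by_cases hqq : p = p0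
    · subst hqq
      apply hz
      linear_combination hp.symm
    · exact h1 ⟨p, hqq⟩ hp.symm
  · exact h2 q hq.symm

theorem exists_RF [Finite κ] [Finite κ'] {U : Set ℂ} (hU : IsOpen U) (h0 : ζ p0 ∈ U)
    (hS : ζ p0 ∈ VS S S' (fun p => ζ p) ω) :
    ∃ R > 0, ∀ z : ℂ, ‖z‖ ≤ R → ζ p0 + z ∈ U ∩ VS S S' (fun p => ζ p) ω := by
  obtain ⟨R, hR, h⟩ := Metric.isOpen_iff.1 (hU.inter (VS_open S S' (fun p => ζ p) ω)) (ζ p0) ⟨h0, hS⟩
  refine ⟨R / 2, by positivity, fun z hz => h ?_⟩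
  rw [mem_ball, dist_eq_norm, add_sub_cancel_left]
  linarith

theorem glocF_diff {U : Set ℂ} (hU : IsOpen U) {q : ℂ → ℂ} (hq : DifferentiableOn ℂ q U) {R : ℝ}
    (hR : ∀ z : ℂ, ‖z‖ ≤ R → ζ p0 + z ∈ U ∩ VS S S' (fun p => ζ p) ω) :
    DifferentiableOn ℂ (glocF (ζ := ζ) (ω := ω) p0 S S' q) (ball 0 R) := by
  intro z hz
  rw [mem_ball, dist_zero_right] at hz
  obtain ⟨h1, h2⟩ := hR z hz.le
  have e1 : DifferentiableAt ℂ (fun z => q (ζ p0 + z)) z :=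
    DifferentiableAt.comp (g := q) (f := fun z => ζ p0 + z) z
      (hq.differentiableAt (hU.mem_nhds h1)) (by fun_prop)
  have e2 : DifferentiableAt ℂ (fun z => RS S S' (fun p => ζ p) ω (ζ p0 + z)) z :=
    DifferentiableAt.comp (g := RS S S' (fun p => ζ p) ω) (f := fun z => ζ p0 + z) z
      (RS_diff h2) (by fun_prop)
  exact ((e1.div e2 (RS_ne h2)).const_mul I).differentiableWithinAt

/-- The value at a disorder. -/
theorem tip_dis {l : Ultrafilter ι} (ha : Tendsto a l (𝓝[>] 0))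
    (hr : ∀ p, Tendsto (fun k => pt (a k) (r p k)) l (𝓝 (ζ p)))
    (hv : ∀ q, Tendsto (fun k => pt (a k) (v q k)) l (𝓝 (ω q)))
    {U : Set ℂ} (hU : IsOpen U) (h0 : ζ p0 ∈ U) (hS : ζ p0 ∈ VS S S' (fun p => ζ p) ω)
    {A B C E : ι → Pt → ℝ} (hrel : RelOn l a U r v A B C E) {q : ℂ → ℂ}
    (hE : XLim l a (U \ Mk ζ ω) r v phE (3 / 4) (3 / 4) (fun k x => (√(a k))⁻¹ * E k x) q)
    (hq : DifferentiableOn ℂ q U) :
    Tendsto (fun k => fX p0 S S' r v (3 / 4) E k (r p0 k)) l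
      (𝓝 (√(2 * Real.pi) / 2 * (H365.c0 * glocF (ζ := ζ) (ω := ω) p0 S S' q 0).re)) := by
  obtain ⟨R, hR, hRU⟩ := exists_RF hU h0 hS
  have hRU' : ∀ z : ℂ, z ≠ 0 → ‖z‖ < R → ζ p0 + z ∈ (U \ Mk ζ ω) ∩ VS S S' (fun p => ζ p) ω :=
    fun z hz hz' => ⟨⟨(hRU z hz'.le).1, not_MkF hz (hRU z hz'.le).2⟩, (hRU z hz'.le).2⟩
  have key := H365.T1 ha hR (alim_dis p0 S S' ha hr hv hE hRU') (glocF_diff hU hq hRU) ?_
  · refine key.congr fun k => ?_
    congr 1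
    ext <;> simp
  · filter_upwards [near_dis p0 S S' ha hr hv hrel hRU] with k hk x hx hx0
    exact slapA_zero (hk x hx.le) hx0

end tipd


end Vale.Agent.P144.H170
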