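import Vale.Agent.P144.H170.Tip
import Vale.Agent.P144.H365.Cont2

/-!
The value at the lower left corner of a disorder.
-/

namespace Vale.Agent.P144.H170

open Filter Topology Complex Metric

section

variable {ι κ κ' : Type*} [Fintype κ] [Fintype κ'] [DecidableEq κ] {a : ι → ℝ}
  {r : κ → ι → Site} {v : κ' → ι → Site} {ζ : κ → ℂ} {ω : κ' → ℂ} (p0 : κ)
  (S : {p // p ≠ p0} → Prop) (S' : κ' → Prop)

/-- The reflected field at the disorder `p0`. -/
noncomputable def yX (r : κ → ι → Site) (v : κ' → ι → Site) (X : ι → Pt → ℝ) (k : ι)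
    (y : Pt) : ℝ :=
  gs S S' (fun p : {p // p ≠ p0} => r p k) (fun q => v q k) (((r p0 k - y).1 : ℝ) + 1 / 4) *
    X k (r p0 k - y)

theorem em_dual (r : κ → ι → Site) (v : κ' → ι → Site) (A : ι → Pt → ℝ) (k : ι) :
    H365.Em (fun y => -fX p0 S S' r v (1 / 4) A k (r p0 k + y + (1, 1))) =
      yX p0 S S' r v A k := by
  funext y
  have e1 : r p0 k + (-y.1 - 1, -y.2 - 1) + ((1:ℤ), (1:ℤ)) = r p0 k - y := by
    ext
    · simp; ring
    · simp; ring
  unfold H365.Em yX fX GF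
  simp only
  rw [e1]
  have e2 : (((r p0 k - y).1 : ℤ) : ℝ) + 1 / 4 - (r p0 k).1 - 1 / 2 = -((y.1:ℝ) + 1 / 4) := by
    simp only [Prod.fst_sub]; push_cast; ring
  have e3 : sg (-((y.1:ℝ) + 1 / 4)) = -H365.sgn y.1 := by
    unfold H365.sgn
    by_cases h : y.1 < 0
    · have : (y.1:ℝ) ≤ -1 := by exact_mod_cast (by lia : y.1 ≤ -1)
      rw [if_pos h, sg_pos (by linarith)]; norm_num
    · have : (0:ℝ) ≤ y.1 := by exact_mod_cast (not_lt.1 h)
      rw [if_neg h, sg_neg (by linarith)]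
  rw [e2, e3]
  have hs := H365.sgn_sq y.1
  linear_combination (gs S S' (fun p : {p // p ≠ p0} => r p k) (fun q => v q k)
    (((r p0 k - y).1 : ℝ) + 1 / 4) * A k (r p0 k - y)) * hs

variable {l : Filter ι} (ha : Tendsto a l (𝓝[>] 0))
    (hr : ∀ p, Tendsto (fun k => pt (a k) (r p k)) l (𝓝 (ζ p)))
    (hv : ∀ q, Tendsto (fun k => pt (a k) (v q k)) l (𝓝 (ω q)))

include ha hr hv

theorem alim_disA {U : Set ℂ} {q : ℂ → ℂ} {A : ι → Pt → ℝ}
    (hX : XLim l a U r v phA (1 / 4) (1 / 4) (fun k x => (√(a k))⁻¹ * A k x) q) {R : ℝ}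
    (hR : ∀ z : ℂ, z ≠ 0 → ‖z‖ < R → ζ p0 + z ∈ U ∩ VS S S' (fun p => ζ p) ω) :
    H365.ALim l a R (yX p0 S S' r v A) fun z => glocF (ζ := ζ) (ω := ω) p0 S S' q (-z) := by
  intro z hz0 hzR
  obtain ⟨hz, hz'⟩ := hR (-z) (neg_ne_zero.2 hz0) (by rwa [norm_neg])
  have hm : Tendsto (fun kx : ι × Pt => (kx.1, -kx.2)) (nf l a z) (nf l a (-z)) := by
    refine tendsto_nf (φ := fun _ x => -x) ?_
    refine ((tendsto_pt_nf (l := l) (a := a) z).neg).congr fun kx => ?_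
    apply Complex.ext <;> simp [pt]
  have hb := (tendsto_base (hr p0) (-z)).comp hm
  have h1 := (hX _ hz).comp hb
  have h2 := (RS_lim ha (fun p : {p // p ≠ p0} => hr p) hv hz' (1 / 4) (1 / 4)).comp hb
  have h3 := ((continuous_norm.tendsto _).comp (pos_nf ha z (1 / 4) (1 / 4))).sqrt
  have key := alim_aux (c := √‖z‖) (φ := phA) (X := fun ky : ι × Pt => (√(a ky.1))⁻¹ *
      A ky.1 (r p0 ky.1 - ky.2))
      (G := fun ky : ι × Pt => gs S S' (fun p : {p // p ≠ p0} => r p ky.1) (fun q => v q ky.1)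
      (((r p0 ky.1 - ky.2).1 : ℝ) + 1 / 4)) (w := q (ζ p0 + -z))
      (ρ := fun ky : ι × Pt => rtu (-pos (a ky.1) ky.2 (1 / 4) (1 / 4)))
      (F := nf l a z) ?_ (fun b => gs_sq S S' _ _ _) h2 (RS_ne hz') ?_
    (Real.sqrt_ne_zero'.2 (norm_pos_iff.2 hz0))
  · refine key.congr fun ky => ?_
    unfold yX glocF
    rw [phA_apply, rtu_neg]
    have e1 : ∀ w ρ : ℂ, w / (-I * ρ) = I * w / ρ := by
      intro w ρ
      rw [div_mul_eq_div_div, div_neg, div_I]
      congr 1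
      ring
    rw [e1]
    ring
  · refine h1.congr' ?_
    filter_upwards [apos_nf ha z] with ky h0
    obtain ⟨k, y⟩ := ky
    simp only [Function.comp_apply, ← sub_eq_add_neg]
    congr 3
    rw [RR_eraseF p0, RR_eq S S' h0 _ _ _ (Or.inl rfl) (1 / 4)]
    have e0 : pos (a k) (r p0 k - y) (1 / 4) (1 / 4) - cF (a k) (r p0 k) =
        -pos (a k) y (1 / 4) (1 / 4) := by
      apply Complex.ext <;> simp [pos, cF] <;> ring
    rw [e0]
  · refine h3.congr fun ky => ?_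
    simp only [Function.comp_apply]
    rw [norm_rtu, norm_neg]

end

section tipd

variable {ι κ κ' : Type*} [Fintype κ] [Fintype κ'] [DecidableEq κ] {a : ι → ℝ}
  {r : κ → ι → Site} {v : κ' → ι → Site} {ζ : κ → ℂ} {ω : κ' → ℂ} {p0 : κ}
  {S : {p // p ≠ p0} → Prop} {S' : κ' → Prop}

/-- The value at the lower left corner of a disorder. -/
theorem tip_disA {l : Ultrafilter ι} (ha : Tendsto a l (𝓝[>] 0))
    (hr : ∀ p, Tendsto (fun k => pt (a k) (r p k)) l (𝓝 (ζ p)))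
    (hv : ∀ q, Tendsto (fun k => pt (a k) (v q k)) l (𝓝 (ω q)))
    {U : Set ℂ} (hU : IsOpen U) (h0 : ζ p0 ∈ U) (hS : ζ p0 ∈ VS S S' (fun p => ζ p) ω)
    {A B C E : ι → Pt → ℝ} (hrel : RelOn l a U r v A B C E) {q : ℂ → ℂ}
    (hA : XLim l a (U \ Mk ζ ω) r v phA (1 / 4) (1 / 4) (fun k x => (√(a k))⁻¹ * A k x) q)
    (hq : DifferentiableOn ℂ q U) :
    Tendsto (fun k => gs S S' (fun p : {p // p ≠ p0} => r p k) (fun q => v q k)
        (((r p0 k).1 : ℝ) + 1 / 4) * A k (r p0 k)) l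
      (𝓝 (√(2 * Real.pi) / 2 * (H365.c0 * glocF (ζ := ζ) (ω := ω) p0 S S' q 0).re)) := by
  obtain ⟨R, hR, hRU⟩ := exists_RF hU h0 hS
  have hRU' : ∀ z : ℂ, z ≠ 0 → ‖z‖ < R → ζ p0 + z ∈ (U \ Mk ζ ω) ∩ VS S S' (fun p => ζ p) ω :=
    fun z hz hz' => ⟨⟨(hRU z hz'.le).1, not_MkF hz (hRU z hz'.le).2⟩, (hRU z hz'.le).2⟩
  have hd : DifferentiableOn ℂ (fun z => glocF (ζ := ζ) (ω := ω) p0 S S' q (-z)) (ball 0 R) := by
    refine (glocF_diff hU hq hRU).comp differentiable_neg.differentiableOn ?_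
    intro z hz
    rw [mem_ball, dist_zero_right] at hz ⊢
    rwa [norm_neg]
  have hneg : ∀ (k : ι) (x : Pt), ‖pt (a k) (-x)‖ = ‖pt (a k) x‖ := by
    intro k x
    rw [← norm_neg]
    congr 1
    apply Complex.ext <;> simp [pt]
  have key := H365.T1 ha hR (alim_disA p0 S S' ha hr hv hA hRU') hd ?_
  · rw [neg_zero] at key
    refine key.congr fun k => ?_
    unfold yX
    have : r p0 k - ((0:ℤ), (0:ℤ)) = r p0 k := sub_zero _
    rw [this]
  · filter_upwards [near_dis p0 S S' ha hr hv hrel hRU] with k hk x hx hx0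
    rw [← em_dual]
    exact slapE_zero (hk (-x) (by rw [hneg]; exact hx.le)) hx0

end tipd

end Vale.Agent.P144.H170
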